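import Vale.Agent.P257.A.BigF
import Mathlib.CategoryTheory.Monoidal.NaturalTransformation

/-!
# P257, block T: the power functors

For a finite type `ι` and a symmetric monoidal category `M`, `pow ι : M ⥤ M` is
`X ↦ big (fun _ : ι => X)`.  It is strong braided monoidal, bijections induce monoidal natural
isomorphisms `powEquiv e`, lax braided functors commute with it (`laxPow`), and `bigMul` is a
morphism of monoid objects.
-/

open CategoryTheory MonoidalCategory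

namespace Vale.Agent.P257.T

open Vale.Agent.P257.A

universe v u v' u'

variable {ι κ ν : Type} {M : Type u} [Category.{v} M] [MonoidalCategory M] [SymmetricCategory M]

@[reassoc]
theorem tensorμ_braiding (A A' B B' : M) :
    tensorμ A A' B B' ≫ (β_ (A ⊗ B) (A' ⊗ B')).hom =
      ((β_ A A').hom ⊗ₘ (β_ B B').hom) ≫ tensorμ A' A B' B := by
  let X := six A A' B B' A A
  let a := Str.leaf X 0
  let a' := Str.leaf X 1
  let b := Str.leaf X 2
  let b' := Str.leaf X 3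
  exact Can.uniq (show [0, 1, 2, 3].Nodup by decide)
    ((Can.tensorμ a a' b b').comp (Can.braid (a.ten b) (a'.ten b')))
    (((Can.braid a a').ten (Can.braid b b')).comp (Can.tensorμ a' a b' b))

/-- the tensor product of units along a list -/
def unL : ∀ l : List ι, evL (fun _ : ι => 𝟙_ M) l ≅ 𝟙_ M
  | [] => Iso.refl _
  | _ :: l => whiskerLeftIso (𝟙_ M) (unL l) ≪≫ λ_ _

omit [SymmetricCategory M] in
theorem unL_hom : ∀ l : List ι, (unL (M := M) l).hom = mulL (𝟙_ M) l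
  | [] => rfl
  | _ :: l => congrArg (fun f => 𝟙_ M ◁ f ≫ (λ_ (𝟙_ M)).hom) (unL_hom l)

theorem tenL_cons_hom (X Y : ι → M) (i : ι) (l : List ι) : (tenL X Y (i :: l)).hom =
    (X i ⊗ Y i) ◁ (tenL X Y l).hom ≫ tensorμ (X i) (Y i) (evL X l) (evL Y l) := rfl

omit [SymmetricCategory M] in
theorem unL_cons_hom (i : ι) (l : List ι) : (unL (M := M) (i :: l)).hom =
    𝟙_ M ◁ (unL l).hom ≫ (λ_ (𝟙_ M)).hom := rfl

theorem tenL_assoc (X Y Z : ι → M) : ∀ l : List ι,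
    (tenL (fun i => X i ⊗ Y i) Z l).hom ≫ (tenL X Y l).hom ▷ evL Z l ≫
        (α_ (evL X l) (evL Y l) (evL Z l)).hom =
      mapL (fun i => (α_ (X i) (Y i) (Z i)).hom) l ≫ (tenL X (fun i => Y i ⊗ Z i) l).hom ≫
        evL X l ◁ (tenL Y Z l).hom
  | [] => by
    change (λ_ (𝟙_ M)).inv ≫ (λ_ (𝟙_ M)).inv ▷ 𝟙_ M ≫ (α_ (𝟙_ M) (𝟙_ M) (𝟙_ M)).hom =
      𝟙 (𝟙_ M) ≫ (λ_ (𝟙_ M)).inv ≫ 𝟙_ M ◁ (λ_ (𝟙_ M)).inv
    monoidal
  | i :: l => by
    change (((X i ⊗ Y i) ⊗ Z i) ◁ (tenL (fun i => X i ⊗ Y i) Z l).hom ≫ tensorμ _ _ _ _) ≫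
      ((X i ⊗ Y i) ◁ (tenL X Y l).hom ≫ tensorμ _ _ _ _) ▷ (Z i ⊗ evL Z l) ≫
        (α_ (X i ⊗ evL X l) (Y i ⊗ evL Y l) (Z i ⊗ evL Z l)).hom =
      ((α_ (X i) (Y i) (Z i)).hom ⊗ₘ mapL (fun i => (α_ (X i) (Y i) (Z i)).hom) l) ≫
        ((X i ⊗ Y i ⊗ Z i) ◁ (tenL X (fun i => Y i ⊗ Z i) l).hom ≫ tensorμ _ _ _ _) ≫
        (X i ⊗ evL X l) ◁ ((Y i ⊗ Z i) ◁ (tenL Y Z l).hom ≫ tensorμ _ _ _ _)
    have h1 := tensorμ_natural (𝟙 (X i ⊗ Y i)) (𝟙 (Z i)) (tenL X Y l).hom (𝟙 (evL Z l))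
    have h2 := tensorμ_natural (𝟙 (X i)) (𝟙 (Y i ⊗ Z i)) (𝟙 (evL X l)) (tenL Y Z l).hom
    simp only [id_tensorHom, tensorHom_id, id_whiskerRight] at h1 h2
    simp only [Category.assoc, comp_whiskerRight, MonoidalCategory.whiskerLeft_comp]
    rw [← reassoc_of% h1, ← reassoc_of% h2, associator_monoidal]
    simp only [← id_tensorHom, tensorHom_comp_tensorHom_assoc, Category.id_comp, Category.comp_id,
      Category.assoc]
    simp only [id_tensorHom]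
    rw [tenL_assoc X Y Z l]

theorem tenL_left (X : ι → M) : ∀ l : List ι,
    (tenL (fun _ => 𝟙_ M) X l).hom ≫ (unL l).hom ▷ evL X l ≫ (λ_ (evL X l)).hom =
      mapL (fun i => (λ_ (X i)).hom) l
  | [] => by
    change (λ_ (𝟙_ M)).inv ≫ 𝟙 (𝟙_ M) ▷ 𝟙_ M ≫ (λ_ (𝟙_ M)).hom = 𝟙 (𝟙_ M)
    simp
  | i :: l => by
    change ((𝟙_ M ⊗ X i) ◁ (tenL (fun _ => 𝟙_ M) X l).hom ≫ tensorμ _ _ _ _) ≫
      (𝟙_ M ◁ (unL l).hom ≫ (λ_ (𝟙_ M)).hom) ▷ (X i ⊗ evL X l) ≫ (λ_ (X i ⊗ evL X l)).hom =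
      (λ_ (X i)).hom ⊗ₘ mapL (fun i => (λ_ (X i)).hom) l
    have h1 := tensorμ_natural (𝟙 (𝟙_ M)) (𝟙 (X i)) (unL l).hom (𝟙 (evL X l))
    simp only [id_tensorHom, tensorHom_id, id_whiskerRight] at h1
    simp only [Category.assoc, comp_whiskerRight]
    rw [← reassoc_of% h1, ← leftUnitor_monoidal, ← tenL_left X l]
    simp only [← id_tensorHom, tensorHom_comp_tensorHom, Category.id_comp]

theorem tenL_right (X : ι → M) : ∀ l : List ι,
    (tenL X (fun _ => 𝟙_ M) l).hom ≫ evL X l ◁ (unL l).hom ≫ (ρ_ (evL X l)).hom =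
      mapL (fun i => (ρ_ (X i)).hom) l
  | [] => by
    change (λ_ (𝟙_ M)).inv ≫ 𝟙_ M ◁ 𝟙 (𝟙_ M) ≫ (ρ_ (𝟙_ M)).hom = 𝟙 (𝟙_ M)
    simp [← unitors_equal]
  | i :: l => by
    change ((X i ⊗ 𝟙_ M) ◁ (tenL X (fun _ => 𝟙_ M) l).hom ≫ tensorμ _ _ _ _) ≫
      (X i ⊗ evL X l) ◁ (𝟙_ M ◁ (unL l).hom ≫ (λ_ (𝟙_ M)).hom) ≫ (ρ_ (X i ⊗ evL X l)).hom =
      (ρ_ (X i)).hom ⊗ₘ mapL (fun i => (ρ_ (X i)).hom) l
    have h1 := tensorμ_natural (𝟙 (X i)) (𝟙 (𝟙_ M)) (𝟙 (evL X l)) (unL l).hom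
    simp only [id_tensorHom, tensorHom_id, id_whiskerRight] at h1
    simp only [Category.assoc, MonoidalCategory.whiskerLeft_comp]
    rw [← reassoc_of% h1, ← rightUnitor_monoidal, ← tenL_right X l]
    simp only [← id_tensorHom, tensorHom_comp_tensorHom, Category.id_comp]

theorem tenL_braiding (X Y : ι → M) : ∀ l : List ι,
    (tenL X Y l).hom ≫ (β_ (evL X l) (evL Y l)).hom =
      mapL (fun i => (β_ (X i) (Y i)).hom) l ≫ (tenL Y X l).hom
  | [] => by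
    change (λ_ (𝟙_ M)).inv ≫ (β_ (𝟙_ M) (𝟙_ M)).hom = 𝟙 (𝟙_ M) ≫ (λ_ (𝟙_ M)).inv
    simp [unitors_inv_equal]
  | i :: l => by
    change ((X i ⊗ Y i) ◁ (tenL X Y l).hom ≫ tensorμ _ _ _ _) ≫
      (β_ (X i ⊗ evL X l) (Y i ⊗ evL Y l)).hom =
      ((β_ (X i) (Y i)).hom ⊗ₘ mapL (fun i => (β_ (X i) (Y i)).hom) l) ≫
        (Y i ⊗ X i) ◁ (tenL Y X l).hom ≫ tensorμ _ _ _ _
    rw [Category.assoc, tensorμ_braiding]
    simp only [← id_tensorHom, tensorHom_comp_tensorHom_assoc, Category.id_comp, Category.comp_id]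
    rw [tenL_braiding X Y l]

theorem tenL_mulL (B : M) [MonObj B] [IsCommMonObj B] : ∀ l : List ι,
    (tenL (fun _ => B) (fun _ => B) l).hom ≫ (mulL B l ⊗ₘ mulL B l) ≫ MonObj.mul =
      mapL (fun _ => MonObj.mul) l ≫ mulL B l
  | [] => by
    change (λ_ (𝟙_ M)).inv ≫ (MonObj.one ⊗ₘ MonObj.one) ≫ MonObj.mul = 𝟙 (𝟙_ M) ≫ MonObj.one
    simp [tensorHom_def, ← unitors_equal]
  | _ :: l => by
    change ((B ⊗ B) ◁ (tenL (fun _ => B) (fun _ => B) l).hom ≫ tensorμ _ _ _ _) ≫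
      ((B ◁ mulL B l ≫ MonObj.mul) ⊗ₘ (B ◁ mulL B l ≫ MonObj.mul)) ≫ MonObj.mul =
      (MonObj.mul ⊗ₘ mapL (fun _ => MonObj.mul) l) ≫ B ◁ mulL B l ≫ MonObj.mul
    rw [Category.assoc, ← tensorHom_comp_tensorHom_assoc, ← tensorμ_natural_right_assoc,
      MonObj.mul_mul_mul_comm]
    simp only [← id_tensorHom, tensorHom_comp_tensorHom_assoc, Category.id_comp, Category.comp_id]
    rw [← tenL_mulL B l]

omit [SymmetricCategory M] in
theorem mapL_one_mulL (B : M) [MonObj B] : ∀ l : List ι,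
    mapL (fun _ => MonObj.one (X := B)) l ≫ mulL B l = (unL l).hom ≫ MonObj.one
  | [] => rfl
  | _ :: l => by
    change (MonObj.one ⊗ₘ mapL (fun _ => MonObj.one (X := B)) l) ≫ B ◁ mulL B l ≫ MonObj.mul =
      (𝟙_ M ◁ (unL l).hom ≫ (λ_ (𝟙_ M)).hom) ≫ MonObj.one
    rw [← id_tensorHom, tensorHom_comp_tensorHom_assoc, mapL_one_mulL B l]
    simp [tensorHom_def']

section lax

open Functor.LaxMonoidal

variable {N : Type u'} [Category.{v'} N] [MonoidalCategory N] [SymmetricCategory N]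
  (F : M ⥤ N) [F.LaxBraided]

theorem tenL_laxL (X Y : ι → M) : ∀ l : List ι,
    (tenL (fun i => F.obj (X i)) (fun i => F.obj (Y i)) l).hom ≫
        (laxL F X l ⊗ₘ laxL F Y l) ≫ μ F _ _ =
      mapL (fun i => μ F (X i) (Y i)) l ≫ laxL F (fun i => X i ⊗ Y i) l ≫
        F.map (tenL X Y l).hom
  | [] => by
    change (λ_ (𝟙_ N)).inv ≫ (ε F ⊗ₘ ε F) ≫ μ F (𝟙_ M) (𝟙_ M) =
      𝟙 (𝟙_ N) ≫ ε F ≫ F.map (λ_ (𝟙_ M)).inv
    rw [← left_unitality_inv, tensorHom_def']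
    simp
  | i :: l => by
    change ((F.obj (X i) ⊗ F.obj (Y i)) ◁
        (tenL (fun i => F.obj (X i)) (fun i => F.obj (Y i)) l).hom ≫ tensorμ _ _ _ _) ≫
      ((F.obj (X i) ◁ laxL F X l ≫ μ F _ _) ⊗ₘ (F.obj (Y i) ◁ laxL F Y l ≫ μ F _ _)) ≫
        μ F (X i ⊗ evL X l) (Y i ⊗ evL Y l) =
      (μ F (X i) (Y i) ⊗ₘ mapL (fun i => μ F (X i) (Y i)) l) ≫
        (F.obj (X i ⊗ Y i) ◁ laxL F (fun i => X i ⊗ Y i) l ≫ μ F _ _) ≫
          F.map ((X i ⊗ Y i) ◁ (tenL X Y l).hom ≫ tensorμ _ _ _ _)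
    rw [Category.assoc, ← tensorHom_comp_tensorHom_assoc, ← tensorμ_natural_right_assoc,
      tensorμ_comp_μ_tensorHom_μ_comp_μ, F.map_comp, Category.assoc, ← μ_natural_right_assoc]
    simp only [← id_tensorHom, tensorHom_comp_tensorHom_assoc, Category.id_comp, Category.comp_id,
      Category.assoc]
    rw [tenL_laxL X Y l]

theorem unL_laxL : ∀ l : List ι,
    mapL (fun _ : ι => ε F) l ≫ laxL F (fun _ => 𝟙_ M) l ≫ F.map (unL l).hom =
      (unL l).hom ≫ ε F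
  | [] => by
    change 𝟙 (𝟙_ N) ≫ ε F ≫ F.map (𝟙 (𝟙_ M)) = 𝟙 (𝟙_ N) ≫ ε F
    simp
  | i :: l => by
    change (ε F ⊗ₘ mapL (fun _ : ι => ε F) l) ≫
      (F.obj (𝟙_ M) ◁ laxL F (fun _ => 𝟙_ M) l ≫ μ F _ _) ≫
        F.map (𝟙_ M ◁ (unL l).hom ≫ (λ_ (𝟙_ M)).hom) =
      (𝟙_ N ◁ (unL l).hom ≫ (λ_ (𝟙_ N)).hom) ≫ ε F
    rw [F.map_comp, Category.assoc, ← μ_natural_right_assoc]
    simp only [← id_tensorHom, tensorHom_comp_tensorHom_assoc, Category.id_comp, Category.comp_id,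
      Category.assoc]
    rw [unL_laxL l, tensorHom_def', Category.assoc, ← left_unitality]
    simp

end lax

variable [Finite ι] [Finite κ] [Finite ν]

variable (ι M) in
/-- the unordered tensor product of units -/
noncomputable def bigUnit : big (fun _ : ι => 𝟙_ M) ≅ 𝟙_ M := unL (enum ι)

omit [SymmetricCategory M] in
theorem bigUnit_hom : (bigUnit ι M).hom = bigMul ι (𝟙_ M) := unL_hom _

@[reassoc (attr := simp)]
theorem bigEquiv_bigUnit (e : ι ≃ κ) :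
    (bigEquiv e (fun _ => 𝟙_ M)).hom ≫ (bigUnit κ M).hom = (bigUnit ι M).hom := by
  rw [bigUnit_hom, bigUnit_hom, bigEquiv_bigMul]

@[reassoc]
theorem bigTensor_assoc' (X Y Z : ι → M) :
    (bigTensor (fun i => X i ⊗ Y i) Z).hom ≫ (bigTensor X Y).hom ▷ big Z ≫
        (α_ (big X) (big Y) (big Z)).hom =
      bigMap (fun i => (α_ (X i) (Y i) (Z i)).hom) ≫ (bigTensor X (fun i => Y i ⊗ Z i)).hom ≫
        big X ◁ (bigTensor Y Z).hom := tenL_assoc X Y Z _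

@[reassoc]
theorem bigTensor_left (X : ι → M) :
    (bigTensor (fun _ => 𝟙_ M) X).hom ≫ (bigUnit ι M).hom ▷ big X ≫ (λ_ (big X)).hom =
      bigMap (fun i => (λ_ (X i)).hom) := tenL_left X _

@[reassoc]
theorem bigTensor_right (X : ι → M) :
    (bigTensor X (fun _ => 𝟙_ M)).hom ≫ big X ◁ (bigUnit ι M).hom ≫ (ρ_ (big X)).hom =
      bigMap (fun i => (ρ_ (X i)).hom) := tenL_right X _

@[reassoc]
theorem bigTensor_braiding (X Y : ι → M) :
    (bigTensor X Y).hom ≫ (β_ (big X) (big Y)).hom =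
      bigMap (fun i => (β_ (X i) (Y i)).hom) ≫ (bigTensor Y X).hom := tenL_braiding X Y _

@[reassoc]
theorem bigTensor_bigMul (B : M) [MonObj B] [IsCommMonObj B] :
    (bigTensor (fun _ : ι => B) (fun _ => B)).hom ≫ (bigMul ι B ⊗ₘ bigMul ι B) ≫ MonObj.mul =
      bigMap (fun _ => MonObj.mul) ≫ bigMul ι B := tenL_mulL B _

omit [SymmetricCategory M] in
@[reassoc]
theorem bigMap_one_bigMul (B : M) [MonObj B] :
    bigMap (fun _ : ι => MonObj.one (X := B)) ≫ bigMul ι B = (bigUnit ι M).hom ≫ MonObj.one :=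
  mapL_one_mulL B _

section lax

open Functor.LaxMonoidal

variable {N : Type u'} [Category.{v'} N] [MonoidalCategory N] [SymmetricCategory N]
  (F : M ⥤ N) [F.LaxBraided]

@[reassoc]
theorem bigTensor_laxBig (X Y : ι → M) :
    (bigTensor (fun i => F.obj (X i)) (fun i => F.obj (Y i))).hom ≫
        (laxBig F X ⊗ₘ laxBig F Y) ≫ μ F _ _ =
      bigMap (fun i => μ F (X i) (Y i)) ≫ laxBig F (fun i => X i ⊗ Y i) ≫
        F.map (bigTensor X Y).hom := tenL_laxL F X Y _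

@[reassoc]
theorem bigUnit_laxBig :
    bigMap (fun _ : ι => ε F) ≫ laxBig F (fun _ => 𝟙_ M) ≫ F.map (bigUnit ι M).hom =
      (bigUnit ι N).hom ≫ ε F := unL_laxL F _

end lax

variable (ι) in
/-- the power functor -/
@[simps] noncomputable def pow : M ⥤ M where
  obj X := big (fun _ : ι => X)
  map f := bigMap (fun _ : ι => f)
  map_id _ := bigMap_id _
  map_comp _ _ := bigMap_comp _ _

variable (ι M) in
/-- the monoidal structure of the power functor -/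
noncomputable def powCore : (pow ι : M ⥤ M).CoreMonoidal where
  εIso := (bigUnit ι M).symm
  μIso X Y := (bigTensor (fun _ : ι => X) (fun _ => Y)).symm
  μIso_hom_natural_left {X X'} f Y := by
    have := bigMap_bigTensor (fun _ : ι => f) (fun _ => 𝟙 Y)
    simp only [tensorHom_id, bigMap_id] at this
    change bigMap (fun _ : ι => f) ▷ big (fun _ : ι => Y) ≫ (bigTensor _ _).inv =
      (bigTensor _ _).inv ≫ bigMap (fun _ : ι => f ▷ Y)
    rw [Iso.comp_inv_eq, Category.assoc, this, Iso.inv_hom_id_assoc]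
  μIso_hom_natural_right {X X'} Y f := by
    have := bigMap_bigTensor (fun _ : ι => 𝟙 Y) (fun _ => f)
    simp only [id_tensorHom, bigMap_id] at this
    change big (fun _ : ι => Y) ◁ bigMap (fun _ : ι => f) ≫ (bigTensor _ _).inv =
      (bigTensor _ _).inv ≫ bigMap (fun _ : ι => Y ◁ f)
    rw [Iso.comp_inv_eq, Category.assoc, this, Iso.inv_hom_id_assoc]
  associativity X Y Z := by
    change (bigTensor _ _).inv ▷ big (fun _ : ι => Z) ≫ (bigTensor _ _).inv ≫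
      bigMap (fun _ : ι => (α_ X Y Z).hom) = (α_ _ _ _).hom ≫
        big (fun _ : ι => X) ◁ (bigTensor _ _).inv ≫ (bigTensor _ _).inv
    rw [← cancel_mono (bigTensor (fun _ : ι => X) (fun _ => Y ⊗ Z)).hom,
      ← cancel_mono (big (fun _ : ι => X) ◁ (bigTensor (fun _ : ι => Y) (fun _ => Z)).hom)]
    simp only [Category.assoc]
    rw [← bigTensor_assoc' (fun _ : ι => X) (fun _ => Y) (fun _ => Z)]
    simp
  left_unitality X := by
    change (λ_ _).hom = (bigUnit ι M).inv ▷ big (fun _ : ι => X) ≫ (bigTensor _ _).inv ≫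
      bigMap (fun _ : ι => (λ_ X).hom)
    rw [← bigTensor_left (fun _ : ι => X)]
    simp
  right_unitality X := by
    change (ρ_ _).hom = big (fun _ : ι => X) ◁ (bigUnit ι M).inv ≫ (bigTensor _ _).inv ≫
      bigMap (fun _ : ι => (ρ_ X).hom)
    rw [← bigTensor_right (fun _ : ι => X)]
    simp

noncomputable instance : (pow ι : M ⥤ M).Monoidal := (powCore ι M).toMonoidal

open Functor.LaxMonoidal Functor.OplaxMonoidal

theorem pow_μ (X Y : M) : μ (pow ι) X Y = (bigTensor (fun _ : ι => X) (fun _ => Y)).inv := rfl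
theorem pow_δ (X Y : M) : δ (pow ι) X Y = (bigTensor (fun _ : ι => X) (fun _ => Y)).hom := rfl
theorem pow_ε : ε (pow ι : M ⥤ M) = (bigUnit ι M).inv := rfl
theorem pow_η : η (pow ι : M ⥤ M) = (bigUnit ι M).hom := rfl

noncomputable instance : (pow ι : M ⥤ M).Braided where
  braided X Y := by
    change (bigTensor _ _).inv ≫ bigMap (fun _ : ι => (β_ X Y).hom) =
      (β_ (big (fun _ : ι => X)) (big (fun _ : ι => Y))).hom ≫ (bigTensor _ _).inv
    rw [Iso.inv_comp_eq, bigTensor_braiding_assoc, Iso.hom_inv_id, Category.comp_id]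

variable (M) in
/-- bijections induce isomorphisms of power functors -/
noncomputable def powEquiv (e : ι ≃ κ) : (pow ι : M ⥤ M) ≅ pow κ :=
  NatIso.ofComponents (fun X => bigEquiv e (fun _ => X))
    (fun f => bigMap_bigEquiv e (fun _ => f))

theorem powEquiv_hom_app (e : ι ≃ κ) (X : M) :
    (powEquiv M e).hom.app X = (bigEquiv e (fun _ => X)).hom := rfl

theorem powEquiv_inv_app (e : ι ≃ κ) (X : M) :
    (powEquiv M e).inv.app X = (bigEquiv e (fun _ => X)).inv := rfl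

theorem powEquiv_refl : (powEquiv M (Equiv.refl ι)).hom = 𝟙 _ := by
  ext X
  exact bigEquiv_refl (fun _ => X)

theorem powEquiv_trans (e : ι ≃ κ) (e' : κ ≃ ν) :
    (powEquiv M (e.trans e')).hom = (powEquiv M e).hom ≫ (powEquiv M e').hom := by
  ext X
  exact bigEquiv_trans e e' (fun _ => X)

theorem powEquiv_symm (e : ι ≃ κ) : (powEquiv M e.symm).hom = (powEquiv M e).inv := by
  rw [← cancel_epi (powEquiv M e).hom, ← powEquiv_trans, Equiv.self_trans_symm, powEquiv_refl,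
    Iso.hom_inv_id]

instance (e : ι ≃ κ) : (powEquiv M e).hom.IsMonoidal where
  unit := by
    change (bigUnit ι M).inv ≫ (bigEquiv e (fun _ => 𝟙_ M)).hom = (bigUnit κ M).inv
    rw [Iso.inv_comp_eq, ← bigEquiv_bigUnit_assoc e, Iso.hom_inv_id, Category.comp_id]
  tensor X Y := by
    change (bigTensor _ _).inv ≫ (bigEquiv e (fun _ => X ⊗ Y)).hom =
      ((bigEquiv e (fun _ => X)).hom ⊗ₘ (bigEquiv e (fun _ => Y)).hom) ≫ (bigTensor _ _).inv
    rw [Iso.inv_comp_eq, ← bigEquiv_bigTensor_assoc e (fun _ => X) (fun _ => Y), Iso.hom_inv_id,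
      Category.comp_id]

section lax

variable {N : Type u'} [Category.{v'} N] [MonoidalCategory N] [SymmetricCategory N]
  (F : M ⥤ N) [F.LaxBraided]

variable (ι) in
/-- lax braided functors commute laxly with power functors -/
@[simps] noncomputable def laxPow : F ⋙ pow ι ⟶ pow ι ⋙ F where
  app X := laxBig F (fun _ : ι => X)
  naturality _ _ f := bigMap_laxBig F (fun _ : ι => f)

instance : (laxPow ι F).IsMonoidal where
  unit := by
    change ((bigUnit ι N).inv ≫ bigMap (fun _ : ι => ε F)) ≫ laxBig F (fun _ => 𝟙_ M) =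
      ε F ≫ F.map (bigUnit ι M).inv
    rw [Category.assoc, Iso.inv_comp_eq, ← bigUnit_laxBig_assoc, ← F.map_comp, Iso.hom_inv_id,
      F.map_id, Category.comp_id]
  tensor X Y := by
    change ((bigTensor _ _).inv ≫ bigMap (fun _ : ι => μ F X Y)) ≫ laxBig F (fun _ => X ⊗ Y) =
      (laxBig F (fun _ : ι => X) ⊗ₘ laxBig F (fun _ => Y)) ≫ μ F _ _ ≫ F.map (bigTensor _ _).inv
    rw [Category.assoc, Iso.inv_comp_eq, bigTensor_laxBig_assoc, ← F.map_comp, Iso.hom_inv_id,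
      F.map_id, Category.comp_id]

end lax

end Vale.Agent.P257.T
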