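import Vale.Agent.P257.T.Adj
import Vale.Agent.P257.A.Map

/-!
# P257, block T: idempotent copointed functors

For a lax braided functor `R : M ⥤ M` with a monoidal transformation `e : R ⟶ 𝟭 M` such that
`e (R X) = R (e X)` (`Idem e`), the objects `X` with `e X` invertible (`Co e X`) are closed under
tensor products, colimits and cell attachments of algebras; maps `X ⟶ B` lift uniquely to `R B`.
-/

open CategoryTheory MonoidalCategory Limits Functor.LaxMonoidal

namespace Vale.Agent.P257.T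

open Vale.Agent.P257.A

set_option linter.unusedSectionVars false

universe v u

variable {M : Type u} [Category.{v} M] {R : M ⥤ M} (e : R ⟶ 𝟭 M)

/-- the components of `e : R ⟶ 𝟭 M` -/
def eap (X : M) : R.obj X ⟶ X := e.app X

theorem eap_eq (X : M) : eap e X = e.app X := rfl

@[reassoc]
theorem eap_nat {X Y : M} (f : X ⟶ Y) : R.map f ≫ eap e Y = eap e X ≫ f := e.naturality f

/-- idempotent copointed functors -/
def Idem : Prop := ∀ X, eap e (R.obj X) = R.map (eap e X)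

/-- the objects on which `e` is invertible -/
def Co (X : M) : Prop := IsIso (eap e X)

variable {e} {X Y B : M}

theorem Idem.co (h : Idem e) (s : X ⟶ R.obj X) (hs : s ≫ eap e X = 𝟙 X) : Co e X :=
  ⟨s, by rw [← eap_nat, h, ← R.map_comp, hs, R.map_id], hs⟩

namespace Co

/-- the inverse of `e X` -/
noncomputable def sec (hX : Co e X) : X ⟶ R.obj X := @inv _ _ _ _ (eap e X) hX

@[reassoc (attr := simp)]
theorem sec_eap (hX : Co e X) : hX.sec ≫ eap e X = 𝟙 X := @IsIso.inv_hom_id _ _ _ _ _ hX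

@[reassoc (attr := simp)]
theorem eap_sec (hX : Co e X) : eap e X ≫ hX.sec = 𝟙 _ := @IsIso.hom_inv_id _ _ _ _ _ hX

instance (hX : Co e X) : IsIso hX.sec := ⟨eap e X, hX.sec_eap, hX.eap_sec⟩

@[reassoc]
theorem sec_nat (hX : Co e X) (hY : Co e Y) (f : X ⟶ Y) : f ≫ hY.sec = hX.sec ≫ R.map f := by
  rw [← hX.sec_eap_assoc (f ≫ hY.sec), ← eap_nat_assoc, hY.eap_sec, Category.comp_id]

@[reassoc]
theorem sec_map_eap (hX : Co e X) (f : X ⟶ B) : hX.sec ≫ R.map f ≫ eap e B = f := by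
  rw [eap_nat, hX.sec_eap_assoc]

theorem eq_sec_map (h : Idem e) (hX : Co e X) (f : X ⟶ R.obj B) :
    f = hX.sec ≫ R.map (f ≫ eap e B) := by
  rw [R.map_comp, ← h, eap_nat, hX.sec_eap_assoc]

theorem ext (h : Idem e) (hX : Co e X) {f g : X ⟶ R.obj B} (k : f ≫ eap e B = g ≫ eap e B) :
    f = g := by rw [hX.eq_sec_map h f, k, ← hX.eq_sec_map h g]

theorem of_iso (hX : Co e X) (i : X ≅ Y) : Co e Y := by
  have : eap e Y = R.map i.inv ≫ eap e X ≫ i.hom := by
    rw [eap_nat_assoc, i.inv_hom_id, Category.comp_id]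
  have hX' : IsIso (eap e X) := hX
  rw [Co, this]
  infer_instance

theorem of_retract (h : Idem e) (hY : Co e Y) (i : X ⟶ Y) (r : Y ⟶ X) (k : i ≫ r = 𝟙 X) :
    Co e X := h.co (i ≫ hY.sec ≫ R.map r) (by
  rw [Category.assoc, Category.assoc, hY.sec_map_eap, k])

theorem of_isColimit (h : Idem e) {K : Type} [SmallCategory K] {F : K ⥤ M} {c : Cocone F}
    (hc : IsColimit c) (hF : ∀ j, Co e (F.obj j)) : Co e c.pt :=
  h.co (hc.desc ⟨_, fun j => (hF j).sec ≫ R.map (c.ι.app j), fun i j f => by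
      dsimp
      rw [(hF i).sec_nat_assoc (hF j), ← R.map_comp, c.w, Category.comp_id]⟩)
    (hc.hom_ext fun j => by
      rw [hc.fac_assoc, Category.assoc, Category.comp_id]
      exact (hF j).sec_map_eap _)

theorem of_isPushout (h : Idem e) {A B C D : M} {f : A ⟶ B} {g : A ⟶ C} {i : B ⟶ D} {j : C ⟶ D}
    (k : IsPushout f g i j) (hA : Co e A) (hB : Co e B) (hC : Co e C) : Co e D :=
  of_isColimit h k.isColimit fun l => by
    rcases l with _ | _ | _
    exacts [hA, hB, hC]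

theorem of_isZero [HasZeroMorphisms M] (h : Idem e) (hX : IsZero X) : Co e X :=
  h.co 0 (hX.eq_of_src _ _)

end Co

section mon

variable [MonoidalCategory M] [R.LaxMonoidal] [e.IsMonoidal]

variable (e) in
@[reassoc (attr := simp)]
theorem ε_eap : ε R ≫ eap e (𝟙_ M) = 𝟙 _ := NatTrans.IsMonoidal.unit (τ := e)

variable (e) in
@[reassoc]
theorem μ_eap (X Y : M) : μ R X Y ≫ eap e (X ⊗ Y) = eap e X ⊗ₘ eap e Y :=
  (NatTrans.IsMonoidal.tensor (τ := e) X Y).trans (Category.comp_id _)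

theorem Co.unit (h : Idem e) : Co e (𝟙_ M) := h.co (ε R) (ε_eap e)

theorem Co.tensor (h : Idem e) (hX : Co e X) (hY : Co e Y) : Co e (X ⊗ Y) :=
  h.co ((hX.sec ⊗ₘ hY.sec) ≫ μ R X Y) (by
    rw [Category.assoc, μ_eap, tensorHom_comp_tensorHom, hX.sec_eap, hY.sec_eap, id_tensorHom_id])

theorem Co.sec_unit (hX : Co e (𝟙_ M)) : hX.sec = ε R := by
  rw [← Category.id_comp hX.sec, ← ε_eap e, Category.assoc, hX.eap_sec, Category.comp_id]

theorem Co.sec_tensor (hX : Co e X) (hY : Co e Y) (hXY : Co e (X ⊗ Y)) :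
    hXY.sec = (hX.sec ⊗ₘ hY.sec) ≫ μ R X Y := by
  rw [← Category.comp_id (μ R X Y), ← hXY.eap_sec, μ_eap_assoc, tensorHom_comp_tensorHom_assoc,
    hX.sec_eap, hY.sec_eap, id_tensorHom_id, Category.id_comp]

end mon

section alg

variable [MonoidalCategory M] [SymmetricCategory M] [R.LaxBraided] [e.IsMonoidal]

theorem Co.big (h : Idem e) {ι : Type} [Finite ι] {X : ι → M} (hX : ∀ i, Co e (X i)) :
    Co e (big X) := by
  have k : ∀ l : List ι, Co e (evL X l) := fun l => by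
    induction l with
    | nil => exact Co.unit h
    | cons i l ih => exact (hX i).tensor h ih
  exact k _

variable (e) in
/-- `e` as an algebra map -/
def eAlg (B : CommMon M) : R.mapCommMon.obj B ⟶ B :=
  @mkAh M _ _ _ (R.mapCommMon.obj B) B (eap e B.X)
    { one_hom := by
        change (ε R ≫ R.map MonObj.one) ≫ eap e B.X = MonObj.one
        rw [Category.assoc, eap_nat, ε_eap_assoc]
      mul_hom := by
        change (μ R B.X B.X ≫ R.map MonObj.mul) ≫ eap e B.X =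
          (eap e B.X ⊗ₘ eap e B.X) ≫ MonObj.mul
        rw [Category.assoc, eap_nat, μ_eap_assoc] }

@[simp] theorem ah_eAlg (B : CommMon M) : ah (eAlg e B) = eap e B.X := rfl

@[reassoc]
theorem eAlg_nat {B B' : CommMon M} (f : B ⟶ B') :
    R.mapCommMon.map f ≫ eAlg e B' = eAlg e B ≫ f := ah_ext (eap_nat e (ah f))

theorem Co.isIso_eAlg {B : CommMon M} (hB : Co e B.X) : IsIso (eAlg e B) :=
  isIso_of_ah (eAlg e B) (h := hB)

/-- the inverse of `e` as an algebra map -/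
noncomputable def Co.secAlg {B : CommMon M} (hB : Co e B.X) : B ⟶ R.mapCommMon.obj B :=
  @inv _ _ _ _ (eAlg e B) hB.isIso_eAlg

@[reassoc (attr := simp)]
theorem Co.secAlg_eAlg {B : CommMon M} (hB : Co e B.X) : hB.secAlg ≫ eAlg e B = 𝟙 B :=
  @IsIso.inv_hom_id _ _ _ _ _ hB.isIso_eAlg

@[reassoc (attr := simp)]
theorem Co.eAlg_secAlg {B : CommMon M} (hB : Co e B.X) : eAlg e B ≫ hB.secAlg = 𝟙 _ :=
  @IsIso.hom_inv_id _ _ _ _ _ hB.isIso_eAlg

theorem Co.ahR_secAlg {B : CommMon M} (hB : Co e B.X) : ahR hB.secAlg = hB.sec := by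
  have h : ahR hB.secAlg ≫ eap e B.X = 𝟙 _ := congrArg ah hB.secAlg_eAlg
  rw [← Category.id_comp hB.sec, ← h, Category.assoc, hB.eap_sec, Category.comp_id]

@[reassoc]
theorem Co.secAlg_nat {B B' : CommMon M} (hB : Co e B.X) (hB' : Co e B'.X) (f : B ⟶ B') :
    f ≫ hB'.secAlg = hB.secAlg ≫ R.mapCommMon.map f := by
  rw [← hB.secAlg_eAlg_assoc (f ≫ hB'.secAlg), ← eAlg_nat_assoc, hB'.eAlg_secAlg,
    Category.comp_id]

/-- attaching a cell -/
theorem Co.of_isAtt (h : Idem e) {c : X ⟶ Y} {B B' : CommMon M} {x : X ⟶ B.X} {i : B ⟶ B'}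
    {χ : Y ⟶ B'.X} (H : IsAtt c x i χ) (hX : Co e X) (hY : Co e Y) (hB : Co e B.X) :
    Co e B'.X := by
  obtain ⟨ψ, h1, h2⟩ := H.desc (hB.secAlg ≫ R.mapCommMon.map i) (hY.sec ≫ R.map χ) (by
    change c ≫ hY.sec ≫ R.map χ = x ≫ ahR hB.secAlg ≫ R.map (ah i)
    rw [hB.ahR_secAlg, hX.sec_nat_assoc hY, hX.sec_nat_assoc hB, ← R.map_comp, ← R.map_comp,
      H.w])
  have k : ψ ≫ eAlg e B' = 𝟙 B' := H.ext
    (by rw [reassoc_of% h1, eAlg_nat, hB.secAlg_eAlg_assoc, Category.comp_id])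
    (by
      change χ ≫ ahR ψ ≫ eap e B'.X = χ ≫ 𝟙 _
      have h2' : χ ≫ ahR ψ = hY.sec ≫ R.map χ := h2
      rw [reassoc_of% h2', hY.sec_map_eap, Category.comp_id])
  exact h.co (ahR ψ) (congrArg ah k)

end alg

end Vale.Agent.P257.T
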