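import Vale.Agent.P257.T.Adj
import Vale.Agent.P257.A.MapE
import Vale.Agent.P251.H.Five

/-!
# P257, block T: functors which commute with tensoring with spaces

* `Ten L`: a natural isomorphism `ten L X K : L X ⊗ J K ≅ L (X ⊗ J K)`;
* such functors preserve homotopies, null homotopies (`tenCone`) and (if they preserve pushouts)
  mapping cones; their right adjoints preserve homotopies;
* `IsAttach.exists_adj`, `IsAttach.ext_adj`: algebra maps `B' ⟶ R Z` out of a cell attachment.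
-/

open CategoryTheory MonoidalCategory Limits Functor.LaxMonoidal Functor.OplaxMonoidal

namespace Vale.Agent.P257.T

open Vale.Agent.P251.G (LC)
open Vale.Agent.P251.G.LC (RR II HH)
open Vale.Agent.P251.H Vale.Agent.P251.H.StabInput Vale.Agent.P251.H.LP
open Vale.Agent.P257.A Vale.Agent.P257.E

set_option linter.unusedSectionVars false

universe v u v' u' v'' u''

variable {M : Type u} [Category.{v} M] [MonoidalCategory M] [SymmetricCategory M]
  [MonoidalClosed M] [HasZeroMorphisms M] [HasColimitsOfSize.{0, 0} M] [StabInput M]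
  {N : Type u'} [Category.{v'} N] [MonoidalCategory N] [SymmetricCategory N]
  [MonoidalClosed N] [HasZeroMorphisms N] [HasColimitsOfSize.{0, 0} N] [StabInput N]
  {P : Type u''} [Category.{v''} P] [MonoidalCategory P] [SymmetricCategory P]
  [MonoidalClosed P] [HasZeroMorphisms P] [HasColimitsOfSize.{0, 0} P] [StabInput P]

/-- functors which commute with tensoring with spaces -/
class Ten (L : M ⥤ N) where
  /-- the comparison isomorphism -/
  iso (X : M) (K : LC) : L.obj X ⊗ (J N).obj K ≅ L.obj (X ⊗ (J M).obj K)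
  natL {X X' : M} (f : X ⟶ X') (K : LC) :
    L.map f ▷ (J N).obj K ≫ (iso X' K).hom = (iso X K).hom ≫ L.map (f ▷ (J M).obj K)
  natR (X : M) {K K' : LC} (f : K ⟶ K') :
    L.obj X ◁ (J N).map f ≫ (iso X K').hom = (iso X K).hom ≫ L.map (X ◁ (J M).map f)
  unit (X : M) : (ρ_ (L.obj X)).inv ≫ L.obj X ◁ ε (J N) ≫ (iso X (𝟙_ LC)).hom =
    L.map ((ρ_ X).inv ≫ X ◁ ε (J M))
  assoc (X : M) (K K' : LC) :
    (iso X K).hom ▷ (J N).obj K' ≫ (iso (X ⊗ (J M).obj K) K').hom ≫
        L.map ((α_ _ _ _).hom ≫ X ◁ μ (J M) K K') =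
      (α_ _ _ _).hom ≫ L.obj X ◁ μ (J N) K K' ≫ (iso X (K ⊗ K')).hom

section api

variable (L : M ⥤ N) [Ten L]

/-- the comparison isomorphism -/
def ten (X : M) (K : LC) : L.obj X ⊗ (J N).obj K ≅ L.obj (X ⊗ (J M).obj K) := Ten.iso X K

@[reassoc]
theorem ten_natL {X X' : M} (f : X ⟶ X') (K : LC) :
    L.map f ▷ (J N).obj K ≫ (ten L X' K).hom = (ten L X K).hom ≫ L.map (f ▷ (J M).obj K) :=
  Ten.natL f K

@[reassoc]
theorem ten_natR (X : M) {K K' : LC} (f : K ⟶ K') :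
    L.obj X ◁ (J N).map f ≫ (ten L X K').hom = (ten L X K).hom ≫ L.map (X ◁ (J M).map f) :=
  Ten.natR X f

@[reassoc]
theorem ten_inv_natL {X X' : M} (f : X ⟶ X') (K : LC) :
    L.map (f ▷ (J M).obj K) ≫ (ten L X' K).inv = (ten L X K).inv ≫ L.map f ▷ (J N).obj K := by
  rw [Iso.comp_inv_eq, Category.assoc, ten_natL, Iso.inv_hom_id_assoc]

@[reassoc]
theorem ten_inv_natR (X : M) {K K' : LC} (f : K ⟶ K') :
    L.map (X ◁ (J M).map f) ≫ (ten L X K').inv = (ten L X K).inv ≫ L.obj X ◁ (J N).map f := by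
  rw [Iso.comp_inv_eq, Category.assoc, ten_natR, Iso.inv_hom_id_assoc]

@[reassoc]
theorem ten_unit (X : M) : (ρ_ (L.obj X)).inv ≫ L.obj X ◁ ε (J N) ≫ (ten L X (𝟙_ LC)).hom =
    L.map ((ρ_ X).inv ≫ X ◁ ε (J M)) := Ten.unit X

@[reassoc]
theorem ten_assoc (X : M) (K K' : LC) :
    (ten L X K).hom ▷ (J N).obj K' ≫ (ten L (X ⊗ (J M).obj K) K').hom ≫
        L.map ((α_ _ _ _).hom ≫ X ◁ μ (J M) K K') =
      (α_ _ _ _).hom ≫ L.obj X ◁ μ (J N) K K' ≫ (ten L X (K ⊗ K')).hom := Ten.assoc X K K'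

@[reassoc]
theorem pt_ten (X : M) {K : LC} (e : 𝟙_ LC ⟶ K) :
    ((ρ_ (L.obj X)).inv ≫ L.obj X ◁ (ε (J N) ≫ (J N).map e)) ≫ (ten L X K).hom =
      L.map ((ρ_ X).inv ≫ X ◁ (ε (J M) ≫ (J M).map e)) := by
  rw [MonoidalCategory.whiskerLeft_comp, Category.assoc, Category.assoc, ten_natR,
    ten_unit_assoc, ← L.map_comp, MonoidalCategory.whiskerLeft_comp, Category.assoc]

@[reassoc]
theorem inc_ten (t : unitInterval) (X : M) :
    inc t (L.obj X) ≫ (ten L X II).hom = L.map (inc t X) := pt_ten L X _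

@[reassoc]
theorem coneBase_ten (X : M) : coneBase (L.obj X) ≫ (ten L X HH).hom = L.map (coneBase X) :=
  pt_ten L X _

@[reassoc]
theorem map_inc_ten_inv (t : unitInterval) (X : M) :
    L.map (inc t X) ≫ (ten L X II).inv = inc t (L.obj X) := by
  rw [Iso.comp_inv_eq, inc_ten]

@[reassoc]
theorem map_coneBase_ten_inv (X : M) :
    L.map (coneBase X) ≫ (ten L X HH).inv = coneBase (L.obj X) := by
  rw [Iso.comp_inv_eq, coneBase_ten]

@[reassoc]
theorem ccoll_ten (X : M) :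
    ccoll (L.obj X) ≫ (ten L X RR).hom = (ten L X HH).hom ≫ L.map (ccoll X) := ten_natR L X _

theorem ten_map_zero (X Y : M) : L.map (0 : X ⟶ Y) = 0 := by
  have h : (0 : X ⟶ Y) = ((ρ_ X).inv ≫ X ◁ (ε (J M) ≫ (J M).map (0 : 𝟙_ LC ⟶ 𝟙_ LC))) ≫
      X ◁ η (J M) ≫ (ρ_ X).hom ≫ 0 := by
    rw [comp_zero, comp_zero, comp_zero]
  rw [h, L.map_comp, ← pt_ten, J_map_zero, comp_zero, whiskerLeft_zero', comp_zero, zero_comp,
    zero_comp]

instance : L.PreservesZeroMorphisms := ⟨ten_map_zero L⟩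

theorem mHtpy_map {X Y : M} {f g : X ⟶ Y} (h : MHtpy f g) : MHtpy (L.map f) (L.map g) := by
  obtain ⟨H, h0, h1⟩ := h
  exact ⟨(ten L X II).hom ≫ L.map H, by rw [inc_ten_assoc, ← L.map_comp, h0],
    by rw [inc_ten_assoc, ← L.map_comp, h1]⟩

theorem mContr_obj {X : M} (h : MContr X) : MContr (L.obj X) := by
  have := mHtpy_map L h
  rwa [L.map_id, L.map_zero] at this

/-- the image of a map out of a cone -/
def tenCone {X Z : M} (χ : X ⊗ CI M ⟶ Z) : L.obj X ⊗ CI N ⟶ L.obj Z :=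
  (ten L X HH).hom ≫ L.map χ

theorem tenCone_def {X Z : M} (χ : X ⊗ CI M ⟶ Z) :
    tenCone L χ = (ten L X HH).hom ≫ L.map χ := rfl

@[reassoc]
theorem coneBase_tenCone {X Z : M} (χ : X ⊗ CI M ⟶ Z) :
    coneBase (L.obj X) ≫ tenCone L χ = L.map (coneBase X ≫ χ) := by
  rw [tenCone, coneBase_ten_assoc, L.map_comp]

@[reassoc]
theorem tenCone_map {X Z Z' : M} (χ : X ⊗ CI M ⟶ Z) (f : Z ⟶ Z') :
    tenCone L χ ≫ L.map f = tenCone L (χ ≫ f) := by
  rw [tenCone, tenCone, Category.assoc, L.map_comp]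

@[reassoc]
theorem whiskerRight_tenCone {X X' Z : M} (a : X' ⟶ X) (χ : X ⊗ CI M ⟶ Z) :
    L.map a ▷ CI N ≫ tenCone L χ = tenCone L (a ▷ CI M ≫ χ) := by
  rw [tenCone, tenCone, ten_natL_assoc, L.map_comp]

theorem isPushout_tenCone [PreservesColimitsOfShape WalkingSpan L] {X Y C : M} {f : X ⟶ Y}
    {k : X ⊗ CI M ⟶ C} {i : Y ⟶ C} (h : IsPushout (coneBase X) f k i) :
    IsPushout (coneBase (L.obj X)) (L.map f) (tenCone L k) (L.map i) :=
  (h.map L).of_iso (Iso.refl _) (ten L X HH).symm (Iso.refl _) (Iso.refl _)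
    (by rw [Iso.symm_hom, map_coneBase_ten_inv, Iso.refl_hom, Category.id_comp]) (by simp)
    (by simp [tenCone]) (by simp)

theorem isCone_map [PreservesColimitsOfShape WalkingSpan L] {X Y C : M} {f : X ⟶ Y}
    {k : X ⊗ CI M ⟶ C} {i : Y ⟶ C} {q : C ⟶ X ⊗ S M} (h : IsCone f k i q) :
    IsCone (L.map f) (tenCone L k) (L.map i) (L.map q ≫ (ten L X RR).inv) where
  po := isPushout_tenCone L h.po
  kq := by
    rw [tenCone_map_assoc, h.kq, tenCone, Category.assoc, ten_inv_natR, Iso.hom_inv_id_assoc]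
  iq := by rw [← L.map_comp_assoc, h.iq, L.map_zero, zero_comp]

section adj

variable {L} {R : N ⥤ M} (adj : L ⊣ R)

theorem mHtpy_homEquiv {X : M} {Z : N} {f g : L.obj X ⟶ Z} (h : MHtpy f g) :
    MHtpy (adj.homEquiv _ _ f) (adj.homEquiv _ _ g) := by
  obtain ⟨H, h0, h1⟩ := h
  refine ⟨adj.homEquiv _ _ ((ten L X II).inv ≫ H), ?_, ?_⟩
  · rw [← adj.homEquiv_naturality_left, map_inc_ten_inv_assoc, h0]
  · rw [← adj.homEquiv_naturality_left, map_inc_ten_inv_assoc, h1]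

theorem mHtpy_homEquiv_symm {X : M} {Z : N} {f g : X ⟶ R.obj Z} (h : MHtpy f g) :
    MHtpy ((adj.homEquiv _ _).symm f) ((adj.homEquiv _ _).symm g) := by
  rw [adj.homEquiv_counit, adj.homEquiv_counit]
  exact (mHtpy_map L h).comp_right _

theorem mHtpy_homEquiv_iff {X : M} {Z : N} {f g : L.obj X ⟶ Z} :
    MHtpy (adj.homEquiv _ _ f) (adj.homEquiv _ _ g) ↔ MHtpy f g :=
  ⟨fun h => by simpa using mHtpy_homEquiv_symm adj h, mHtpy_homEquiv adj⟩

include adj in
theorem mHtpy_map_right {Z W : N} {f g : Z ⟶ W} (h : MHtpy f g) : MHtpy (R.map f) (R.map g) := by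
  have := mHtpy_homEquiv adj (h.comp_left (adj.counit.app Z))
  simpa [adj.homEquiv_unit] using this

include adj in
theorem hCof_map {X Y : M} {i : X ⟶ Y} (h : HCof i) : HCof (L.map i) := by
  intro Z f H e
  obtain ⟨K, k0, k1⟩ := h (R.obj Z) (adj.homEquiv _ _ f)
    (adj.homEquiv _ _ ((ten L X II).inv ≫ H)) (by
      rw [← adj.homEquiv_naturality_left, map_inc_ten_inv_assoc, e,
        adj.homEquiv_naturality_left])
  refine ⟨(ten L Y II).hom ≫ (adj.homEquiv _ _).symm K, ?_, ?_⟩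
  · rw [inc_ten_assoc, ← adj.homEquiv_naturality_left_symm, k0, Equiv.symm_apply_apply]
  · rw [ten_natL_assoc, ← adj.homEquiv_naturality_left_symm, k1, Equiv.symm_apply_apply,
      Iso.hom_inv_id_assoc]

variable [L.OplaxMonoidal] [R.LaxBraided] [adj.IsMonoidal] {Z : CommMon N}

/-- extension of an algebra map `B ⟶ R Z` over an attached cell -/
theorem _root_.Vale.Agent.P257.A.IsAttach.exists_adj {X : M} {B B' : CommMon M} {i : B ⟶ B'}
    {x : X ⟶ B.X} {χ : X ⊗ CI M ⟶ B'.X} (H : IsAttach i x χ) (φ : B ⟶ R.mapCommMon.obj Z)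
    (h : L.obj X ⊗ CI N ⟶ Z.X) (w : coneBase (L.obj X) ≫ h = L.map x ≫ tr adj φ) :
    ∃ ψ : B' ⟶ R.mapCommMon.obj Z, i ≫ ψ = φ ∧ tenCone L χ ≫ tr adj ψ = h := by
  obtain ⟨ψ, h1, h2⟩ := IsAtt.exists_adj adj H φ ((ten L X HH).inv ≫ h) (by
    rw [map_coneBase_ten_inv_assoc, w])
  exact ⟨ψ, h1, by rw [tenCone, Category.assoc, h2, Iso.hom_inv_id_assoc]⟩

theorem _root_.Vale.Agent.P257.A.IsAttach.ext_adj {X : M} {B B' : CommMon M} {i : B ⟶ B'}
    {x : X ⟶ B.X} {χ : X ⊗ CI M ⟶ B'.X} (H : IsAttach i x χ)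
    {ψ ψ' : B' ⟶ R.mapCommMon.obj Z} (h1 : i ≫ ψ = i ≫ ψ')
    (h2 : tenCone L χ ≫ tr adj ψ = tenCone L χ ≫ tr adj ψ') : ψ = ψ' :=
  IsAtt.ext_adj adj H h1 (by
    rw [tenCone, Category.assoc, Category.assoc] at h2
    exact (cancel_epi _).1 h2)

end adj

end api

section inst

/-- strong monoidal functors which are compatible with the functors from spaces -/
@[reducible] noncomputable def Ten.ofMon (F : M ⥤ N) [F.Braided] (θ : J N ≅ J M ⋙ F)
    [θ.hom.IsMonoidal] : Ten F where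
  iso := jLax F θ
  natL := jLax_naturality F θ
  natR := jLax_naturality_right F θ
  unit X := by
    have h1 := NatTrans.IsMonoidal.unit (τ := θ.hom)
    rw [jLax_hom, ← MonoidalCategory.whiskerLeft_comp_assoc, h1, comp_ε,
      MonoidalCategory.whiskerLeft_comp_assoc, μ_natural_right, right_unitality_inv_assoc,
      F.map_comp]
  assoc X K K' := by
    have h1 := NatTrans.IsMonoidal.tensor (τ := θ.hom) K K'
    rw [jLax_hom, jLax_hom, jLax_hom, ← MonoidalCategory.whiskerLeft_comp_assoc, h1, comp_μ,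
      MonoidalCategory.whiskerLeft_comp_assoc, MonoidalCategory.whiskerLeft_comp_assoc,
      μ_natural_right, F.map_comp, comp_whiskerRight, tensorHom_def,
      MonoidalCategory.whiskerLeft_comp_assoc]
    simp only [Category.assoc]
    rw [← whisker_exchange_assoc]
    erw [Functor.LaxMonoidal.associativity_assoc]
    erw [associator_naturality_right_assoc, associator_naturality_middle_assoc]

instance : Ten (𝟭 M) where
  iso _ _ := Iso.refl _
  natL _ _ := by simp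
  natR _ _ _ _ := by simp
  unit _ := by simp
  assoc _ _ _ := by simp

instance (L : M ⥤ N) (L' : N ⥤ P) [Ten L] [Ten L'] : Ten (L ⋙ L') where
  iso X K := ten L' (L.obj X) K ≪≫ L'.mapIso (ten L X K)
  natL f K := by
    change L'.map (L.map f) ▷ _ ≫ (ten L' _ K).hom ≫ L'.map (ten L _ K).hom =
      ((ten L' _ K).hom ≫ L'.map (ten L _ K).hom) ≫ L'.map (L.map _)
    rw [ten_natL_assoc, ← L'.map_comp, ten_natL, L'.map_comp, Category.assoc]
  natR X _ _ f := by
    change L'.obj (L.obj X) ◁ _ ≫ (ten L' _ _).hom ≫ L'.map (ten L _ _).hom =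
      ((ten L' _ _).hom ≫ L'.map (ten L _ _).hom) ≫ L'.map (L.map _)
    rw [ten_natR_assoc, ← L'.map_comp, ten_natR, L'.map_comp, Category.assoc]
  unit X := by
    change (ρ_ (L'.obj (L.obj X))).inv ≫ L'.obj (L.obj X) ◁ _ ≫ (ten L' _ _).hom ≫
      L'.map (ten L _ _).hom = L'.map (L.map _)
    rw [ten_unit_assoc, ← L'.map_comp, Category.assoc, ten_unit]
  assoc X K K' := by
    change ((ten L' _ _).hom ≫ L'.map (ten L _ _).hom) ▷ _ ≫
      ((ten L' _ _).hom ≫ L'.map (ten L _ _).hom) ≫ L'.map (L.map _) =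
      (α_ (L'.obj (L.obj X)) _ _).hom ≫ L'.obj (L.obj X) ◁ _ ≫ (ten L' _ _).hom ≫
        L'.map (ten L _ _).hom
    rw [comp_whiskerRight, Category.assoc, Category.assoc, ten_natL_assoc, ← L'.map_comp,
      ← L'.map_comp, ten_assoc, ← ten_assoc_assoc, ← L'.map_comp, Category.assoc]

theorem ten_comp_hom (L : M ⥤ N) (L' : N ⥤ P) [Ten L] [Ten L'] (X : M) (K : LC) :
    (ten (L ⋙ L') X K).hom = (ten L' (L.obj X) K).hom ≫ L'.map (ten L X K).hom := rfl

instance (A : M) : Ten (tensorLeft A) where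
  iso X K := α_ A X ((J M).obj K)
  natL f K := associator_naturality_middle A f _
  natR X _ _ f := associator_naturality_right A X _
  unit X := by
    change (ρ_ (A ⊗ X)).inv ≫ (A ⊗ X) ◁ _ ≫ (α_ _ _ _).hom = A ◁ _
    simp
  assoc X K K' := by
    change (α_ A X _).hom ▷ _ ≫ (α_ A _ _).hom ≫ A ◁ _ = (α_ (A ⊗ X) _ _).hom ≫ (A ⊗ X) ◁ _ ≫
      (α_ _ _ _).hom
    simp

theorem ten_tensorLeft_hom (A X : M) (K : LC) :
    (ten (tensorLeft A) X K).hom = (α_ A X ((J M).obj K)).hom := rfl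

variable {G H : Type} [Group G] [Group H]

noncomputable instance : Ten (triv G : M ⥤ _) where
  iso X K := Functor.Monoidal.μIso (triv G) X ((J M).obj K)
  natL f K := μ_natural_left (triv G) f _
  natR X _ _ f := μ_natural_right (triv G) X ((J M).map f)
  unit X := Action.hom_ext _ _ (by simp)
  assoc X K K' := Action.hom_ext _ _ (by simp)

@[simp] theorem ten_triv_hom_hom (X : M) (K : LC) :
    (ten (triv G) X K).hom.hom = 𝟙 (X ⊗ (J M).obj K) := rfl

@[simp] theorem ten_triv_inv_hom (X : M) (K : LC) :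
    (ten (triv G) X K).inv.hom = 𝟙 (X ⊗ (J M).obj K) := rfl

theorem tenCone_triv {X Z : M} (χ : X ⊗ CI M ⟶ Z) : tenCone (triv G) χ = trivCone G χ :=
  Action.hom_ext _ _ (Category.id_comp _)

noncomputable instance : Ten (Action.forget M G) where
  iso _ _ := Iso.refl _
  natL _ _ := (Category.comp_id _).trans (Category.id_comp _).symm
  natR _ _ _ _ := (Category.comp_id _).trans (Category.id_comp _).symm
  unit X := by
    change (ρ_ X.V).inv ≫ X.V ◁ ε (J M) ≫ 𝟙 _ = ((ρ_ X).inv ≫ X ◁ ε (J (Action M G))).hom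
    simp
  assoc X K K' := by
    change 𝟙 (X.V ⊗ (J M).obj K) ▷ _ ≫ 𝟙 _ ≫ ((α_ X _ _).hom ≫ X ◁ μ (J (Action M G)) K K').hom =
      (α_ X.V _ _).hom ≫ X.V ◁ μ (J M) K K' ≫ 𝟙 _
    simp

@[simp] theorem ten_forget_hom (X : Action M G) (K : LC) :
    (ten (Action.forget M G) X K).hom = 𝟙 (X.V ⊗ (J M).obj K) := rfl

noncomputable instance (φ : H →* G) : Ten (res φ : Action M G ⥤ _) where
  iso _ _ := Action.mkIso (Iso.refl _) fun _ => (Category.comp_id _).trans (Category.id_comp _).symm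
  natL _ _ := Action.hom_ext _ _ ((Category.comp_id _).trans (Category.id_comp _).symm)
  natR _ _ _ _ := Action.hom_ext _ _ ((Category.comp_id _).trans (Category.id_comp _).symm)
  unit X := Action.hom_ext _ _ (by simp)
  assoc X K K' := Action.hom_ext _ _ (by simp)

@[simp] theorem ten_res_hom_hom (φ : H →* G) (X : Action M G) (K : LC) :
    (ten (res φ) X K).hom.hom = 𝟙 (X.V ⊗ (J M).obj K) := rfl

theorem tenCone_res (φ : H →* G) {X Z : Action M G} (χ : X ⊗ CI (Action M G) ⟶ Z) :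
    tenCone (res φ) χ = resCone φ χ := Action.hom_ext _ _ (Category.id_comp _)

end inst

end Vale.Agent.P257.T
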