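import Vale.Agent.P257.T.Fr
import Vale.Agent.P257.T.Core
import Vale.Agent.P257.T.Ten
import Vale.Agent.P257.A.BigLC
import Vale.Agent.P257.D.Base

/-!
# P257, block T: the diagonal and the Frobenius on the objects fixed by a truncation

For an idempotent copointed functor `e : ρ ⟶ 𝟭 J` of the index category:
* `resE e : res ρ ⟶ 𝟭 (EF J)` is idempotent; `co_rep`, `co_jC`;
* `dg h hX : lanG θ X ⟶ powG X` for `hX : Co (resE e) X`, natural and monoidal; `dg_rep` (an
  isomorphism on representables if `τ` is one), `dg_jC` (the diagonal of a space);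
* `frobA h hB : B ⟶ resG θ (triv B)`, with `tr_frobA`, `map_tr_frobA`, `frobA_nat`.
-/

open CategoryTheory MonoidalCategory Limits Functor.LaxMonoidal Functor.OplaxMonoidal OnePoint

namespace Vale.Agent.P257.T

open Vale.Agent.P257.D Vale.Agent.P257.D.EF Vale.Agent.P257.A
open Vale.Agent.P257.E (act mkAct mkHom triv act_one act_mul act_comm mapA JA)
open Vale.Agent.P251.G (LC)
open Vale.Agent.P251.G.LC (smash)
open Vale.Agent.P251.H (StabInput)

set_option linter.unusedSectionVars false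

variable {J J' : Type} [Idx J] [Idx J'] {G : Type} [Group G]

section ten

variable [SphIdx J] [SphIdx J'] {Φ : J ⥤ J'} [IdxFun Φ] [Φ.Braided]

variable (Φ) in
/-- the Kan extension commutes with the functors from spaces -/
noncomputable def lanJ' : StabInput.J (EF J') ≅ StabInput.J (EF J) ⋙ lan Φ := (lanJ Φ).symm

instance : (lanJ' Φ).hom.IsMonoidal := inferInstanceAs (lanJ Φ).inv.IsMonoidal

noncomputable instance : Ten (lan Φ) := Ten.ofMon (lan Φ) (lanJ' Φ)

theorem ten_lan (X : EF J) (K : LC) : ten (lan Φ) X K = jLax (lan Φ) (lanJ' Φ) X K := rfl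

variable (θ : FAct G Φ) [θ.IsMon]

/-- the equivariant Kan extension commutes with the functors from spaces -/
noncomputable def lanGJ' : StabInput.J (Action (EF J') G) ≅ StabInput.J (EF J) ⋙ lanG θ :=
  (lanGJ θ).symm

instance : (lanGJ' θ).hom.IsMonoidal := inferInstanceAs (lanGJ θ).inv.IsMonoidal

noncomputable instance : Ten (lanG θ) := Ten.ofMon (lanG θ) (lanGJ' θ)

theorem ten_lanG (X : EF J) (K : LC) : ten (lanG θ) X K = jLax (lanG θ) (lanGJ' θ) X K := rfl

theorem ten_lanG_hom (X : EF J) (K : LC) : (ten (lanG θ) X K).hom =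
    (lanG θ).obj X ◁ (lanGJIso θ K).inv ≫ μ (lanG θ) X ((jC J).obj K) := rfl

theorem ten_lanG_hom_hom (X : EF J) (K : LC) :
    (ten (lanG θ) X K).hom.hom = (ten (lan Φ) X K).hom := by
  rw [ten_lanG_hom, Action.comp_hom, Action.whiskerLeft_hom, FAct.lift_μ_hom]
  rfl

end ten

section resE

variable {ρ : J ⥤ J} [IdxFun ρ] (e : ρ ⟶ 𝟭 J)

/-- the transformation `res ρ ⟶ 𝟭` -/
def resE : res ρ ⟶ 𝟭 (EF J) where
  app X := (resMap e).app X
  naturality _ _ f := (resMap e).naturality f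

theorem fn_eap_resE {X : EF J} {a : J} (x : OnePoint (X.obj (ρ.obj a))) :
    fn (eap (resE e) X) (ri ρ x) = X.act (eap e a) x := rfl

theorem eap_resE_app (X : EF J) (a : J) : (eap (resE e) X).app a = X.map (eap e a) := rfl

instance [ρ.LaxMonoidal] [e.IsMonoidal] : (resE e).IsMonoidal where
  unit := rep_hom_ext (by
    change fn (eap (resE e) (𝟙_ _)) (fn (resEps ρ) (pr (𝟙 _))) = pr (𝟙 _)
    rw [fn_resEps, fn_eap_resE]
    refine (rep_act _ _).trans ?_
    rw [ρ.map_id, Category.comp_id, ε_eap])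
  tensor X Y := tensor_ext fun a b x y => by
    obtain ⟨x, rfl⟩ := ri_surjective x
    obtain ⟨y, rfl⟩ := ri_surjective y
    change fn (eap (resE e) (X ⊗ Y)) (fn (resMu ρ X Y) (tm (ri ρ x) (ri ρ y))) =
      fn (eap (resE e) X ⊗ₘ eap (resE e) Y) (tm (ri ρ x) (ri ρ y))
    rw [fn_resMu, fn_eap_resE, tensorHom_tm, fn_eap_resE, fn_eap_resE, ← act_comp, μ_eap,
      act_tm]

variable {e}

theorem Idem.resE (h : Idem e) : Idem (resE e) := fun X => EF.hom_ext fun a x => by
  obtain ⟨x, rfl⟩ := ri_surjective x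
  obtain ⟨x, rfl⟩ := ri_surjective x
  rw [fn_eap_resE, fn_res_map, fn_eap_resE, act_ri, h]

theorem Co.act_sec {X : EF J} (hX : Co (resE e) X) {a : J} (x : OnePoint (X.obj a)) :
    X.act (eap e a) (unri (fn hX.sec x)) = x := by
  rw [← fn_eap_resE, ri_unri, ← fn_comp, hX.sec_eap, fn_id]

theorem Co.fn_sec_act {X : EF J} (hX : Co (resE e) X) {a : J}
    (x : OnePoint (X.obj (ρ.obj a))) : fn hX.sec (X.act (eap e a) x) = ri ρ x := by
  rw [← fn_eap_resE, ← fn_comp, hX.eap_sec, fn_id]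

theorem Co.fn_sec {X : EF J} (hX : Co (resE e) X) {a : J} (ha : Co e a)
    (x : OnePoint (X.obj a)) : fn hX.sec x = ri ρ (X.act ha.sec x) := by
  rw [← hX.fn_sec_act, ← act_comp, ha.sec_eap, act_id]

theorem co_rep (h : Idem e) {c : J} (hc : Co e c) : Co (resE e) (rep c) :=
  h.resE.co (yo (X := (res ρ).obj (rep c)) (ri ρ (pr hc.sec))) (rep_hom_ext (by
    rw [fn_comp, fn_yo_pr, act_id, fn_eap_resE, rep_act, hc.sec_eap, fn_id]))

theorem Co.sec_rep {c : J} (hc : Co e c) (hX : Co (resE e) (rep c)) :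
    hX.sec = yo (X := (res ρ).obj (rep c)) (ri ρ (pr hc.sec)) := rep_hom_ext (by
  rw [fn_yo_pr, act_id, hX.fn_sec hc, rep_act, Category.id_comp])

variable [ρ.LaxMonoidal] [e.IsMonoidal]

theorem co_F (h : Idem e) (A : P251.H.PQ) : Co (resE e) ((F J).obj A) :=
  h.resE.co (Fyo (X := (res ρ).obj ((F J).obj A)) (Funit A ≫ ((F J).obj A).map (ε ρ)))
    (F_hom_ext fun k => by
      rw [fn_comp, fn_Fyo_id]
      change ((F J).obj A).act (eap e _) (((F J).obj A).act (ε ρ) (fm k (𝟙 _))) = _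
      rw [← act_comp, ε_eap, act_id, fn_id])

theorem co_jC (h : Idem e) (K : LC) : Co (resE e) ((jC J).obj K) := co_F h _

theorem Co.fn_sec_jm {K : LC} (hX : Co (resE e) ((jC J).obj K)) (k : OnePoint K) {a : J}
    (x : 𝟙_ J ⟶ a) : fn hX.sec (jm k x) = ri ρ (jm k (ε ρ ≫ ρ.map x)) := by
  rw [← hX.fn_sec_act, jC_act, Category.assoc, eap_nat, ε_eap_assoc]

end resE

section pows

variable {ι : Type} [Finite ι]

omit [Finite ι] in
theorem fn_laxL_jC {K : ι → LC} {a : ι → J} (k : ∀ i, OnePoint (K i)) (u : ∀ i, 𝟙_ J ⟶ a i) :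
    ∀ l : List ι, fn (laxL (jC J) K l) (tmL (X := fun i => (jC J).obj (K i))
      (fun i => jm (k i) (u i)) l) = jm (smL k l) ((unL l).inv ≫ mapL u l)
  | [] => (fn_ε_jC _).trans (congrArg (jm _) (Category.id_comp _).symm)
  | i :: l => by
    change fn (μ (jC J) (K i) (evL K l)) (fn ((jC J).obj (K i) ◁ laxL (jC J) K l)
      (tm (jm (k i) (u i)) _)) = _
    rw [whiskerLeft_tm, fn_laxL_jC k u l, fn_μ_jC]
    congr 1
    change smp _ _ = ((λ_ (𝟙_ J)).inv ≫ 𝟙_ J ◁ (unL l).inv) ≫ (u i ⊗ₘ mapL u l)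
    rw [smp, Category.assoc, ← id_tensorHom, tensorHom_comp_tensorHom, Category.id_comp]

theorem fn_laxBig_jC {K : ι → LC} {a : ι → J} (k : ∀ i, OnePoint (K i)) (u : ∀ i, 𝟙_ J ⟶ a i) :
    fn (laxBig (jC J) K) (btm (X := fun i => (jC J).obj (K i)) (fun i => jm (k i) (u i))) =
      jm (bsm k) ((bigUnit ι J).inv ≫ bigMap u) := fn_laxL_jC k u _

variable (ι) in
/-- the diagonal of a space -/
noncomputable def ldiag [Nonempty ι] (K : LC) : K ⟶ pw ι K :=
  LC.ofClosed (X := K) (Y := piLC fun _ : ι => K) (fun k _ => k)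
    (Function.LeftInverse.isClosedEmbedding (f := fun x : ι → K => x (Classical.arbitrary ι))
      (fun _ => rfl) (continuous_apply _) (continuous_pi fun _ => continuous_id)) ≫
    (piIso fun _ : ι => K).hom

theorem app_ldiag [Nonempty ι] {K : LC} (k : OnePoint K) :
    LC.app (ldiag ι K) k = bsm fun _ : ι => k := by
  induction k using OnePoint.rec with
  | infty =>
    rw [LC.app_infty]
    have h := app_bigMap_bsm (X := fun _ : ι => K) (fun _ => ∞) (fun _ => (0 : K ⟶ K))
    have h0 : ∀ l : List ι, l ≠ [] → smL (X := fun _ : ι => K) (fun _ => ∞) l = ∞ := fun l hl => by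
      cases l with
      | nil => exact (hl rfl).elim
      | cons i l => exact LC.smash_infty_left _
    exact (h0 _ (List.ne_nil_of_mem (mem_enum (Classical.arbitrary ι)))).symm
  | coe k => exact app_piIso (X := fun _ : ι => K) fun _ => k

@[reassoc]
theorem ldiag_nat [Nonempty ι] {K K' : LC} (f : K ⟶ K') :
    f ≫ ldiag ι K' = ldiag ι K ≫ pwM ι f := LC.hom_ext' fun k => by
  rw [LC.app_comp, LC.app_comp, app_ldiag, app_ldiag, app_bigMap_bsm]

variable [MulAction G ι]

variable (G ι) in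
/-- the diagonal of a space as an equivariant map -/
noncomputable def ldiagG [Nonempty ι] (K : LC) : (triv G).obj K ⟶ (powG LC G ι).obj K :=
  mkHom (ldiag ι K) fun g => by
    rw [act_powG]
    change 𝟙 K ≫ ldiag ι K = ldiag ι K ≫ pwE K (MulAction.toPerm g : ι ≃ ι)
    refine LC.hom_ext' fun k => ?_
    rw [Category.id_comp, LC.app_comp, app_ldiag]
    exact (app_bigEquiv_bsm (X := fun _ : ι => K) _ fun _ => k).symm

@[simp] theorem ldiagG_hom [Nonempty ι] (K : LC) : (ldiagG G ι K).hom = ldiag ι K := rfl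

variable (G ι) in
/-- powers commute with braided functors -/
noncomputable def powLax {M : Type*} [Category M] [MonoidalCategory M] [SymmetricCategory M]
    {N : Type*} [Category N] [MonoidalCategory N] [SymmetricCategory N] (F : M ⥤ N)
    [F.LaxBraided] (X : M) :
    (powG N G ι).obj (F.obj X) ⟶ (mapA F G).obj ((powG M G ι).obj X) :=
  mkHom (laxBig F fun _ : ι => X) fun g => by
    rw [act_powG, E.act_mapA, act_powG]
    exact bigEquiv_laxBig F _ fun _ => X

@[simp] theorem powLax_hom {M : Type*} [Category M] [MonoidalCategory M] [SymmetricCategory M]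
    {N : Type*} [Category N] [MonoidalCategory N] [SymmetricCategory N] (F : M ⥤ N)
    [F.LaxBraided] (X : M) : (powLax G ι F X).hom = laxBig F fun _ : ι => X := rfl

instance {M : Type*} [Category M] [MonoidalCategory M] [SymmetricCategory M]
    {N : Type*} [Category N] [MonoidalCategory N] [SymmetricCategory N] (F : M ⥤ N)
    [F.Braided] (X : M) : IsIso (powLax G ι F X) :=
  have : IsIso (powLax G ι F X).hom := isIso_laxBig F _
  Action.isIso_of_hom_isIso _

variable (G ι) in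
/-- the power of a representable -/
noncomputable def powRep (c : J) :
    (powG (EF J) G ι).obj (rep c) ≅ repG ((powAct J G ι).at' c) :=
  Action.mkIso (repBig fun _ : ι => c) fun g => by
    change act ((powG (EF J) G ι).obj (rep c)) g ≫ _ = _ ≫ repMap (((powAct J G ι).a g⁻¹).app c)
    rw [act_powG]
    refine (bigEquiv_repBig (MulAction.toPerm g : ι ≃ ι) fun _ => c).trans ?_
    congr 2
    exact (cancel_mono (pwE c (MulAction.toPerm g : ι ≃ ι))).1
      ((Iso.inv_hom_id _).trans ((powAct J G ι).inv_app g c).symm)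

@[simp] theorem powRep_hom_hom (c : J) :
    (powRep G ι c).hom.hom = (repBig fun _ : ι => c).hom := rfl

end pows

section dg

variable {ρ Φ : J ⥤ J} [IdxFun ρ] [IdxFun Φ] {e : ρ ⟶ 𝟭 J} {ι : Type} [Finite ι] [Nonempty ι]
  [MulAction G ι] {τ : ρ ⋙ pow ι ⟶ Φ} {θ : FAct G Φ} (h : Eqv τ θ) {X Y : EF J}

/-- the diagonal -/
noncomputable def dg (hX : Co (resE e) X) : (lanG θ).obj X ⟶ (powG (EF J) G ι).obj X :=
  (lanG θ).map hX.sec ≫ diagGApp h X

variable (τ) in
/-- the underlying map of the diagonal -/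
noncomputable def dg0 (hX : Co (resE e) X) : (lan Φ).obj X ⟶ pw ι X :=
  (lan Φ).map hX.sec ≫ diagApp τ X

theorem dg_hom (hX : Co (resE e) X) : (dg h hX).hom = dg0 τ hX := rfl

theorem fn_dg0 (hX : Co (resE e) X) {a : J} (x : OnePoint (X.obj a)) :
    fn (dg0 τ hX) (li Φ x) =
      (pw ι X).act (tap τ a) (btm (a := fun _ => ρ.obj a) fun _ => unri (fn hX.sec x)) := by
  rw [dg0, fn_comp, fn_lan_map]
  exact fn_diagApp τ _

theorem fn_dg0_of_co (hX : Co (resE e) X) {a : J} (ha : Co e a) (x : OnePoint (X.obj a)) :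
    fn (dg0 τ hX) (li Φ x) =
      (pw ι X).act (pwM ι ha.sec ≫ tap τ a) (btm (a := fun _ => a) fun _ => x) := by
  rw [fn_dg0, hX.fn_sec ha, act_comp, act_bigMap_btm]
  rfl

@[reassoc]
theorem dg_nat (hX : Co (resE e) X) (hY : Co (resE e) Y) (f : X ⟶ Y) :
    (lanG θ).map f ≫ dg h hY = dg h hX ≫ (powG (EF J) G ι).map f := by
  rw [dg, dg, ← Functor.map_comp_assoc, hX.sec_nat hY, Functor.map_comp_assoc, Category.assoc]
  exact congrArg (_ ≫ ·) ((diagG h).naturality f)

@[reassoc]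
theorem map_eap_dg (hX : Co (resE e) X) :
    (lanG θ).map (eap (resE e) X) ≫ dg h hX = diagGApp h X := by
  rw [dg, ← Functor.map_comp_assoc, hX.eap_sec, CategoryTheory.Functor.map_id, Category.id_comp]

/-- the equivariant comparison map of an object of the index category -/
noncomputable def tauG (h : Eqv τ θ) {c : J} (hc : Co e c) :
    (powAct J G ι).at' c ⟶ θ.at' c :=
  mkHom (pwM ι hc.sec ≫ tap τ c) fun g => by
    change pwE c (MulAction.toPerm g : ι ≃ ι) ≫ pwM ι hc.sec ≫ tap τ c =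
      (pwM ι hc.sec ≫ tap τ c) ≫ (θ.a g).app c
    rw [Category.assoc, ← h g c]
    exact (((powAct J G ι).a g).naturality_assoc hc.sec _).symm

@[simp] theorem tauG_hom {c : J} (hc : Co e c) : (tauG h hc).hom = pwM ι hc.sec ≫ tap τ c := rfl

instance {c : J} (hc : Co e c) [IsIso (tap τ c)] : IsIso (tauG h hc) :=
  have : IsIso (pwM ι hc.sec) := inferInstanceAs (IsIso ((pow ι).map hc.sec))
  have : IsIso (tauG h hc).hom := inferInstanceAs (IsIso (pwM ι hc.sec ≫ tap τ c))
  Action.isIso_of_hom_isIso _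

instance {P Q : Action J G} (f : P ⟶ Q) [IsIso f] : IsIso (repGMap f) :=
  (repGIso (asIso f)).isIso_inv

@[reassoc]
theorem dg_rep {c : J} (hc : Co e c) (hX : Co (resE e) (rep c)) :
    dg h hX ≫ (powRep G ι c).hom = (lanGRep θ c).hom ≫ repGMap (tauG h hc) :=
  Action.hom_ext _ _ (by
    change ((lan Φ).map hX.sec ≫ diagApp τ _) ≫ (repBig fun _ : ι => c).hom = _
    rw [hc.sec_rep hX, Category.assoc]
    exact diagApp_rep τ hc.sec)

theorem isIso_dg_rep {c : J} (hc : Co e c) (hX : Co (resE e) (rep c)) [IsIso (tap τ c)] :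
    IsIso (dg h hX) := by
  have : dg h hX = (lanGRep θ c).hom ≫ repGMap (tauG h hc) ≫ (powRep G ι c).inv := by
    rw [← dg_rep_assoc h hc hX, Iso.hom_inv_id, Category.comp_id]
  rw [this]
  infer_instance

variable [ρ.LaxBraided] [Φ.Braided] [τ.IsMonoidal] [θ.IsMon] [e.IsMonoidal]

@[reassoc]
theorem ε_dg (hX : Co (resE e) (𝟙_ (EF J))) : ε (lanG θ) ≫ dg h hX = ε (powG (EF J) G ι) := by
  rw [dg, hX.sec_unit, ← Category.assoc]
  exact NatTrans.IsMonoidal.unit (τ := diagG h)

@[reassoc]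
theorem μ_dg (hX : Co (resE e) X) (hY : Co (resE e) Y) (hXY : Co (resE e) (X ⊗ Y)) :
    μ (lanG θ) X Y ≫ dg h hXY = (dg h hX ⊗ₘ dg h hY) ≫ μ (powG (EF J) G ι) X Y := by
  rw [dg, dg, dg, hX.sec_tensor hY hXY, Functor.map_comp_assoc, ← μ_natural_assoc,
    ← tensorHom_comp_tensorHom_assoc, ← Category.assoc (μ _ _ _)]
  exact congrArg (_ ≫ ·) (NatTrans.IsMonoidal.tensor (τ := diagG h) X Y)

@[reassoc]
theorem dg0_jC {K : LC} (hX : Co (resE e) ((jC J).obj K)) :
    dg0 τ hX ≫ laxBig (jC J) (fun _ : ι => K) =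
      (lanJIso Φ K).hom ≫ (jC J).map (ldiag ι K) :=
  lan_ext fun a x => by
    obtain ⟨k, x, rfl⟩ := jm_surjective x
    rw [fn_comp, fn_comp, fn_dg0, fn_act, hX.fn_sec_jm, unri_ri,
      fn_laxBig_jC (K := fun _ : ι => K), jC_act, fn_lanJIso_hom, fn_jC_map, app_ldiag]
    congr 1
    have : bigMap (fun _ : ι => ε ρ ≫ ρ.map x) = pwM ι (ε ρ) ≫ pwM ι (ρ.map x) :=
      bigMap_comp _ _
    rw [this, Category.assoc, Category.assoc, tap_nat, tap_unit_assoc, Iso.inv_hom_id_assoc]

@[reassoc]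
theorem dg_jC [SphIdx J] {K : LC} (hX : Co (resE e) ((jC J).obj K)) :
    dg h hX ≫ powLax G ι (jC J) K = (lanGJIso θ K).hom ≫ (E.JATriv G (EF J) K).inv ≫
      (JA G (EF J)).map (ldiagG G ι K) :=
  Action.hom_ext _ _ ((dg0_jC hX).trans (congrArg (_ ≫ ·) (Category.id_comp _).symm))

/-- the Frobenius -/
noncomputable def frobA {B : CommMon (EF J)} (hB : Co (resE e) B.X) :
    B ⟶ (resG θ).mapCommMon.obj (trivC G B) := hB.secAlg ≫ frob h B

theorem tr_frobA {B : CommMon (EF J)} (hB : Co (resE e) B.X) :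
    tr (adjG θ) (frobA h hB) = dg h hB ≫ mulG G ι B.X := by
  rw [frobA, tr_comp_left, tr_frob, dg, Category.assoc, ← hB.ahR_secAlg]
  rfl

/-- the Frobenius on a class `x : X ⟶ B` is the `ι`-th power of `x` after the diagonal -/
theorem map_tr_frobA {B : CommMon (EF J)} (hB : Co (resE e) B.X) (hX : Co (resE e) X)
    (x : X ⟶ B.X) : (lanG θ).map x ≫ tr (adjG θ) (frobA h hB) =
      dg h hX ≫ (powG _ G ι).map x ≫ mulG G ι B.X := by
  rw [tr_frobA]
  exact dg_nat_assoc h hX hB x _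

@[reassoc]
theorem frobA_nat {B B' : CommMon (EF J)} (hB : Co (resE e) B.X) (hB' : Co (resE e) B'.X)
    (f : B ⟶ B') :
    f ≫ frobA h hB' = frobA h hB ≫ (resG θ).mapCommMon.map (trivMap G f) := by
  rw [frobA, frobA, hB.secAlg_nat_assoc hB', frob_nat, Category.assoc]

end dg

end Vale.Agent.P257.T
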