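import Vale.Agent.P257.A.Att
import Vale.Agent.P257.T.Pow
import Mathlib.CategoryTheory.Monoidal.Comon_
import Mathlib.CategoryTheory.Monoidal.Closed.Basic

/-!
# P257, block T: monoidal adjunctions

* `IsOpBr L`: the oplax monoidal functor `L` is compatible with the braidings;
  `laxBraidedOfAdj`: then a right adjoint is lax braided;
* `IsOpHom L f`: `f : L A ⟶ Z` is multiplicative; `algEquiv`: algebra maps `A ⟶ R Z` are the
  multiplicative maps `L A ⟶ Z`;
* for a cocommutative comonoid `S`, `tensorLeft S` is oplax braided and `ihom S` is lax braided.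
-/

open CategoryTheory MonoidalCategory Functor.LaxMonoidal Functor.OplaxMonoidal

namespace Vale.Agent.P257.T

open Vale.Agent.P257.A

universe v u v' u' v'' u''

variable {M : Type u} [Category.{v} M] [MonoidalCategory M]
  {N : Type u'} [Category.{v'} N] [MonoidalCategory N]
  {P : Type u''} [Category.{v''} P] [MonoidalCategory P]

section opbr

variable [BraidedCategory M] [BraidedCategory N] [BraidedCategory P]

/-- oplax braided functors -/
class IsOpBr (L : M ⥤ N) [L.OplaxMonoidal] : Prop where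
  braided : ∀ X Y : M, L.map (β_ X Y).hom ≫ δ L Y X = δ L X Y ≫ (β_ (L.obj X) (L.obj Y)).hom

instance (L : M ⥤ N) [L.Braided] : IsOpBr L where
  braided X Y := by simp

instance (L : M ⥤ N) (L' : N ⥤ P) [L.OplaxMonoidal] [L'.OplaxMonoidal] [IsOpBr L] [IsOpBr L'] :
    IsOpBr (L ⋙ L') where
  braided X Y := by
    dsimp
    rw [← L'.map_comp_assoc, IsOpBr.braided, L'.map_comp_assoc, IsOpBr.braided, Category.assoc]

theorem braided_of_adj {L : M ⥤ N} {R : N ⥤ M} (adj : L ⊣ R) [L.OplaxMonoidal] [R.LaxMonoidal]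
    [adj.IsMonoidal] [IsOpBr L] (X Y : N) :
    μ R X Y ≫ R.map (β_ X Y).hom = (β_ (R.obj X) (R.obj Y)).hom ≫ μ R Y X := by
  apply (adj.homEquiv _ _).symm.injective
  rw [adj.homEquiv_counit, adj.homEquiv_counit, L.map_comp, L.map_comp, Category.assoc,
    Category.assoc, adj.map_μ_comp_counit_app_tensor, adj.counit_naturality,
    adj.map_μ_comp_counit_app_tensor_assoc, ← Category.assoc (L.map _), IsOpBr.braided,
    Category.assoc]
  erw [BraidedCategory.braiding_naturality]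

/-- a right adjoint of an oplax braided functor is lax braided -/
@[reducible] def laxBraidedOfAdj {L : M ⥤ N} {R : N ⥤ M} (adj : L ⊣ R) [L.OplaxMonoidal]
    [R.LaxMonoidal] [adj.IsMonoidal] [IsOpBr L] : R.LaxBraided where
  braided := braided_of_adj adj

end opbr

section ophom

open MonObj

variable (L : M ⥤ N) [L.OplaxMonoidal]

/-- multiplicative morphisms `L A ⟶ Z` -/
structure IsOpHom {A : M} [MonObj A] {Z : N} [MonObj Z] (f : L.obj A ⟶ Z) : Prop where
  one : L.map η[A] ≫ f = Functor.OplaxMonoidal.η L ≫ η[Z]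
  mul : L.map μ[A] ≫ f = δ L A A ≫ (f ⊗ₘ f) ≫ μ[Z]

variable {L}

theorem IsOpHom.comp {A : M} [MonObj A] {Z Z' : N} [MonObj Z] [MonObj Z'] {f : L.obj A ⟶ Z}
    (hf : IsOpHom L f) (g : Z ⟶ Z') [IsMonHom g] : IsOpHom L (f ≫ g) where
  one := by rw [reassoc_of% hf.one, IsMonHom.one_hom]
  mul := by rw [reassoc_of% hf.mul, IsMonHom.mul_hom, tensorHom_comp_tensorHom_assoc]

theorem IsOpHom.map_comp {A A' : M} [MonObj A] [MonObj A'] {Z : N} [MonObj Z] {f : L.obj A ⟶ Z}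
    (hf : IsOpHom L f) (g : A' ⟶ A) [IsMonHom g] : IsOpHom L (L.map g ≫ f) where
  one := by rw [← L.map_comp_assoc, IsMonHom.one_hom, hf.one]
  mul := by
    rw [← L.map_comp_assoc, IsMonHom.mul_hom, L.map_comp_assoc, hf.mul, ← δ_natural_assoc,
      tensorHom_comp_tensorHom_assoc]

variable {R : N ⥤ M} (adj : L ⊣ R) [R.LaxMonoidal] [adj.IsMonoidal]

theorem homEquiv_symm_one {Z : N} [MonObj Z] :
    (adj.homEquiv _ _).symm (ε R ≫ R.map η[Z]) = Functor.OplaxMonoidal.η L ≫ η[Z] := by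
  rw [adj.homEquiv_counit, L.map_comp, Category.assoc, adj.counit_naturality,
    adj.map_ε_comp_counit_app_unit_assoc]

theorem homEquiv_symm_tensor {A B : M} {X Y Z : N} (f : A ⟶ R.obj X) (g : B ⟶ R.obj Y)
    (m : X ⊗ Y ⟶ Z) :
    (adj.homEquiv _ _).symm ((f ⊗ₘ g) ≫ Functor.LaxMonoidal.μ R X Y ≫ R.map m) =
      δ L A B ≫ ((adj.homEquiv _ _).symm f ⊗ₘ (adj.homEquiv _ _).symm g) ≫ m := by
  rw [adj.homEquiv_counit, adj.homEquiv_counit, adj.homEquiv_counit, L.map_comp, L.map_comp,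
    Category.assoc, Category.assoc, adj.counit_naturality,
    adj.map_μ_comp_counit_app_tensor_assoc, ← δ_natural_assoc, tensorHom_comp_tensorHom_assoc]

theorem isOpHom_iff {A : M} [MonObj A] {Z : N} [MonObj Z] (f : A ⟶ R.obj Z) :
    IsOpHom L ((adj.homEquiv _ _).symm f) ↔
      η[A] ≫ f = ε R ≫ R.map η[Z] ∧ μ[A] ≫ f = (f ⊗ₘ f) ≫ Functor.LaxMonoidal.μ R Z Z ≫
        R.map μ[Z] := by
  rw [← (adj.homEquiv _ _).symm.injective.eq_iff, ← (adj.homEquiv _ _).symm.injective.eq_iff,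
    homEquiv_symm_one, homEquiv_symm_tensor, adj.homEquiv_naturality_left_symm,
    adj.homEquiv_naturality_left_symm]
  exact ⟨fun h => ⟨h.1, h.2⟩, fun h => ⟨h.1, h.2⟩⟩

end ophom

section alg

set_option linter.unusedSectionVars false

variable {M : Type u} [Category.{v} M] [MonoidalCategory M] [SymmetricCategory M]
  {N : Type u'} [Category.{v'} N] [MonoidalCategory N] [SymmetricCategory N]
  {L : M ⥤ N} [L.OplaxMonoidal] {R : N ⥤ M} (adj : L ⊣ R) [R.LaxBraided] [adj.IsMonoidal]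
  {A A' : CommMon M} {Z Z' : CommMon N}

/-- the underlying morphism of an algebra map to `R Z` -/
def ahR (φ : A ⟶ R.mapCommMon.obj Z) : A.X ⟶ R.obj Z.X := ah φ

theorem ahR_eq (φ : A ⟶ R.mapCommMon.obj Z) : ahR φ = ah φ := rfl

@[simp] theorem ah_mapCommMon_map (g : Z ⟶ Z') : ah (R.mapCommMon.map g) = R.map (ah g) := rfl

/-- the transpose `L A ⟶ Z` of an algebra map `A ⟶ R Z` -/
def tr (φ : A ⟶ R.mapCommMon.obj Z) : L.obj A.X ⟶ Z.X := (adj.homEquiv _ _).symm (ahR φ)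

theorem homEquiv_tr (φ : A ⟶ R.mapCommMon.obj Z) : adj.homEquiv _ _ (tr adj φ) = ahR φ :=
  Equiv.apply_symm_apply _ _

theorem isOpHom_tr (φ : A ⟶ R.mapCommMon.obj Z) : IsOpHom L (tr adj φ) :=
  (isOpHom_iff adj (ahR φ)).mpr
    ⟨IsMonHom.one_hom (ah φ), (IsMonHom.mul_hom (ah φ)).trans rfl⟩

theorem tr_injective {φ ψ : A ⟶ R.mapCommMon.obj Z} (h : tr adj φ = tr adj ψ) : φ = ψ :=
  ah_ext ((adj.homEquiv _ _).symm.injective h)

@[reassoc]
theorem tr_comp_left (g : A' ⟶ A) (φ : A ⟶ R.mapCommMon.obj Z) :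
    tr adj (g ≫ φ) = L.map (ah g) ≫ tr adj φ := adj.homEquiv_naturality_left_symm _ _

@[reassoc]
theorem tr_comp_right (φ : A ⟶ R.mapCommMon.obj Z) (g : Z ⟶ Z') :
    tr adj (φ ≫ R.mapCommMon.map g) = tr adj φ ≫ ah g := adj.homEquiv_naturality_right_symm _ _

/-- the algebra map `A ⟶ R Z` given by a multiplicative map `L A ⟶ Z` -/
def ofOp (f : L.obj A.X ⟶ Z.X) (hf : IsOpHom L f) : A ⟶ R.mapCommMon.obj Z :=
  haveI h := (isOpHom_iff adj (adj.homEquiv _ _ f)).mp (by rwa [Equiv.symm_apply_apply])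
  @mkAh M _ _ _ A (R.mapCommMon.obj Z) (adj.homEquiv _ _ f) ⟨h.1, h.2⟩

@[simp] theorem tr_ofOp (f : L.obj A.X ⟶ Z.X) (hf : IsOpHom L f) : tr adj (ofOp adj f hf) = f :=
  (adj.homEquiv _ _).symm_apply_apply f

@[simp] theorem ofOp_tr (φ : A ⟶ R.mapCommMon.obj Z) :
    ofOp adj (tr adj φ) (isOpHom_tr adj φ) = φ := tr_injective adj (tr_ofOp adj _ _)

/-- algebra maps `A ⟶ R Z` are the multiplicative maps `L A ⟶ Z` -/
def algEquiv : (A ⟶ R.mapCommMon.obj Z) ≃ {f : L.obj A.X ⟶ Z.X // IsOpHom L f} where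
  toFun φ := ⟨tr adj φ, isOpHom_tr adj φ⟩
  invFun f := ofOp adj f.1 f.2
  left_inv := ofOp_tr adj
  right_inv f := Subtype.ext (tr_ofOp adj f.1 f.2)

theorem comp_ah_eq_iff {Y : M} (χ : Y ⟶ A.X) (φ : A ⟶ R.mapCommMon.obj Z) (h : L.obj Y ⟶ Z.X) :
    χ ≫ ahR φ = adj.homEquiv _ _ h ↔ L.map χ ≫ tr adj φ = h := by
  rw [tr, ← adj.homEquiv_naturality_left_symm, Equiv.symm_apply_eq]

/-- extension of an algebra map `B ⟶ R Z` over an attached cell -/
theorem _root_.Vale.Agent.P257.A.IsAtt.exists_adj {X Y : M} {c : X ⟶ Y} {B B' : CommMon M}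
    {x : X ⟶ B.X} {i : B ⟶ B'} {χ : Y ⟶ B'.X} (H : IsAtt c x i χ) (φ : B ⟶ R.mapCommMon.obj Z)
    (h : L.obj Y ⟶ Z.X) (w : L.map c ≫ h = L.map x ≫ tr adj φ) :
    ∃ ψ : B' ⟶ R.mapCommMon.obj Z, i ≫ ψ = φ ∧ L.map χ ≫ tr adj ψ = h := by
  obtain ⟨ψ, h1, h2⟩ := H.desc φ (adj.homEquiv _ _ h) (by
    refine Eq.trans ?_ ((comp_ah_eq_iff adj x φ _).mpr w.symm).symm
    exact (adj.homEquiv_naturality_left _ _).symm)
  exact ⟨ψ, h1, (comp_ah_eq_iff adj χ ψ h).mp h2⟩

theorem _root_.Vale.Agent.P257.A.IsAtt.ext_adj {X Y : M} {c : X ⟶ Y} {B B' : CommMon M}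
    {x : X ⟶ B.X} {i : B ⟶ B'} {χ : Y ⟶ B'.X} (H : IsAtt c x i χ)
    {ψ ψ' : B' ⟶ R.mapCommMon.obj Z} (h1 : i ≫ ψ = i ≫ ψ')
    (h2 : L.map χ ≫ tr adj ψ = L.map χ ≫ tr adj ψ') : ψ = ψ' :=
  H.ext h1 (((comp_ah_eq_iff adj χ ψ _).mpr h2).trans
    ((comp_ah_eq_iff adj χ ψ' _).mpr rfl).symm)

end alg

section comon

variable [SymmetricCategory N] (S : N) [ComonObj S]

/-- the cotensorator of `S ⊗ -` -/
def delS (X Y : N) : S ⊗ (X ⊗ Y) ⟶ (S ⊗ X) ⊗ (S ⊗ Y) :=
  ComonObj.comul ▷ (X ⊗ Y) ≫ tensorμ S S X Y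

/-- the counit of `S ⊗ -` -/
def etaS : S ⊗ 𝟙_ N ⟶ 𝟙_ N := (ρ_ S).hom ≫ ComonObj.counit

instance : (tensorLeft S).OplaxMonoidal where
  η := etaS S
  δ := delS S
  δ_natural_left {X Y} f Z := by
    change delS S X Z ≫ (S ◁ f) ▷ (S ⊗ Z) = S ◁ (f ▷ Z) ≫ delS S Y Z
    have h := tensorμ_natural (𝟙 S) (𝟙 S) f (𝟙 Z)
    simp only [id_tensorHom, tensorHom_id, id_whiskerRight, MonoidalCategory.whiskerLeft_id] at h
    rw [delS, delS, Category.assoc, ← h, whisker_exchange_assoc]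
  δ_natural_right {X Y} Z f := by
    change delS S Z X ≫ (S ⊗ Z) ◁ (S ◁ f) = S ◁ (Z ◁ f) ≫ delS S Z Y
    have h := tensorμ_natural (𝟙 S) (𝟙 S) (𝟙 Z) f
    simp only [id_tensorHom, tensorHom_id, id_whiskerRight, MonoidalCategory.whiskerLeft_id] at h
    rw [delS, delS, Category.assoc, ← h, whisker_exchange_assoc]
  oplax_associativity X Y Z := by
    change delS S (X ⊗ Y) Z ≫ delS S X Y ▷ (S ⊗ Z) ≫ (α_ _ _ _).hom =
      S ◁ (α_ X Y Z).hom ≫ delS S X (Y ⊗ Z) ≫ (S ⊗ X) ◁ delS S Y Z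
    have h1 := tensorμ_natural (ComonObj.comul (X := S)) (𝟙 S) (𝟙 (X ⊗ Y)) (𝟙 Z)
    have h2 := tensorμ_natural (𝟙 S) (ComonObj.comul (X := S)) (𝟙 X) (𝟙 (Y ⊗ Z))
    simp only [id_tensorHom, tensorHom_id, id_whiskerRight,
      MonoidalCategory.whiskerLeft_id] at h1 h2
    simp only [delS, comp_whiskerRight, MonoidalCategory.whiskerLeft_comp, Category.assoc]
    rw [← reassoc_of% h1, ← reassoc_of% h2, associator_monoidal, ← comp_whiskerRight_assoc,
      ← comp_whiskerRight_assoc, ComonObj.comul_assoc, whisker_exchange_assoc, tensorHom_def]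
    simp only [comp_whiskerRight, Category.assoc]
  oplax_left_unitality X := by
    change (λ_ (S ⊗ X)).inv = S ◁ (λ_ X).inv ≫ delS S (𝟙_ N) X ≫ etaS S ▷ (S ⊗ X)
    have h1 := tensorμ_natural (ComonObj.counit (X := S)) (𝟙 S) (𝟙 (𝟙_ N)) (𝟙 X)
    simp only [id_tensorHom, tensorHom_id, id_whiskerRight,
      MonoidalCategory.whiskerLeft_id] at h1
    rw [delS, etaS, ← rightUnitor_naturality, comp_whiskerRight, Category.assoc,
      ← reassoc_of% h1, ← comp_whiskerRight_assoc, ComonObj.counit_comul,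
      ← cancel_mono (λ_ (S ⊗ X)).hom, ← unitors_equal]
    simp only [Category.assoc]
    rw [← leftUnitor_monoidal]
    simp [tensorHom_def]
  oplax_right_unitality X := by
    change (ρ_ (S ⊗ X)).inv = S ◁ (ρ_ X).inv ≫ delS S X (𝟙_ N) ≫ (S ⊗ X) ◁ etaS S
    have h1 := tensorμ_natural (𝟙 S) (ComonObj.counit (X := S)) (𝟙 X) (𝟙 (𝟙_ N))
    simp only [id_tensorHom, tensorHom_id, id_whiskerRight,
      MonoidalCategory.whiskerLeft_id] at h1
    rw [delS, etaS, ← rightUnitor_naturality, MonoidalCategory.whiskerLeft_comp, Category.assoc,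
      ← reassoc_of% h1, ← comp_whiskerRight_assoc, ComonObj.comul_counit,
      ← cancel_mono (ρ_ (S ⊗ X)).hom, ← unitors_equal]
    simp only [Category.assoc]
    rw [← rightUnitor_monoidal]
    simp [tensorHom_def]

theorem tensorLeft_δ (X Y : N) : δ (tensorLeft S) X Y = delS S X Y := rfl

theorem tensorLeft_η : η (tensorLeft S) = etaS S := rfl

instance [IsCommComonObj S] : IsOpBr (tensorLeft S) where
  braided X Y := by
    change S ◁ (β_ X Y).hom ≫ delS S Y X = delS S X Y ≫ (β_ (S ⊗ X) (S ⊗ Y)).hom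
    rw [delS, delS, Category.assoc, tensorμ_braiding, tensorHom_def, Category.assoc,
      ← comp_whiskerRight_assoc, IsCommComonObj.comul_comm, whisker_exchange_assoc]

variable [Closed S]

noncomputable instance : (ihom S).LaxMonoidal := (ihom.adjunction S).rightAdjointLaxMonoidal

instance : (ihom.adjunction S).IsMonoidal :=
  inferInstanceAs (letI := (ihom.adjunction S).rightAdjointLaxMonoidal
    (ihom.adjunction S).IsMonoidal)

noncomputable instance [IsCommComonObj S] : (ihom S).LaxBraided :=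
  laxBraidedOfAdj (ihom.adjunction S)

end comon

section mapComon

variable [BraidedCategory M] [BraidedCategory N] (L : M ⥤ N) [L.OplaxMonoidal] (S : M)
  [ComonObj S]

theorem isCommComonObj_map [IsOpBr L] [IsCommComonObj S] :
    letI := Functor.obj.instComonObj S L
    IsCommComonObj (L.obj S) :=
  letI := Functor.obj.instComonObj S L
  ⟨by
    change (L.map ComonObj.comul ≫ δ L S S) ≫ (β_ _ _).hom = L.map ComonObj.comul ≫ δ L S S
    rw [Category.assoc, ← IsOpBr.braided, ← L.map_comp_assoc, IsCommComonObj.comul_comm]⟩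

end mapComon

end Vale.Agent.P257.T
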