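import Vale.Agent.P257.T.GrFr
import Vale.Agent.P257.W.World

/-!
# P257, block T: the group algebra of the weights and periodicity

* `T0 : CommMon MM`, the unit made periodic in the weight; `un a : rp (a, 0) ⟶ T0.X`;
* `per φ a : rp (a, 0) ⊗ T.X ≅ T.X` for `φ : T0 ⟶ T`;
* `T0` is `Le0`, `PosT 0`, and `Y ⟶ Y ⊗ T0` is an isomorphism in weight zero if `Y` is
  concentrated in weight zero.
-/

open CategoryTheory MonoidalCategory Limits Functor.LaxMonoidal Functor.OplaxMonoidal OnePoint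

namespace Vale.Agent.P257.T

open Vale.Agent.P257.D Vale.Agent.P257.D.EF Vale.Agent.P257.A Vale.Agent.P257.M
open Vale.Agent.P257.W (rpCells repIso)
open Vale.Agent.P257.C (Supp DegIso)

set_option linter.unusedSectionVars false

universe v u

section units

variable {M : Type u} [Category.{v} M] [MonoidalCategory M] {T P Q : M} [MonObj T]

/-- left multiplication by a class -/
def mulL (u : P ⟶ T) : P ⊗ T ⟶ T := u ▷ T ≫ MonObj.mul

@[reassoc]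
theorem whiskerLeft_mulL_mulL (u : P ⟶ T) (v : Q ⟶ T) :
    P ◁ mulL v ≫ mulL u = (α_ P Q T).inv ≫ mulL ((u ⊗ₘ v) ≫ MonObj.mul) := by
  rw [mulL, mulL, mulL, comp_whiskerRight, Category.assoc, MonObj.mul_assoc,
    MonoidalCategory.whiskerLeft_comp, Category.assoc, whisker_exchange_assoc, tensorHom_def']
  simp

theorem mulL_one : mulL (MonObj.one : 𝟙_ M ⟶ T) = (λ_ T).hom := MonObj.one_mul T

@[reassoc]
theorem whiskerRight_mulL (a : Q ⟶ P) (u : P ⟶ T) : a ▷ T ≫ mulL u = mulL (a ≫ u) := by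
  rw [mulL, mulL, comp_whiskerRight, Category.assoc]

@[reassoc]
theorem mulL_nat {T' : M} [MonObj T'] (u : P ⟶ T) (g : T ⟶ T') [IsMonHom g] :
    mulL u ≫ g = P ◁ g ≫ mulL (u ≫ g) := by
  rw [mulL, mulL, Category.assoc, IsMonHom.mul_hom, comp_whiskerRight, Category.assoc,
    whisker_exchange_assoc, tensorHom_def', Category.assoc]

theorem isIso_mulL (u : P ⟶ T) (v : Q ⟶ T) (e : P ⊗ Q ≅ 𝟙_ M) (e' : Q ⊗ P ≅ 𝟙_ M)
    (h : (u ⊗ₘ v) ≫ MonObj.mul = e.hom ≫ MonObj.one)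
    (h' : (v ⊗ₘ u) ≫ MonObj.mul = e'.hom ≫ MonObj.one) : IsIso (mulL u) := by
  have h1 : P ◁ mulL v ≫ mulL u = (α_ P Q T).inv ≫ e.hom ▷ T ≫ (λ_ T).hom := by
    rw [whiskerLeft_mulL_mulL, h, ← whiskerRight_mulL, mulL_one]
  have h2 : Q ◁ mulL u ≫ mulL v = (α_ Q P T).inv ≫ e'.hom ▷ T ≫ (λ_ T).hom := by
    rw [whiskerLeft_mulL_mulL, h', ← whiskerRight_mulL, mulL_one]
  have i1 : IsIso (P ◁ mulL v ≫ mulL u) := by rw [h1]; infer_instance
  have i2 : IsIso (P ◁ Q ◁ mulL u ≫ P ◁ mulL v) := by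
    rw [← MonoidalCategory.whiskerLeft_comp, h2]; infer_instance
  have := mono_of_mono (P ◁ mulL v) (mulL u)
  have : IsSplitEpi (P ◁ mulL v) := ⟨⟨inv (P ◁ Q ◁ mulL u ≫ P ◁ mulL v) ≫ P ◁ Q ◁ mulL u, by
    rw [Category.assoc, IsIso.inv_hom_id]⟩⟩
  have := isIso_of_mono_of_isSplitEpi (P ◁ mulL v)
  exact IsIso.of_isIso_comp_left (P ◁ mulL v) (mulL u)

theorem actL_eq [SymmetricCategory M] {B : CommMon M} (x : P ⟶ B.X) :
    actL x = (β_ _ _).hom ≫ mulL x := by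
  rw [actL, mulL, ← BraidedCategory.braiding_naturality_right_assoc, IsCommMonObj.mul_comm]

end units

/-- forgetting the weight -/
noncomputable def wO : Gam →+o Gam where
  toFun g := (0, g.2)
  map_zero' := rfl
  map_add' a b := by simp
  monotone' _ _ h := ⟨le_rfl, h.2⟩

@[simp] theorem wO_apply (g : Gam) : wO g = (0, g.2) := rfl

/-- forgetting the weight -/
noncomputable abbrev wJ : JG ⥤ JG := Gr.map (𝟭 O) wO

theorem Le0.res_wJ {X : MM} (h : Le0 X) : Le0 ((res wJ).obj X) :=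
  idem_eM.co ((res wJ).map h.sec) (EF.hom_ext fun a x => h.act_sec (a := wJ.obj a) (unri x))

theorem posT_res_wJ {X : MM} {w : ℤ} (h : PosT X w) : PosT ((res wJ).obj X) w :=
  fun x hx => h (wJ.obj x) hx

open Classical in
/-- the projection to the weight zero -/
noncomputable def kw : wJ ⟶ 𝟭 JG where
  app x := if h : x.deg.1 = 0 then Gr.homMk (𝟙 x.ob) ⟨h.symm, le_rfl⟩ else 0
  naturality x y f := by
    rcases Gr.hom_cases f with rfl | ⟨h, -⟩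
    · rw [IdxFun.map_zero (Φ := wJ), zero_comp]
      exact comp_zero.symm
    · have e : x.deg.1 = y.deg.1 := h.1
      by_cases k : x.deg.1 = 0
      · rw [dif_pos k, dif_pos (e ▸ k)]
        exact Gr.hom_ext ((Category.comp_id _).trans (Category.id_comp _).symm)
      · rw [dif_neg k, dif_neg (e ▸ k), comp_zero, zero_comp]

theorem eap_kw_hom {x : JG} (h : x.deg.1 = 0) : (eap kw x).hom = 𝟙 x.ob :=
  congrArg Gr.Hom.hom (dif_pos h)

theorem eap_kw_of_ne {x : JG} (h : x.deg.1 ≠ 0) : eap kw x = 0 := dif_neg h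

/-- the periodic unit -/
noncomputable def T0 : CommMon MM := (res wJ).mapCommMon.obj (CommMon.trivial MM)

theorem T0_X : T0.X = (res wJ).obj (𝟙_ MM) := rfl

/-- a point of the periodic unit -/
noncomputable def tp {x : JG} (u : 𝟙_ JG ⟶ wJ.obj x) : OnePoint (T0.X.obj x) :=
  ri wJ (X := 𝟙_ MM) (pr u)

theorem tp_surjective {x : JG} (t : OnePoint (T0.X.obj x)) : ∃ u, tp u = t := pr_surjective t

theorem tp_congr {x : JG} {u u' : 𝟙_ JG ⟶ wJ.obj x} (h : u.hom = u'.hom) : tp u = tp u' :=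
  congrArg tp (Gr.hom_ext h)

theorem act_tp {x y : JG} (w : x ⟶ y) (u : 𝟙_ JG ⟶ wJ.obj x) :
    T0.X.act w (tp u) = tp (u ≫ wJ.map w) := rep_act u (wJ.map w)

theorem fn_T0_one {x : JG} (u : 𝟙_ JG ⟶ x) :
    fn (MonObj.one : 𝟙_ MM ⟶ T0.X) (pr u) = tp (ε wJ ≫ wJ.map u) := fn_resEps wJ u

theorem fn_T0_mul {x y : JG} (u : 𝟙_ JG ⟶ wJ.obj x) (v : 𝟙_ JG ⟶ wJ.obj y) :
    fn (MonObj.mul : T0.X ⊗ T0.X ⟶ T0.X) (tm (tp u) (tp v)) = tp (smp u v ≫ μ wJ x y) := by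
  change fn ((res wJ).map (λ_ (𝟙_ MM)).hom) (fn (resMu wJ (𝟙_ MM) (𝟙_ MM))
    (tm (ri wJ (pr u)) (ri wJ (pr v)))) = _
  rw [fn_resMu, fn_res_map, fn_act, leftUnitor_tm, unpr_pr]
  refine congrArg (ri wJ) ?_
  refine (congrArg _ (rep_act v _)).trans ((rep_act _ _).trans ?_)
  rw [smp_eq_left]

theorem le0_T0 : Le0 T0.X := Le0.unit.res_wJ

theorem posT_T0 : PosT T0.X 0 := posT_res_wJ (Supp.unit.mono fun _ h => h.2)

/-- the projection of the periodic unit to the weight zero -/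
noncomputable def T0r : T0.X ⟶ 𝟙_ MM := eap (resE kw) (𝟙_ MM)

theorem fn_T0r {x : JG} (u : 𝟙_ JG ⟶ wJ.obj x) : fn T0r (tp u) = pr (u ≫ eap kw x) :=
  rep_act u (eap kw x)

@[reassoc (attr := simp)]
theorem one_T0r : (MonObj.one : 𝟙_ MM ⟶ T0.X) ≫ T0r = 𝟙 _ := rep_hom_ext (by
  refine (fn_comp _ _ _).trans ?_
  erw [fn_T0_one]
  rw [fn_T0r]
  refine congrArg pr (Gr.hom_ext ?_)
  rw [Gr.comp_hom, eap_kw_hom rfl]
  exact (Category.comp_id _).trans (Category.id_comp _))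

theorem fn_T0r_one {x : JG} (hx : x.deg.1 = 0) (t : OnePoint (T0.X.obj x)) :
    fn (MonObj.one : 𝟙_ MM ⟶ T0.X) (fn T0r t) = t := by
  obtain ⟨u, rfl⟩ := tp_surjective t
  rw [fn_T0r]
  erw [fn_T0_one]
  refine tp_congr ?_
  change 𝟙 _ ≫ u.hom ≫ (eap kw x).hom = _
  rw [eap_kw_hom hx]
  exact (Category.id_comp _).trans (Category.comp_id _)

/-- `Y ⟶ Y ⊗ T0` is an isomorphism in weight zero -/
theorem degIso_whiskerLeft_one {Y : MM} (hY : Supp Y {g : Gam | g.1 = 0}) :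
    DegIso O {g : Gam | g.1 = 0} (Y ◁ (MonObj.one : 𝟙_ MM ⟶ T0.X)) := fun x hx => by
  refine ⟨(Y ◁ T0r).app x, ?_, P251.H.PQ.hom_ext' fun z => ?_⟩
  · change (Y ◁ (MonObj.one : 𝟙_ MM ⟶ T0.X) ≫ Y ◁ T0r).app x = _
    rw [← MonoidalCategory.whiskerLeft_comp, one_T0r, MonoidalCategory.whiskerLeft_id]
    rfl
  · change fn (Y ◁ (MonObj.one : 𝟙_ MM ⟶ T0.X)) (fn (Y ◁ T0r) z) = z
    obtain ⟨a, b, w, y, t, rfl⟩ := exists_tm z
    rw [fn_act, fn_act, whiskerLeft_tm, whiskerLeft_tm]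
    rcases Gr.hom_cases w with rfl | ⟨h, -⟩
    · rw [act_zero, act_zero]
    · by_cases ha : a.deg.1 = 0
      · have h1 : a.deg.1 + b.deg.1 = x.deg.1 := h.1
        rw [ha, zero_add, hx] at h1
        rw [fn_T0r_one h1]
      · rw [C.isZero_PQ.1 (hY a ha) y, tm_infty_left, tm_infty_left]

theorem degIso_one : DegIso O {g : Gam | g.1 = 0} (MonObj.one : 𝟙_ MM ⟶ T0.X) := fun x hx =>
  ⟨T0r.app x, congrArg (fun f => EF.Hom.app f x) one_T0r,
    P251.H.PQ.hom_ext' fun z => fn_T0r_one hx z⟩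

/-- the units of the periodic unit -/
noncomputable def unG (g : Gam) (h : 0 ≤ g.2) : rp g ⟶ T0.X :=
  yo (X := T0.X) (a := ⟨𝟙_ O, g⟩) (tp (Gr.homMk (𝟙 _) ⟨le_rfl, h⟩))

theorem fn_unG {g : Gam} (h : 0 ≤ g.2) {x : JG} (u : (⟨𝟙_ O, g⟩ : JG) ⟶ x) :
    fn (unG g h) (pr u) = tp (Gr.homMk (y := wJ.obj ⟨𝟙_ O, g⟩) (𝟙 _) ⟨le_rfl, h⟩ ≫ wJ.map u) :=
  (fn_yo_pr _ _).trans (act_tp _ _)

@[reassoc]
theorem tm_unG {g g' : Gam} (k : g ≤ g') (h : 0 ≤ g.2) : M.tm k ≫ unG g h = unG g' (h.trans k.2) :=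
  rep_hom_ext (by
    refine (fn_comp _ _ _).trans ?_
    erw [fn_repMap_pr, fn_unG, fn_unG]
    exact tp_congr (congrArg (_ ≫ ·) (Category.comp_id _)))

theorem unG_zero : unG 0 le_rfl = (MonObj.one : 𝟙_ MM ⟶ T0.X) :=
  rep_hom_ext ((fn_unG _ _).trans (fn_T0_one _).symm)

theorem yo_tensor {J : Type} [Idx J] {X Y : EF J} {a b : J} (x : OnePoint (X.obj a))
    (y : OnePoint (Y.obj b)) : (yo x ⊗ₘ yo y) = (repTensor a b).hom ≫ yo (tm x y) :=
  tensor_ext fun c d u v => by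
    obtain ⟨u, rfl⟩ := pr_surjective u
    obtain ⟨v, rfl⟩ := pr_surjective v
    rw [tensorHom_tm, fn_yo_pr, fn_yo_pr, fn_comp, fn_repTensor_hom, fn_yo_pr, act_tm]

/-- the product of two units -/
noncomputable def rpAdd0 (g g' : Gam) : rp g ⊗ rp g' ≅ rp (g + g') := rpCells.add g g'

theorem rpAdd0_hom (g g' : Gam) : (rpAdd0 g g').hom =
    (repTensor (⟨𝟙_ O, g⟩ : JG) ⟨𝟙_ O, g'⟩).hom ≫ repMap (Gr.homMk
      (x := ⟨𝟙_ O, g + g'⟩) (y := (⟨𝟙_ O, g⟩ : JG) ⊗ ⟨𝟙_ O, g'⟩) (λ_ (𝟙_ O)).inv le_rfl) := rfl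

@[reassoc]
theorem unG_mul {g g' : Gam} (h : 0 ≤ g.2) (h' : 0 ≤ g'.2) :
    (unG g h ⊗ₘ unG g' h') ≫ MonObj.mul =
      (rpAdd0 g g').hom ≫ unG (g + g') (add_nonneg h h') := by
  refine ((congrArg (· ≫ MonObj.mul) (yo_tensor _ _)).trans (Category.assoc _ _ _)).trans ?_
  refine Eq.trans ?_ (Category.assoc _ _ _).symm
  refine congrArg (_ ≫ ·) ((yo_comp _ _).trans (rep_hom_ext ?_))
  rw [fn_yo_pr, act_id, fn_T0_mul]
  refine Eq.trans ?_ (fn_comp _ _ _).symm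
  erw [fn_repMap_pr, fn_unG]
  refine tp_congr ?_
  change ((λ_ (𝟙_ O)).inv ≫ (𝟙 _ ⊗ₘ 𝟙 _)) ≫ 𝟙 _ = 𝟙 _ ≫ (λ_ (𝟙_ O)).inv ≫ 𝟙 _
  simp

/-- the unit of weight `a` -/
noncomputable def un (a : Lam) : rp (a, 0) ⟶ T0.X := unG (a, 0) le_rfl

theorem un_zero : un 0 = (MonObj.one : 𝟙_ MM ⟶ T0.X) := unG_zero

/-- units in equal degrees -/
noncomputable def rpEq {g g' : Gam} (h : g = g') : rp g ≅ rp g' :=
  repIso (Gr.isoMk (Iso.refl _) h)

theorem rpEq_hom {g g' : Gam} (h : g = g') : (rpEq h).hom = M.tm h.ge := rfl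

theorem rpEq_inv {g g' : Gam} (h : g = g') : (rpEq h).inv = M.tm h.le := rfl

/-- the product of two units -/
noncomputable def rpAdd {g g' g'' : Gam} (h : g + g' = g'') : rp g ⊗ rp g' ≅ rp g'' :=
  rpAdd0 g g' ≪≫ rpEq h

@[reassoc]
theorem unG_mul' {g g' g'' : Gam} (e : g + g' = g'') (h : 0 ≤ g.2) (h' : 0 ≤ g'.2)
    (h'' : 0 ≤ g''.2) :
    (unG g h ⊗ₘ unG g' h') ≫ MonObj.mul = (rpAdd e).hom ≫ unG g'' h'' := by
  rw [unG_mul, rpAdd, Iso.trans_hom, Category.assoc, rpEq_hom, tm_unG]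

@[reassoc]
theorem un_mul {a b c : Lam} (e : a + b = c) :
    (un a ⊗ₘ un b) ≫ MonObj.mul =
      (rpAdd (g := (a, 0)) (g' := (b, 0)) (g'' := (c, 0)) (by simp [e])).hom ≫ un c :=
  unG_mul' _ _ _ _

variable {T T' : CommMon MM} (φ : T0 ⟶ T)

instance (a : Lam) : IsIso (mulL (un a ≫ ah φ)) := by
  refine isIso_mulL _ (un (-a) ≫ ah φ)
    (rpAdd (g := (a, 0)) (g' := (-a, 0)) (g'' := (0, 0)) (by simp))
    (rpAdd (g := (-a, 0)) (g' := (a, 0)) (g'' := (0, 0)) (by simp)) ?_ ?_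
  · rw [← tensorHom_comp_tensorHom, Category.assoc, ← IsMonHom.mul_hom,
      un_mul_assoc (add_neg_cancel a), un_zero]
    exact congrArg (_ ≫ ·) (IsMonHom.one_hom (ah φ))
  · rw [← tensorHom_comp_tensorHom, Category.assoc, ← IsMonHom.mul_hom,
      un_mul_assoc (neg_add_cancel a), un_zero]
    exact congrArg (_ ≫ ·) (IsMonHom.one_hom (ah φ))

instance (a : Lam) : IsIso (actL (un a ≫ ah φ)) := by
  rw [actL_eq]
  infer_instance

/-- **periodicity** -/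
noncomputable def per (a : Lam) : rp (a, 0) ⊗ T.X ≅ T.X := asIso (mulL (un a ≫ ah φ))

theorem per_hom (a : Lam) : (per φ a).hom = (un a ≫ ah φ) ▷ T.X ≫ MonObj.mul := rfl

theorem per_hom' (a : Lam) : (per φ a).hom = mulL (un a ≫ ah φ) := rfl

@[reassoc]
theorem per_nat (a : Lam) (g : T ⟶ T') :
    (per φ a).hom ≫ ah g = rp (a, 0) ◁ ah g ≫ (per (φ ≫ g) a).hom := by
  rw [per_hom', per_hom', mulL_nat, ah_comp, Category.assoc]

@[reassoc]
theorem one_per (a : Lam) :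
    rp (a, 0) ◁ MonObj.one ≫ (per φ a).hom = (ρ_ _).hom ≫ un a ≫ ah φ := by
  rw [per_hom, whisker_exchange_assoc, MonObj.mul_one, rightUnitor_naturality]

@[reassoc]
theorem per_per {a b c : Lam} (e : a + b = c) :
    rp (a, 0) ◁ (per φ b).hom ≫ (per φ a).hom = (α_ _ _ _).inv ≫
      (rpAdd (g := (a, 0)) (g' := (b, 0)) (g'' := (c, 0)) (by simp [e])).hom ▷ T.X ≫
        (per φ c).hom := by
  rw [per_hom', per_hom', per_hom', whiskerLeft_mulL_mulL, whiskerRight_mulL,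
    ← tensorHom_comp_tensorHom, Category.assoc, ← IsMonHom.mul_hom, un_mul_assoc e]

theorem per_zero : (per φ 0).hom = (λ_ T.X).hom := by
  rw [per_hom', un_zero]
  exact (congrArg mulL (IsMonHom.one_hom (ah φ))).trans mulL_one

/-- periodicity, on the right -/
noncomputable def perR (a : Lam) : T.X ⊗ rp (a, 0) ≅ T.X := asIso (actL (un a ≫ ah φ))

theorem perR_hom (a : Lam) : (perR φ a).hom = actL (un a ≫ ah φ) := rfl

@[reassoc]
theorem perR_nat (a : Lam) (g : T ⟶ T') :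
    (perR φ a).hom ≫ ah g = ah g ▷ rp (a, 0) ≫ (perR (φ ≫ g) a).hom := by
  rw [perR_hom, perR_hom, actL_ah, ah_comp, Category.assoc]

end Vale.Agent.P257.T
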