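import Vale.Agent.P257.T.Adj
import Vale.Agent.P257.E.Act

/-!
# P257, block T: group actions on functors, fixed points

* `FAct G L`: a left action of `G` on the functor `L`; `θ.twist : Action M G ⥤ Action N G`,
  (lax) monoidal and braided if `L` is and `G` acts by monoidal transformations;
  `θ.lift = triv G ⋙ θ.twist`;
* `twistAdj`: an adjunction with compatible actions lifts to objects with an action;
* `HasFix M`, `fix G : Action M G ⥤ M`, `fixAdj : triv G ⊣ fix G`, `fix G` is lax braided.
-/

open CategoryTheory MonoidalCategory Limits Functor.LaxMonoidal Functor.OplaxMonoidal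

namespace Vale.Agent.P257.T

open Vale.Agent.P257.E

universe v u v' u'

variable {M : Type u} [Category.{v} M] {N : Type u'} [Category.{v'} N] {G : Type} [Group G]

variable (G) in
/-- a left action of a group on a functor -/
structure FAct (L : M ⥤ N) where
  /-- the action of a group element -/
  a : G → (L ⟶ L)
  one : a 1 = 𝟙 L
  mul : ∀ g h, a (g * h) = a h ≫ a g

namespace FAct

variable {L : M ⥤ N} (θ : FAct G L)

variable (G L) in
/-- the trivial action -/
@[simps] def triv : FAct G L where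
  a _ := 𝟙 L
  one := rfl
  mul _ _ := (Category.comp_id _).symm

/-- restriction along a homomorphism -/
@[simps] def comap {H : Type} [Group H] (φ : H →* G) : FAct H L where
  a h := θ.a (φ h)
  one := by rw [map_one, θ.one]
  mul g h := by rw [map_mul, θ.mul]

@[simp] theorem one_app (X : M) : (θ.a 1).app X = 𝟙 _ := by rw [θ.one]; rfl

@[reassoc]
theorem mul_app (g h : G) (X : M) : (θ.a h).app X ≫ (θ.a g).app X = (θ.a (g * h)).app X := by
  rw [θ.mul]; rfl

@[reassoc (attr := simp)]
theorem inv_app (g : G) (X : M) : (θ.a g⁻¹).app X ≫ (θ.a g).app X = 𝟙 _ := by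
  rw [mul_app, mul_inv_cancel, one_app]

@[reassoc (attr := simp)]
theorem app_inv (g : G) (X : M) : (θ.a g).app X ≫ (θ.a g⁻¹).app X = 𝟙 _ := by
  rw [mul_app, inv_mul_cancel, one_app]

instance (g : G) (X : M) : IsIso ((θ.a g).app X) := ⟨_, θ.app_inv g X, θ.inv_app g X⟩

/-- the value at an object, with its action -/
@[reducible] def at' (X : M) : Action N G :=
  mkAct (L.obj X) (fun g => (θ.a g).app X) (θ.one_app X) (fun g h => (θ.mul_app g h X).symm)

/-- the functor on objects with an action -/
@[reducible] def twist : Action M G ⥤ Action N G where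
  obj X := mkAct (L.obj X.V) (fun g => L.map (act X g) ≫ (θ.a g).app X.V)
    (by rw [act_one, L.map_id, one_app, Category.id_comp])
    (fun g h => by
      rw [← act_mul, L.map_comp, ← mul_app, Category.assoc, Category.assoc,
        NatTrans.naturality_assoc])
  map f := mkHom (L.map f.hom) fun g => by
    show (L.map (act _ g) ≫ (θ.a g).app _) ≫ L.map f.hom =
      L.map f.hom ≫ L.map (act _ g) ≫ (θ.a g).app _
    rw [Category.assoc, ← NatTrans.naturality, ← L.map_comp_assoc, act_comm, L.map_comp_assoc]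
  map_id X := Action.hom_ext _ _ (L.map_id _)
  map_comp f g := Action.hom_ext _ _ (L.map_comp _ _)

theorem act_twist (X : Action M G) (g : G) :
    act (θ.twist.obj X) g = L.map (act X g) ≫ (θ.a g).app X.V := rfl

theorem twist_map_hom {X Y : Action M G} (f : X ⟶ Y) : (θ.twist.map f).hom = L.map f.hom := rfl

/-- the functor with values in objects with an action -/
abbrev lift : M ⥤ Action N G := E.triv G ⋙ θ.twist

theorem act_lift (X : M) (g : G) : act (θ.lift.obj X) g = (θ.a g).app X := by
  change L.map (𝟙 X) ≫ _ = _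
  rw [L.map_id, Category.id_comp]

theorem lift_map_hom {X Y : M} (f : X ⟶ Y) : (θ.lift.map f).hom = L.map f := rfl

theorem lift_obj_V (X : M) : (θ.lift.obj X).V = L.obj X := rfl

instance {K : Type} [SmallCategory K] [HasColimitsOfShape K M] [PreservesColimitsOfShape K L] :
    PreservesColimitsOfShape K θ.twist :=
  Action.preservesColimitsOfShape_of_preserves _
    (inferInstanceAs (PreservesColimitsOfShape K (Action.forget M G ⋙ L)))

instance [HasZeroMorphisms M] [HasZeroMorphisms N] [L.PreservesZeroMorphisms] :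
    θ.twist.PreservesZeroMorphisms where
  map_zero _ _ := Action.hom_ext _ _ (L.map_zero _ _)

/-- equivariant natural transformations -/
@[simps] def twistMap {L' : M ⥤ N} (θ' : FAct G L') (τ : L ⟶ L')
    (h : ∀ g, θ.a g ≫ τ = τ ≫ θ'.a g) : θ.twist ⟶ θ'.twist where
  app X := mkHom (τ.app X.V) fun g => by
    show (L.map (act _ g) ≫ (θ.a g).app _) ≫ τ.app _ = τ.app _ ≫ L'.map (act _ g) ≫ (θ'.a g).app _
    rw [Category.assoc, ← NatTrans.comp_app, h, NatTrans.comp_app, NatTrans.naturality_assoc]
  naturality _ _ f := Action.hom_ext _ _ (τ.naturality f.hom)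

section mon

variable [MonoidalCategory M] [MonoidalCategory N]

/-- the group acts by monoidal transformations -/
class IsMon [L.LaxMonoidal] : Prop where
  isMonoidal : ∀ g, (θ.a g).IsMonoidal

instance [L.LaxMonoidal] [θ.IsMon] (g : G) : (θ.a g).IsMonoidal := IsMon.isMonoidal g

instance [L.LaxMonoidal] : (triv G L).IsMon :=
  ⟨fun _ => inferInstanceAs (NatTrans.IsMonoidal (𝟙 L))⟩

instance [L.LaxMonoidal] [θ.IsMon] {H : Type} [Group H] (φ : H →* G) : (θ.comap φ).IsMon :=
  ⟨fun h => inferInstanceAs (θ.a (φ h)).IsMonoidal⟩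

instance [L.LaxMonoidal] [θ.IsMon] : θ.twist.LaxMonoidal where
  ε := mkHom (ε L) fun g => by
    show 𝟙 _ ≫ ε L = ε L ≫ L.map (𝟙 _) ≫ (θ.a g).app _
    rw [L.map_id, Category.id_comp, Category.id_comp, NatTrans.IsMonoidal.unit]
  μ X Y := mkHom (μ L X.V Y.V) fun g => by
    show ((L.map (act X g) ≫ (θ.a g).app _) ⊗ₘ (L.map (act Y g) ≫ (θ.a g).app _)) ≫ μ L _ _ =
      μ L _ _ ≫ L.map (act X g ⊗ₘ act Y g) ≫ (θ.a g).app (X.V ⊗ Y.V)
    rw [← μ_natural_assoc, NatTrans.IsMonoidal.tensor, tensorHom_comp_tensorHom_assoc]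
  μ_natural_left f Z := Action.hom_ext _ _ (μ_natural_left L f.hom Z.V)
  μ_natural_right Z f := Action.hom_ext _ _ (μ_natural_right L Z.V f.hom)
  associativity _ _ _ := Action.hom_ext _ _ (by simp [mkHom])
  left_unitality _ := Action.hom_ext _ _ (by simp [mkHom])
  right_unitality _ := Action.hom_ext _ _ (by simp [mkHom])

@[simp] theorem twist_ε_hom [L.LaxMonoidal] [θ.IsMon] : (ε θ.twist).hom = ε L := rfl

@[simp] theorem twist_μ_hom [L.LaxMonoidal] [θ.IsMon] (X Y : Action M G) :
    (μ θ.twist X Y).hom = μ L X.V Y.V := rfl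

instance [L.Monoidal] [θ.IsMon] : θ.twist.Monoidal where
  η := mkHom (η L) fun g => by
    rw [← cancel_epi (ε L), ← Category.assoc]
    erw [← act_comm (ε θ.twist) g]
    simp
  δ X Y := mkHom (δ L X.V Y.V) fun g => by
    rw [← cancel_epi (μ L X.V Y.V), ← Category.assoc]
    erw [← act_comm (μ θ.twist X Y) g]
    simp
  δ_natural_left f Z := Action.hom_ext _ _ (δ_natural_left L f.hom Z.V)
  δ_natural_right Z f := Action.hom_ext _ _ (δ_natural_right L Z.V f.hom)
  oplax_associativity _ _ _ := Action.hom_ext _ _ (by simp [mkHom])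
  oplax_left_unitality _ := Action.hom_ext _ _ (by simp [mkHom])
  oplax_right_unitality _ := Action.hom_ext _ _ (by simp [mkHom])
  η_ε := Action.hom_ext _ _ (Functor.Monoidal.η_ε L)
  ε_η := Action.hom_ext _ _ (Functor.Monoidal.ε_η L)
  μ_δ X Y := Action.hom_ext _ _ (Functor.Monoidal.μ_δ L X.V Y.V)
  δ_μ X Y := Action.hom_ext _ _ (Functor.Monoidal.δ_μ L X.V Y.V)

@[simp] theorem twist_η_hom [L.Monoidal] [θ.IsMon] : (η θ.twist).hom = η L := rfl

@[simp] theorem twist_δ_hom [L.Monoidal] [θ.IsMon] (X Y : Action M G) :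
    (δ θ.twist X Y).hom = δ L X.V Y.V := rfl

instance [BraidedCategory M] [BraidedCategory N] [L.LaxBraided] [θ.IsMon] :
    θ.twist.LaxBraided where
  braided X Y := Action.hom_ext _ _ (Functor.LaxBraided.braided (F := L) X.V Y.V)

instance [BraidedCategory M] [BraidedCategory N] [L.Braided] [θ.IsMon] : θ.twist.Braided where
  braided X Y := Action.hom_ext _ _ (Functor.LaxBraided.braided (F := L) X.V Y.V)

instance {L' : M ⥤ N} [L.LaxMonoidal] [L'.LaxMonoidal] [θ.IsMon] (θ' : FAct G L') [θ'.IsMon]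
    (τ : L ⟶ L') [τ.IsMonoidal] (h : ∀ g, θ.a g ≫ τ = τ ≫ θ'.a g) :
    (θ.twistMap θ' τ h).IsMonoidal where
  unit := Action.hom_ext _ _ (NatTrans.IsMonoidal.unit (τ := τ))
  tensor X Y := Action.hom_ext _ _ (NatTrans.IsMonoidal.tensor (τ := τ) X.V Y.V)

@[simp] theorem lift_ε_hom [L.LaxMonoidal] [θ.IsMon] : (ε θ.lift).hom = ε L := by
  change ε L ≫ L.map (𝟙 _) = _
  rw [L.map_id, Category.comp_id]

@[simp] theorem lift_μ_hom [L.LaxMonoidal] [θ.IsMon] (X Y : M) :
    (μ θ.lift X Y).hom = μ L X Y := by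
  change μ L X Y ≫ L.map (𝟙 _) = _
  rw [L.map_id, Category.comp_id]

@[simp] theorem lift_η_hom [L.Monoidal] [θ.IsMon] : (η θ.lift).hom = η L := by
  change L.map (𝟙 _) ≫ η L = _
  rw [L.map_id, Category.id_comp]

@[simp] theorem lift_δ_hom [L.Monoidal] [θ.IsMon] (X Y : M) :
    (δ θ.lift X Y).hom = δ L X Y := by
  change L.map (𝟙 _) ≫ δ L X Y = _
  rw [L.map_id, Category.id_comp]

end mon

end FAct

section twistAdj

variable {L : M ⥤ N} {R : N ⥤ M} (adj : L ⊣ R) (θ : FAct G L) (θ' : FAct G R)

/-- the actions on two adjoint functors are compatible -/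
def Mate : Prop :=
  ∀ (g : G) (X : M), adj.unit.app X ≫ R.map ((θ.a g).app X) ≫ (θ'.a g).app (L.obj X) =
    adj.unit.app X

variable {adj θ θ'}

theorem Mate.counit (h : Mate adj θ θ') (g : G) (Y : N) :
    L.map ((θ'.a g).app Y) ≫ (θ.a g).app (R.obj Y) ≫ adj.counit.app Y = adj.counit.app Y := by
  rw [(θ.a g).naturality_assoc]
  apply (adj.homEquiv _ _).injective
  rw [adj.homEquiv_unit, adj.homEquiv_unit, R.map_comp, R.map_comp, adj.right_triangle_components]
  have h1 := h g (R.obj Y)
  rw [← cancel_mono ((θ'.a g⁻¹).app _), Category.assoc, Category.assoc, FAct.app_inv,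
    Category.comp_id] at h1
  rw [reassoc_of% h1, ← R.map_comp, ← (θ'.a g⁻¹).naturality, R.map_comp, Category.assoc,
    adj.unit_naturality_assoc, adj.right_triangle_components_assoc]
  exact θ'.app_inv g Y

/-- an adjunction with compatible actions lifts to objects with an action -/
def twistAdj (h : Mate adj θ θ') : θ.twist ⊣ θ'.twist where
  unit :=
    { app := fun X => mkHom (adj.unit.app X.V) fun g => by
        show act X g ≫ adj.unit.app X.V = adj.unit.app X.V ≫
          R.map (L.map (act X g) ≫ (θ.a g).app _) ≫ (θ'.a g).app _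
        erw [R.map_comp, Category.assoc, adj.unit_naturality_assoc, h]
      naturality := fun X Y f => Action.hom_ext _ _ (adj.unit.naturality f.hom) }
  counit :=
    { app := fun Y => mkHom (adj.counit.app Y.V) fun g => by
        show (L.map (R.map (act Y g) ≫ (θ'.a g).app _) ≫ (θ.a g).app _) ≫ adj.counit.app Y.V =
          adj.counit.app Y.V ≫ act Y g
        erw [L.map_comp, Category.assoc, Category.assoc, h.counit, adj.counit_naturality]
      naturality := fun X Y f => Action.hom_ext _ _ (adj.counit.naturality f.hom) }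
  left_triangle_components X := Action.hom_ext _ _ (adj.left_triangle_components X.V)
  right_triangle_components Y := Action.hom_ext _ _ (adj.right_triangle_components Y.V)

@[simp] theorem twistAdj_unit_app_hom (h : Mate adj θ θ') (X : Action M G) :
    ((twistAdj h).unit.app X).hom = adj.unit.app X.V := rfl

@[simp] theorem twistAdj_counit_app_hom (h : Mate adj θ θ') (Y : Action N G) :
    ((twistAdj h).counit.app Y).hom = adj.counit.app Y.V := rfl

instance [MonoidalCategory M] [MonoidalCategory N] [L.Monoidal] [R.LaxMonoidal] [adj.IsMonoidal]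
    [θ.IsMon] [θ'.IsMon] (h : Mate adj θ θ') : (twistAdj h).IsMonoidal where
  leftAdjoint_ε := Action.hom_ext _ _ (Adjunction.IsMonoidal.leftAdjoint_ε (adj := adj))
  leftAdjoint_μ X Y :=
    Action.hom_ext _ _ (Adjunction.IsMonoidal.leftAdjoint_μ (adj := adj) X.V Y.V)

end twistAdj

section fix

variable (M) in
/-- chosen fixed point objects of families of endomorphisms -/
class HasFix where
  /-- the object of fixed points -/
  ob : ∀ {ι : Type} {Y : M}, (ι → (Y ⟶ Y)) → M
  /-- the inclusion -/
  inc : ∀ {ι : Type} {Y : M} (ρ : ι → (Y ⟶ Y)), ob ρ ⟶ Y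
  w : ∀ {ι : Type} {Y : M} (ρ : ι → (Y ⟶ Y)) (i : ι), inc ρ ≫ ρ i = inc ρ
  /-- the universal property -/
  lift : ∀ {ι : Type} {Y : M} (ρ : ι → (Y ⟶ Y)) {X : M} (f : X ⟶ Y),
    (∀ i, f ≫ ρ i = f) → (X ⟶ ob ρ)
  fac : ∀ {ι : Type} {Y : M} (ρ : ι → (Y ⟶ Y)) {X : M} (f : X ⟶ Y) (h : ∀ i, f ≫ ρ i = f),
    lift ρ f h ≫ inc ρ = f
  mono : ∀ {ι : Type} {Y : M} (ρ : ι → (Y ⟶ Y)), Mono (inc ρ)

variable [HasFix M]

variable (G) in
/-- fixed points -/
def fix : Action M G ⥤ M where
  obj Z := HasFix.ob (act Z)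
  map {Z W} f := HasFix.lift (act W) (HasFix.inc (act Z) ≫ f.hom) fun g => by
    rw [Category.assoc, ← act_comm, ← Category.assoc, HasFix.w]
  map_id Z := by
    have := HasFix.mono (act Z)
    rw [← cancel_mono (HasFix.inc (act Z)), HasFix.fac]
    exact (Category.comp_id _).trans (Category.id_comp _).symm
  map_comp {X Y Z} f g := by
    have := HasFix.mono (act Z)
    rw [← cancel_mono (HasFix.inc (act Z)), HasFix.fac, Category.assoc, HasFix.fac,
      ← Category.assoc, HasFix.fac, Category.assoc]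
    rfl

/-- the inclusion of the fixed points -/
def fixInc (Z : Action M G) : (fix G).obj Z ⟶ Z.V := HasFix.inc (act Z)

instance (Z : Action M G) : Mono (fixInc Z) := HasFix.mono _

@[reassoc (attr := simp)]
theorem fixInc_act (Z : Action M G) (g : G) : fixInc Z ≫ act Z g = fixInc Z := HasFix.w _ g

/-- invariant morphisms factor through the fixed points -/
def fixLift {X : M} {Z : Action M G} (f : X ⟶ Z.V) (h : ∀ g, f ≫ act Z g = f) :
    X ⟶ (fix G).obj Z := HasFix.lift _ f h

@[reassoc (attr := simp)]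
theorem fixLift_inc {X : M} {Z : Action M G} (f : X ⟶ Z.V) (h : ∀ g, f ≫ act Z g = f) :
    fixLift f h ≫ fixInc Z = f := HasFix.fac _ f h

@[reassoc (attr := simp)]
theorem fix_map_inc {Z W : Action M G} (f : Z ⟶ W) :
    (fix G).map f ≫ fixInc W = fixInc Z ≫ f.hom := HasFix.fac _ _ _

theorem fix_ext {X : M} {Z : Action M G} {f g : X ⟶ (fix G).obj Z}
    (h : f ≫ fixInc Z = g ≫ fixInc Z) : f = g := (cancel_mono _).mp h

variable (G) in
/-- the unit of the adjunction -/
def fixUnit (X : M) : X ⟶ (fix G).obj ((triv G).obj X) :=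
  fixLift (Z := (triv G).obj X) (𝟙 X) fun _ => Category.comp_id _

@[reassoc (attr := simp)]
theorem fixUnit_inc (X : M) : fixUnit G X ≫ fixInc ((triv G).obj X) = 𝟙 X := fixLift_inc _ _

/-- the counit of the adjunction -/
def fixCounit (Z : Action M G) : (triv G).obj ((fix G).obj Z) ⟶ Z :=
  mkHom (fixInc Z) fun g => (Category.id_comp _).trans (fixInc_act Z g).symm

@[simp] theorem fixCounit_hom (Z : Action M G) : (fixCounit Z).hom = fixInc Z := rfl

variable (G M) in
/-- fixed points are right adjoint to the trivial action -/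
def fixAdj : (triv G : M ⥤ _) ⊣ fix G where
  unit :=
    { app := fixUnit G
      naturality := fun X Y f => by
        change f ≫ fixUnit G Y = fixUnit G X ≫ (fix G).map ((triv G).map f)
        apply fix_ext
        rw [Category.assoc, Category.assoc, fixUnit_inc, fix_map_inc, fixUnit_inc_assoc]
        exact Category.comp_id _ }
  counit :=
    { app := fixCounit
      naturality := fun _ _ f => Action.hom_ext _ _ (fix_map_inc f) }
  left_triangle_components X := Action.hom_ext _ _ (fixUnit_inc X)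
  right_triangle_components Z := by
    change fixUnit G _ ≫ (fix G).map (fixCounit Z) = 𝟙 _
    apply fix_ext
    rw [Category.assoc, fix_map_inc, fixUnit_inc_assoc, Category.id_comp]
    rfl

@[reassoc (attr := simp)]
theorem fixAdj_unit_inc (X : M) :
    (fixAdj M G).unit.app X ≫ fixInc ((triv G).obj X) = 𝟙 X := fixUnit_inc X

@[simp] theorem fixAdj_counit_app_hom (Z : Action M G) :
    ((fixAdj M G).counit.app Z).hom = fixInc Z := rfl

theorem fixAdj_homEquiv_inc {X : M} {Z : Action M G} (f : (triv G).obj X ⟶ Z) :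
    (fixAdj M G).homEquiv X Z f ≫ fixInc Z = f.hom := by
  rw [Adjunction.homEquiv_unit, Category.assoc, fix_map_inc, fixAdj_unit_inc_assoc]

theorem fixAdj_homEquiv_symm_hom {X : M} {Z : Action M G} (f : X ⟶ (fix G).obj Z) :
    (((fixAdj M G).homEquiv X Z).symm f).hom = f ≫ fixInc Z := rfl

instance : (triv G : M ⥤ _).IsLeftAdjoint := (fixAdj M G).isLeftAdjoint

instance : (fix G : Action M G ⥤ M).IsRightAdjoint := (fixAdj M G).isRightAdjoint

variable [MonoidalCategory M]

instance : (fix G : Action M G ⥤ M).LaxMonoidal := (fixAdj M G).rightAdjointLaxMonoidal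

instance : (fixAdj M G).IsMonoidal :=
  inferInstanceAs (letI := (fixAdj M G).rightAdjointLaxMonoidal; (fixAdj M G).IsMonoidal)

instance [BraidedCategory M] : (fix G : Action M G ⥤ M).LaxBraided :=
  laxBraidedOfAdj (fixAdj M G)

@[reassoc (attr := simp)]
theorem fix_ε_inc : ε (fix G) ≫ fixInc (𝟙_ (Action M G)) = 𝟙 (𝟙_ M) :=
  fixAdj_homEquiv_inc _

@[reassoc (attr := simp)]
theorem fix_μ_inc (Z W : Action M G) :
    μ (fix G) Z W ≫ fixInc (Z ⊗ W) = fixInc Z ⊗ₘ fixInc W :=
  (fixAdj_homEquiv_inc _).trans (Category.id_comp _)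

end fix

end Vale.Agent.P257.T
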