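import Vale.Agent.P257.T.Ten
import Vale.Agent.P257.T.Act
import Vale.Agent.P257.Z.Pol

/-!
# P257, block T: the functor `U Z = (Map (S, Z)) ^ G` and its left adjoint

* compact `G`-spaces are cocommutative comonoids (in `Action LC G` and in `Action M G`);
* for a cocommutative comonoid `S` of `Action M G`: `uL S X = S ⊗ triv X` (oplax monoidal),
  `uR S Z = (ihom S Z) ^ G` (lax braided), `uAdj S : uL S ⊣ uR S`;
* `uPr S : uL S ⟶ triv G`, and `uOf S f : B ⟶ uR S Z` for an algebra map `f : triv B ⟶ Z`.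
-/

open CategoryTheory MonoidalCategory Limits Functor.LaxMonoidal Functor.OplaxMonoidal

namespace Vale.Agent.P257.T

open Vale.Agent.P251.G (LC)
open Vale.Agent.P251.G.LC (RR II HH app)
open Vale.Agent.P251.H Vale.Agent.P251.H.StabInput
open Vale.Agent.P257.A Vale.Agent.P257.E

set_option linter.unusedSectionVars false

universe v u v' u'

section ophom

variable {M : Type u} [Category.{v} M] [MonoidalCategory M] [SymmetricCategory M]
  {N : Type u'} [Category.{v'} N] [MonoidalCategory N] [SymmetricCategory N]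

/-- transformations of oplax monoidal functors -/
structure IsOpNat {L L' : M ⥤ N} [L.OplaxMonoidal] [L'.OplaxMonoidal] (τ : L ⟶ L') : Prop where
  unit : τ.app (𝟙_ M) ≫ η L' = η L
  tensor (X Y : M) : τ.app (X ⊗ Y) ≫ δ L' X Y = δ L X Y ≫ (τ.app X ⊗ₘ τ.app Y)

theorem IsOpNat.isOpHom {L L' : M ⥤ N} [L.OplaxMonoidal] [L'.OplaxMonoidal] {τ : L ⟶ L'}
    (h : IsOpNat τ) {A : M} [MonObj A] {Z : N} [MonObj Z] {f : L'.obj A ⟶ Z}
    (hf : IsOpHom L' f) : IsOpHom L (τ.app A ≫ f) where
  one := by rw [τ.naturality_assoc, hf.one, reassoc_of% h.unit]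
  mul := by
    rw [τ.naturality_assoc, hf.mul, reassoc_of% h.tensor, tensorHom_comp_tensorHom_assoc]

variable {L : M ⥤ N} [L.Braided] {A : CommMon M} {Z : CommMon N}

/-- the underlying morphism of an algebra map out of `L A` -/
def ahL (f : L.mapCommMon.obj A ⟶ Z) : L.obj A.X ⟶ Z.X := ah f

theorem ahL_eq (f : L.mapCommMon.obj A ⟶ Z) : ahL f = ah f := rfl

theorem isOpHom_ahL (f : L.mapCommMon.obj A ⟶ Z) : IsOpHom L (ahL f) where
  one := by
    have h : (ε L ≫ L.map MonObj.one) ≫ ahL f = MonObj.one := IsMonHom.one_hom (ah f)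
    rw [← h, Category.assoc, Functor.Monoidal.η_ε_assoc]
  mul := by
    have h : (μ L A.X A.X ≫ L.map MonObj.mul) ≫ ahL f = (ahL f ⊗ₘ ahL f) ≫ MonObj.mul :=
      IsMonHom.mul_hom (ah f)
    rw [← h, Category.assoc, Functor.Monoidal.δ_μ_assoc]

/-- the algebra map out of `L A` given by a multiplicative map -/
def ofOpL (f : L.obj A.X ⟶ Z.X) (hf : IsOpHom L f) : L.mapCommMon.obj A ⟶ Z :=
  @mkAh N _ _ _ (L.mapCommMon.obj A) Z f
    { one_hom := by
        change (ε L ≫ L.map MonObj.one) ≫ f = MonObj.one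
        rw [Category.assoc, hf.one, Functor.Monoidal.ε_η_assoc]
      mul_hom := by
        change (μ L A.X A.X ≫ L.map MonObj.mul) ≫ f = (f ⊗ₘ f) ≫ MonObj.mul
        rw [Category.assoc, hf.mul, Functor.Monoidal.μ_δ_assoc] }

@[simp] theorem ahL_ofOpL (f : L.obj A.X ⟶ Z.X) (hf : IsOpHom L f) : ahL (ofOpL f hf) = f := rfl

end ophom

section space

variable (G : Type) [Group G] (X : Type) [TopologicalSpace X] [LocallyCompactSpace X] [T2Space X]
  [MulAction G X] [ContinuousConstSMul G X] [CompactSpace X]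

/-- the diagonal of a compact `G`-space -/
def gDiag : gsp G X ⟶ gsp G X ⊗ gsp G X :=
  mkHom (LC.ofCompact (X := LC.of X) (Y := LC.of (X × X)) (fun x => (x, x)) (by fun_prop))
    fun _ => LC.hom_ext fun _ => rfl

@[simp] theorem app_gDiag (x : X) :
    app (gDiag G X).hom (x : OnePoint X) = (((x, x) : X × X) : OnePoint (X × X)) := rfl

instance : ComonObj (gsp G X) where
  counit := Z.toPt G X
  comul := gDiag G X
  counit_comul := Action.hom_ext _ _ (by
    rw [Action.comp_hom, Action.whiskerRight_hom, Action.leftUnitor_inv_hom]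
    exact LC.hom_ext fun _ => rfl)
  comul_counit := Action.hom_ext _ _ (by
    rw [Action.comp_hom, Action.whiskerLeft_hom, Action.rightUnitor_inv_hom]
    exact LC.hom_ext fun _ => rfl)
  comul_assoc := Action.hom_ext _ _ (by
    rw [Action.comp_hom, Action.comp_hom, Action.comp_hom, Action.whiskerLeft_hom,
      Action.whiskerRight_hom, Action.associator_hom_hom]
    exact LC.hom_ext fun _ => rfl)

theorem gsp_counit : (ComonObj.counit : gsp G X ⟶ _) = Z.toPt G X := rfl

theorem gsp_comul : (ComonObj.comul : gsp G X ⟶ _) = gDiag G X := rfl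

instance : IsCommComonObj (gsp G X) where
  comul_comm := Action.hom_ext _ _ (LC.hom_ext fun _ => rfl)

variable {G} (M : Type u) [Category.{v} M] [MonoidalCategory M] [SymmetricCategory M]
  [MonoidalClosed M] [HasZeroMorphisms M] [HasColimitsOfSize.{0, 0} M] [StabInput M]
  (S : Action LC G) [ComonObj S]

noncomputable instance : ComonObj ((JA G M).obj S) := Functor.obj.instComonObj S (JA G M)

theorem JA_counit : (ComonObj.counit : (JA G M).obj S ⟶ _) =
    (JA G M).map ComonObj.counit ≫ η (JA G M) := rfl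

theorem JA_comul : (ComonObj.comul : (JA G M).obj S ⟶ _) =
    (JA G M).map ComonObj.comul ≫ δ (JA G M) S S := rfl

instance [IsCommComonObj S] : IsCommComonObj ((JA G M).obj S) := isCommComonObj_map (JA G M) S

noncomputable instance : ComonObj ((JA G M).obj (gsp G X)) :=
  Functor.obj.instComonObj (gsp G X) (JA G M)

instance : IsCommComonObj ((JA G M).obj (gsp G X)) := isCommComonObj_map (JA G M) (gsp G X)

theorem prj_eq (ι : Type) [Finite ι] (j : ℕ) : Z.prj ι j M = ComonObj.counit := rfl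

end space

section u

variable {M : Type u} [Category.{v} M] [MonoidalCategory M] [SymmetricCategory M]
  [MonoidalClosed M] {G : Type} [Group G] (S : Action M G)

/-- the left adjoint `X ↦ S ⊗ triv X` -/
abbrev uL : M ⥤ Action M G := triv G ⋙ tensorLeft S

theorem uL_obj (X : M) : (uL S).obj X = S ⊗ (triv G).obj X := rfl

theorem uL_map {X Y : M} (f : X ⟶ Y) : (uL S).map f = S ◁ (triv G).map f := rfl

section pr

variable [ComonObj S]

theorem uL_η : η (uL S) = (ρ_ S).hom ≫ ComonObj.counit := by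
  change S ◁ η (triv G) ≫ etaS S = _
  have : η (triv G : M ⥤ _) = 𝟙 _ := Action.hom_ext _ _ rfl
  rw [this]
  exact (congrArg (· ≫ etaS S) (MonoidalCategory.whiskerLeft_id _ _)).trans (Category.id_comp _)

theorem uL_δ (X Y : M) : δ (uL S) X Y =
    S ◁ δ (triv G) X Y ≫ delS S ((triv G).obj X) ((triv G).obj Y) := rfl

/-- the projection `S ⊗ W ⟶ W` -/
def prS (W : Action M G) : S ⊗ W ⟶ W := ComonObj.counit ▷ W ≫ (λ_ W).hom

@[reassoc]
theorem prS_nat {W W' : Action M G} (f : W ⟶ W') : S ◁ f ≫ prS S W' = prS S W ≫ f := by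
  rw [prS, prS, whisker_exchange_assoc, leftUnitor_naturality, Category.assoc]

@[reassoc]
theorem delS_prS (W W' : Action M G) :
    delS S W W' ≫ (prS S W ⊗ₘ prS S W') = prS S (W ⊗ W') := by
  have h := tensorμ_natural (ComonObj.counit (X := S)) (ComonObj.counit (X := S)) (𝟙 W) (𝟙 W')
  simp only [tensorHom_id, id_whiskerRight] at h
  rw [delS, prS, prS, prS, ← tensorHom_comp_tensorHom, Category.assoc, ← reassoc_of% h,
    ← comp_whiskerRight_assoc, tensorHom_def, ComonObj.counit_comul_assoc,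
    ← leftUnitor_inv_naturality, comp_whiskerRight, Category.assoc]
  congr 1
  simp [tensorμ, tensorHom_def]

/-- the projection `uL S ⟶ triv G` -/
@[simps] def uPr : uL S ⟶ triv G where
  app X := prS S ((triv G).obj X)
  naturality _ _ f := prS_nat S ((triv G).map f)

theorem isOpNat_uPr : IsOpNat (uPr S) where
  unit := by
    change prS S _ ≫ η (triv G) = S ◁ η (triv G) ≫ etaS S
    rw [← prS_nat, prS, etaS, unitors_equal, rightUnitor_naturality]
  tensor X Y := by
    change prS S _ ≫ δ (triv G) X Y = (S ◁ δ (triv G) X Y ≫ delS S _ _) ≫ (prS S _ ⊗ₘ prS S _)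
    rw [Category.assoc, delS_prS, prS_nat]

end pr

variable [HasFix M]

/-- the right adjoint `Z ↦ (Map (S, Z)) ^ G` -/
noncomputable abbrev uR : Action M G ⥤ M := ihom S ⋙ fix G

/-- the adjunction -/
noncomputable def uAdj : uL S ⊣ uR S := (fixAdj M G).comp (ihom.adjunction S)

instance : (uL S).IsLeftAdjoint := (uAdj S).isLeftAdjoint

instance : (uR S).IsRightAdjoint := (uAdj S).isRightAdjoint

instance : PreservesColimitsOfSize.{0, 0} (uL S) := (uAdj S).leftAdjoint_preservesColimits

variable [ComonObj S]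

instance : (uAdj S).IsMonoidal :=
  inferInstanceAs ((fixAdj M G).comp (ihom.adjunction S)).IsMonoidal

variable [IsCommComonObj S] {B B' : CommMon M} {Z Z' : CommMon (Action M G)}

/-- the algebra map `B ⟶ U Z` given by an algebra map `triv B ⟶ Z` -/
noncomputable def uOf (f : trivC G B ⟶ Z) : B ⟶ (uR S).mapCommMon.obj Z :=
  ofOp (uAdj S) ((uPr S).app B.X ≫ ahL f) ((isOpNat_uPr S).isOpHom (isOpHom_ahL f))

theorem tr_uOf (f : trivC G B ⟶ Z) :
    tr (uAdj S) (uOf S f) = prS S ((triv G).obj B.X) ≫ ahL f := tr_ofOp _ _ _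

theorem comp_uOf (g : B' ⟶ B) (f : trivC G B ⟶ Z) :
    g ≫ uOf S f = uOf S (trivMap G g ≫ f) := tr_injective (uAdj S) (by
  rw [tr_comp_left, tr_uOf, tr_uOf]
  exact prS_nat_assoc S ((triv G).map (ah g)) _)

theorem uOf_comp (f : trivC G B ⟶ Z) (g : Z ⟶ Z') :
    uOf S f ≫ (uR S).mapCommMon.map g = uOf S (f ≫ g) := tr_injective (uAdj S) (by
  rw [tr_comp_right, tr_uOf, tr_uOf]
  exact Category.assoc _ _ _)

end u

section ten

variable {M : Type u} [Category.{v} M] [MonoidalCategory M] [SymmetricCategory M]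
  [MonoidalClosed M] [HasZeroMorphisms M] [HasColimitsOfSize.{0, 0} M] [StabInput M]
  {G : Type} [Group G] (S : Action M G)

theorem ten_uL_hom_hom (X : M) (K : LC) :
    (ten (uL S) X K).hom.hom = (α_ S.V X ((J M).obj K)).hom := by
  rw [ten_comp_hom, Action.comp_hom, ten_tensorLeft_hom]
  change _ ≫ (S ◁ (ten (triv G) X K).hom).hom = _
  simp

theorem tenCone_uL {X Z : M} (χ : X ⊗ CI M ⟶ Z) :
    tenCone (uL S) χ = (α_ _ _ _).hom ≫ S ◁ trivCone G χ := by
  rw [← tenCone_triv, tenCone, tenCone, ten_comp_hom, MonoidalCategory.whiskerLeft_comp,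
    Category.assoc]
  rfl

@[reassoc]
theorem ten_uL_prS [ComonObj S] (X : M) (K : LC) :
    (ten (uL S) X K).hom ≫ prS S _ = prS S _ ▷ _ ≫ (ten (triv G) X K).hom := by
  rw [ten_comp_hom, Category.assoc]
  change (α_ _ _ _).hom ≫ S ◁ (ten (triv G) X K).hom ≫ _ = _
  rw [prS_nat, prS, prS, comp_whiskerRight, Category.assoc, Category.assoc,
    ← associator_naturality_left_assoc, leftUnitor_tensor_hom, Category.assoc,
    Iso.hom_inv_id_assoc]

end ten

end Vale.Agent.P257.T
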