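import Vale.Agent.P257.T.Per
import Vale.Agent.P257.Z.Rb

/-!
# P257, block T: the Frobenius of a framed cell

* `frRp`, `frT`: `FrL (rp g) ≅ triv (rp (scD g))`; `frRep`, `frNF`: the values on framed cells;
* `nf_FrL`, `nf0_RM`, `nf_W`: the underlying objects are framed cells;
* `ptPow`, `pm`, `DgP`, `exists_powX`: for a framed cell `X` of filtration degree zero
  `powG X ≅ FrL X ⊗ RM ^ n`, and the diagonal is the multiplication by `a ^ n`.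
-/

open CategoryTheory MonoidalCategory Limits Functor.LaxMonoidal Functor.OplaxMonoidal OnePoint

namespace Vale.Agent.P257.T

open Vale.Agent.P257.D Vale.Agent.P257.D.EF Vale.Agent.P257.A Vale.Agent.P257.M
open Vale.Agent.P257.W (rpCells repIso NF0 tpowAdd tpowMap card_tensor)
open Vale.Agent.P257.E (act mkAct mkHom triv act_one act_mul act_comm mapA JA gsp)
open Vale.Agent.P251.G (LC)
open Vale.Agent.P251.G.LC (RR smash)
open Vale.Agent.P251.H (StabInput tpow)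
open Vale.Agent.P251.H.StabInput (S CI J)
open Equiv (Perm)

set_option linter.unusedSectionVars false

universe v u

section pm

variable {N : Type u} [Category.{v} N] [MonoidalCategory N] {R R' : N}

/-- multiplication by a point -/
def pm (u : 𝟙_ N ⟶ R) (W : N) : W ⟶ W ⊗ R := (ρ_ W).inv ≫ W ◁ u

theorem pm_def (u : 𝟙_ N ⟶ R) (W : N) : pm u W = (ρ_ W).inv ≫ W ◁ u := rfl

@[reassoc]
theorem pm_nat (u : 𝟙_ N ⟶ R) {W W' : N} (f : W ⟶ W') : pm u W ≫ f ▷ R = f ≫ pm u W' := by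
  rw [pm, pm, Category.assoc, whisker_exchange, rightUnitor_inv_naturality_assoc]

@[reassoc]
theorem pm_whiskerLeft (u : 𝟙_ N ⟶ R) (j : R ⟶ R') (W : N) :
    pm u W ≫ W ◁ j = pm (u ≫ j) W := by
  rw [pm, pm, Category.assoc, MonoidalCategory.whiskerLeft_comp]

theorem pm_id (W : N) : pm (𝟙 (𝟙_ N)) W = (ρ_ W).inv := by simp [pm]

/-- the powers of a point -/
def ptPow (u : 𝟙_ N ⟶ R) : ∀ n : ℕ, 𝟙_ N ⟶ tpow R n
  | 0 => 𝟙 _
  | n + 1 => (λ_ _).inv ≫ (u ⊗ₘ ptPow u n)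

theorem ptPow_zero (u : 𝟙_ N ⟶ R) : ptPow u 0 = 𝟙 _ := rfl

theorem ptPow_succ (u : 𝟙_ N ⟶ R) (n : ℕ) :
    ptPow u (n + 1) = (λ_ _).inv ≫ (u ⊗ₘ ptPow u n) := rfl

@[reassoc]
theorem pm_pm (u : 𝟙_ N ⟶ R) (v : 𝟙_ N ⟶ R') (W : N) :
    pm u W ≫ pm v (W ⊗ R) ≫ (α_ W R R').hom = pm ((λ_ _).inv ≫ (u ⊗ₘ v)) W := by
  simp [pm, MonoidalCategory.tensorHom_def]

theorem ptPow_add (u : 𝟙_ N ⟶ R) (n : ℕ) : ∀ m : ℕ,
    ((λ_ _).inv ≫ (ptPow u m ⊗ₘ ptPow u n)) ≫ (tpowAdd R m n).hom = ptPow u (n + m)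
  | 0 => by
    change ((λ_ _).inv ≫ (𝟙 (𝟙_ N) ⊗ₘ ptPow u n)) ≫ (λ_ (tpow R n)).hom = ptPow u n
    simp
  | m + 1 => by
    change ((λ_ _).inv ≫ (((λ_ _).inv ≫ (u ⊗ₘ ptPow u m)) ⊗ₘ ptPow u n)) ≫
      (α_ R (tpow R m) (tpow R n)).hom ≫ R ◁ (tpowAdd R m n).hom =
      (λ_ _).inv ≫ (u ⊗ₘ ptPow u (n + m))
    rw [← ptPow_add u n m]
    generalize ptPow u m = a
    generalize ptPow u n = b
    generalize (tpowAdd R m n).hom = c
    simp [MonoidalCategory.tensorHom_def, unitors_inv_equal]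

section aux

variable {A B A' B' : N} {u : 𝟙_ N ⟶ R} {d : A ⟶ B} {e : B ⟶ A ⊗ R}

theorem pm_aux_iso (he : d ≫ e = pm u A) {d' : A' ⟶ B'} {f : A' ⟶ A} {g : B' ⟶ B}
    (hn : f ≫ d = d' ≫ g) {f' : A ⟶ A'} (hf : f ≫ f' = 𝟙 _) :
    d' ≫ g ≫ e ≫ f' ▷ R = pm u A' := by
  rw [← reassoc_of% hn, reassoc_of% he, pm_nat, reassoc_of% hf]

theorem pm_aux_congr (he : d ≫ e = pm u A) (j : R ⟶ R') : d ≫ e ≫ A ◁ j = pm (u ≫ j) A := by
  rw [reassoc_of% he, pm_whiskerLeft]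

theorem pm_aux_isIso (d : A ⟶ B) [IsIso d] : d ≫ inv d ≫ (ρ_ A).inv = pm (𝟙 _) A := by
  rw [IsIso.hom_inv_id_assoc, pm_id]

end aux

variable [BraidedCategory N]

@[reassoc]
theorem pm_tensorμ (u : 𝟙_ N ⟶ R) (v : 𝟙_ N ⟶ R') (A B : N) :
    (pm u A ⊗ₘ pm v B) ≫ tensorμ A R B R' = pm ((λ_ _).inv ≫ (u ⊗ₘ v)) (A ⊗ B) := by
  have h := tensorμ_natural (𝟙 A) u (𝟙 B) v
  simp only [id_tensorHom, MonoidalCategory.whiskerLeft_id] at h
  rw [pm, pm, pm, ← tensorHom_comp_tensorHom, Category.assoc, h,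
    MonoidalCategory.whiskerLeft_comp, ← Category.assoc, ← Category.assoc]
  congr 1
  rw [← cancel_mono ((A ⊗ B) ◁ (λ_ (𝟙_ N)).hom ≫ (ρ_ (A ⊗ B)).hom), Category.assoc,
    ← rightUnitor_monoidal, tensorHom_comp_tensorHom]
  simp

@[reassoc]
theorem pt_braiding (u : 𝟙_ N ⟶ R) (W : N) :
    (λ_ W).inv ≫ u ▷ W ≫ (β_ R W).hom = pm u W := by
  rw [BraidedCategory.braiding_naturality_left, pm]
  simp

theorem pm_aux_tensor {A B A' B' A'' B'' : N} {u : 𝟙_ N ⟶ R} {v : 𝟙_ N ⟶ R'} {d : A ⟶ B}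
    {e : B ⟶ A ⊗ R} (he : d ≫ e = pm u A) {d' : A' ⟶ B'} {e' : B' ⟶ A' ⊗ R'}
    (he' : d' ≫ e' = pm v A') {d'' : A'' ⟶ B''} (a : A ⊗ A' ≅ A'') (b : B ⊗ B' ≅ B'')
    (h : a.hom ≫ d'' = (d ⊗ₘ d') ≫ b.hom) :
    d'' ≫ b.inv ≫ (e ⊗ₘ e') ≫ tensorμ A R A' R' ≫ a.hom ▷ _ =
      pm ((λ_ _).inv ≫ (u ⊗ₘ v)) A'' := by
  rw [← cancel_epi a.hom, reassoc_of% h, b.hom_inv_id_assoc, tensorHom_comp_tensorHom_assoc, he,
    he', pm_tensorμ_assoc, pm_nat]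

theorem pm_aux_sph {A B S P Q V : N} {u : 𝟙_ N ⟶ R} {d : A ⟶ B} {l : B ⟶ P} (a : A ≅ S)
    {t : S ⟶ Q} {k : Q ⟶ P} (h : d ≫ l = a.hom ≫ t ≫ k) {m : P ⟶ V} {j : V ⟶ R ⊗ S}
    (h' : t ≫ (k ≫ m) ≫ j = (λ_ S).inv ≫ u ▷ S) :
    d ≫ l ≫ m ≫ j ≫ (β_ R S).hom ≫ a.inv ▷ R = pm u A := by
  simp only [Category.assoc] at h'
  rw [reassoc_of% h, reassoc_of% h', pt_braiding_assoc, pm_nat, a.hom_inv_id_assoc]

end pm

section nf

theorem card_evL {ι : Type} (a : ι → O) : ∀ l : List ι,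
    Fintype.card (evL a l).El = (l.map fun i => Fintype.card (a i).El).sum
  | [] => rfl
  | i :: l => (card_tensor (a i) (evL a l)).trans (by rw [card_evL a l]; rfl)

theorem card_pw (ι : Type) [Finite ι] (c : O) :
    Fintype.card (pw ι c).El = Nat.card ι * Fintype.card c.El := by
  let _ := Fintype.ofFinite ι
  refine (card_evL _ _).trans ?_
  rw [enum, Finset.sum_map_toList, Finset.sum_const, smul_eq_mul, Nat.card_eq_fintype_card]
  exact congrArg (· * _) (Finset.card_univ.trans (Fintype.card_congr (Equiv.refl _)))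

theorem nonempty_pw (ι : Type) [Finite ι] [Nonempty ι] {c : O} (h : Nonempty c.El) :
    Nonempty (pw ι c).El := by
  rw [← Fintype.card_pos_iff, card_pw]
  exact Nat.mul_pos Nat.card_pos Fintype.card_pos

theorem nf0_pw (ι : Type) [Finite ι] {X : MM} {g : Gam} {k : ℤ} (h : NF0 X g k) :
    NF0 (pw ι X) (Nat.card ι • g) (Nat.card ι * k) := by
  have k1 : ∀ l : List ι, NF0 (evL (fun _ : ι => X) l) (l.length • g) (l.length * k) := fun l => by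
    induction l with
    | nil =>
      rw [List.length_nil, zero_smul, Nat.cast_zero, zero_mul]
      exact NF0.unit
    | cons i l ih =>
      have := h.tensor ih
      rwa [← succ_nsmul', show k + l.length * k = ((l.length + 1 : ℕ) : ℤ) * k by
        push_cast; ring] at this
  have e : (enum ι).length = Nat.card ι := by
    let _ := Fintype.ofFinite ι
    rw [enum, Finset.length_toList, Nat.card_eq_fintype_card]
    exact Finset.card_univ.trans (Fintype.card_congr (Equiv.refl _))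
  exact e ▸ k1 (enum ι)

theorem nf0_J_pi (T : Type) [Finite T] :
    NF0 ((J MM).obj (piLC fun _ : T => RR)) 0 (Nat.card T) := by
  have h := nf0_pw T NF0.sph
  rw [smul_zero, mul_one] at h
  exact h.of_iso (asIso (laxBig (J MM) fun _ : T => RR) ≪≫ (J MM).mapIso (piIso _).symm)

end nf

section fr

variable (G : Type) [Group G] (ι : Type) [Finite ι] [Nonempty ι] [MulAction G ι] (lam : ℕ)

/-- the Frobenius of the unit in the index category -/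
noncomputable def frUnit {g g' : Gam} (h : scD (Nat.card ι) lam g = g') :
    (frAct G ι lam).at' ⟨𝟙_ O, g⟩ ≅ (triv G).obj (⟨𝟙_ O, g'⟩ : JG) :=
  Action.mkIso (Gr.isoMk (bigUnit ι O) h) fun s => Gr.hom_ext
    ((bigEquiv_bigUnit (MulAction.toPerm s : ι ≃ ι)).trans (Category.comp_id _).symm)

/-- the Frobenius of the unit in degree `g` -/
noncomputable def frRp {g g' : Gam} (h : scD (Nat.card ι) lam g = g') :
    (FrL G ι lam).obj (rp g) ≅ (triv G).obj (rp g') :=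
  lanGRep (frAct G ι lam) ⟨𝟙_ O, g⟩ ≪≫ repGIso (frUnit G ι lam h) ≪≫ repGTriv _

theorem fn_frRp {g g' : Gam} (h : scD (Nat.card ι) lam g = g') {x : JG}
    (u : (⟨𝟙_ O, g⟩ : JG) ⟶ x) :
    fn (X := (lan (FrJ ι lam)).obj (rep ⟨𝟙_ O, g⟩)) (Y := rep ⟨𝟙_ O, g'⟩) (frRp G ι lam h).hom.hom
      (li (FrJ ι lam) (pr u)) =
      pr (Gr.homMk (x := ⟨𝟙_ O, g'⟩) (y := (FrJ ι lam).obj ⟨𝟙_ O, g⟩) (bigUnit ι O).inv h.ge ≫
        (FrJ ι lam).map u) := by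
  change fn (repMap (Gr.homMk (x := ⟨𝟙_ O, g'⟩) (y := (FrJ ι lam).obj ⟨𝟙_ O, g⟩)
    (bigUnit ι O).inv h.ge)) (fn (lanRep (FrJ ι lam) ⟨𝟙_ O, g⟩).hom (li (FrJ ι lam) (pr u))) = _
  rw [fn_lanRep_hom, fn_repMap_pr]

@[reassoc]
theorem map_tm_frRp {g₁ g₂ g₁' g₂' : Gam} (k : g₁ ≤ g₂) (h₁ : scD (Nat.card ι) lam g₁ = g₁')
    (h₂ : scD (Nat.card ι) lam g₂ = g₂') (k' : g₁' ≤ g₂') :
    (FrL G ι lam).map (M.tm k) ≫ (frRp G ι lam h₁).hom =
      (frRp G ι lam h₂).hom ≫ (triv G).map (M.tm k') :=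
  Action.hom_ext _ _ (lan_ext (X := rep (⟨𝟙_ O, g₂⟩ : JG)) fun a x => by
    obtain ⟨u, rfl⟩ := pr_surjective x
    refine (congrArg (fn (frRp G ι lam h₁).hom.hom) ((fn_lan_map _ _).trans
      (congrArg (li (FrJ ι lam)) (fn_repMap_pr _ _)))).trans ?_
    refine (fn_frRp G ι lam h₁ _).trans (Eq.trans ?_ (congrArg (fn (M.tm k'))
      (fn_frRp G ι lam h₂ u)).symm)
    refine Eq.trans ?_ (fn_repMap_pr _ _).symm
    refine congrArg pr (Gr.hom_ext ?_)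
    change (bigUnit ι O).inv ≫ (pow ι).map (𝟙 _ ≫ u.hom) = 𝟙 _ ≫ (bigUnit ι O).inv ≫ (pow ι).map u.hom
    rw [Category.id_comp, Category.id_comp])

theorem η_FrL (h : scD (Nat.card ι) lam 0 = 0) :
    η (FrL G ι lam) = (frRp G ι lam h).hom ≫ η (triv G) :=
  Action.hom_ext _ _ ((FAct.lift_η_hom _).trans
    (lan_ext (X := rep (⟨𝟙_ O, 0⟩ : JG)) fun a x => by
      obtain ⟨u, rfl⟩ := pr_surjective x
      exact (fn_lanEta (FrJ ι lam) u).trans (fn_frRp G ι lam h u).symm))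

theorem scD_t (p lam w : ℕ) : scD p lam (0, (w : ℤ)) = (0, ((lam * w : ℕ) : ℤ)) := by simp

theorem scD_wt (p lam : ℕ) (a : Lam) : scD p lam (a, 0) = (p • a, 0) := by simp

/-- the Frobenius of the filtration shift -/
noncomputable def frT (w : ℕ) :
    (FrL G ι lam).obj (rp (0, (w : ℤ))) ≅ (triv G).obj (rp (0, ((lam * w : ℕ) : ℤ))) :=
  frRp G ι lam (scD_t _ lam w)

@[reassoc]
theorem map_t1_η (w : ℕ) : (FrL G ι lam).map (t1 w) ≫ η (FrL G ι lam) =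
    (frT G ι lam w).hom ≫ (triv G).map (t1 (lam * w)) ≫ η (triv G) := by
  rw [η_FrL G ι lam (map_zero _)]
  exact map_tm_frRp_assoc G ι lam _ _ _ _ _

/-- the Frobenius of `X ⊗ rp (0, w)` -/
noncomputable def frTX (X : MM) (w : ℕ) : (FrL G ι lam).obj (X ⊗ rp (0, (w : ℤ))) ≅
    (FrL G ι lam).obj X ⊗ (triv G).obj (rp (0, ((lam * w : ℕ) : ℤ))) :=
  (Functor.Monoidal.μIso (FrL G ι lam) _ _).symm ≪≫ whiskerLeftIso _ (frT G ι lam w)

@[reassoc]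
theorem map_tX (X : MM) (w : ℕ) : (FrL G ι lam).map (tX X w) = (frTX G ι lam X w).hom ≫
    (FrL G ι lam).obj X ◁ ((triv G).map (t1 (lam * w)) ≫ η (triv G)) ≫ (ρ_ _).hom := by
  change _ = (δ (FrL G ι lam) _ _ ≫ _ ◁ (frT G ι lam w).hom) ≫ _
  rw [Category.assoc, ← MonoidalCategory.whiskerLeft_comp_assoc, ← map_t1_η,
    MonoidalCategory.whiskerLeft_comp_assoc, δ_natural_right_assoc, tX, Functor.map_comp,
    Functor.OplaxMonoidal.right_unitality_hom]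

/-- the Frobenius of an object of the index category -/
noncomputable def frSplit (x : JG) : (powAct JG G ι).at' ⟨x.ob, 0⟩ ⊗
    (triv G).obj (⟨𝟙_ O, scD (Nat.card ι) lam x.deg⟩ : JG) ≅ (frAct G ι lam).at' x :=
  Action.mkIso (Gr.isoMk (ρ_ _ ≪≫ pb fun _ : ι => (⟨x.ob, 0⟩ : JG)) (by
      change (pw ι (⟨x.ob, 0⟩ : JG)).deg + scD (Nat.card ι) lam x.deg = scD (Nat.card ι) lam x.deg
      rw [pw_deg, smul_zero, zero_add]))
    fun s => Gr.hom_ext (by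
      change ((pwE (⟨x.ob, 0⟩ : JG) (MulAction.toPerm s : ι ≃ ι)).hom ⊗ₘ 𝟙 (𝟙_ O)) ≫ (ρ_ _).hom ≫
        (pb fun _ : ι => (⟨x.ob, 0⟩ : JG)).hom = ((ρ_ _).hom ≫
        (pb fun _ : ι => (⟨x.ob, 0⟩ : JG)).hom) ≫ pwE x.ob (MulAction.toPerm s : ι ≃ ι)
      rw [tensorHom_id, rightUnitor_naturality_assoc, Category.assoc]
      exact congrArg (_ ≫ ·) (bigEquiv_pb (MulAction.toPerm s : ι ≃ ι) fun _ => (⟨x.ob, 0⟩ : JG)))

/-- the Frobenius of a representable -/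
noncomputable def frRep (x : JG) : (FrL G ι lam).obj (rep x) ≅
    (powG MM G ι).obj (rep ⟨x.ob, 0⟩) ⊗ (triv G).obj (rp (scD (Nat.card ι) lam x.deg)) :=
  lanGRep (frAct G ι lam) x ≪≫ repGIso (frSplit G ι lam x).symm ≪≫ (repGTensor _ _).symm ≪≫
    ((powRep G ι _).symm ⊗ᵢ repGTriv _)

/-- the Frobenius of a sphere -/
noncomputable def frS : ∀ n : ℕ,
    (FrL G ι lam).obj (tpow (S MM) n) ≅ (triv G).obj (tpow (S MM) n)
  | 0 => (Functor.Monoidal.εIso _).symm ≪≫ Functor.Monoidal.εIso (triv G)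
  | n + 1 => (Functor.Monoidal.μIso (FrL G ι lam) _ _).symm ≪≫
      (lanGJIso (frAct G ι lam) RR ⊗ᵢ frS n) ≪≫ Functor.Monoidal.μIso (triv G) _ _

/-- the Frobenius of a framed cell -/
noncomputable def frNF {X : MM} {x : JG} {n : ℕ} (i : X ≅ rep x ⊗ tpow (S MM) n) :
    (FrL G ι lam).obj X ≅ repG ((frAct G ι lam).at' x) ⊗ (triv G).obj (tpow (S MM) n) :=
  (FrL G ι lam).mapIso i ≪≫ (Functor.Monoidal.μIso (FrL G ι lam) _ _).symm ≪≫
    (lanGRep (frAct G ι lam) x ⊗ᵢ frS G ι lam n)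

/-- the Frobenius of a framed cell -/
noncomputable def frNF' {X : MM} {x : JG} {n : ℕ} (i : X ≅ rep x ⊗ tpow (S MM) n) :
    (FrL G ι lam).obj X ≅ ((powG MM G ι).obj (rep ⟨x.ob, 0⟩) ⊗
      (triv G).obj (rp (scD (Nat.card ι) lam x.deg))) ⊗ (triv G).obj (tpow (S MM) n) :=
  (FrL G ι lam).mapIso i ≪≫ (Functor.Monoidal.μIso (FrL G ι lam) _ _).symm ≪≫
    (frRep G ι lam x ⊗ᵢ frS G ι lam n)

variable {X : MM} {c : O} {g : Gam} {n : ℕ}

theorem nf0_FrL (i : X ≅ rep (⟨c, g⟩ : JG) ⊗ tpow (S MM) n) :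
    NF0 ((FrL G ι lam).obj X).V (scD (Nat.card ι) lam g)
      (n - Nat.card ι * Fintype.card c.El) :=
  ⟨pw ι c, n, by rw [card_pw]; push_cast; ring,
    ⟨(Action.forget MM G).mapIso (frNF G ι lam i)⟩⟩

theorem nf_FrL (hc : Nonempty c.El) (i : X ≅ rep (⟨c, g⟩ : JG) ⊗ tpow (S MM) n) :
    NF ((FrL G ι lam).obj X).V (scD (Nat.card ι) lam g)
      (n - Nat.card ι * Fintype.card c.El) :=
  ⟨pw ι c, n, nonempty_pw ι hc, by rw [card_pw]; push_cast; ring,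
    ⟨(Action.forget MM G).mapIso (frNF G ι lam i)⟩⟩

end fr

section rho

variable (ι : Type) [Finite ι] [Nonempty ι] (lam : ℕ)

/-- the sphere of the reduced permutation representation -/
noncomputable abbrev RM : Action MM (Perm ι) := (JA (Perm ι) MM).obj (Z.RA ι)

/-- the inclusion of the fixed point -/
noncomputable abbrev aR : 𝟙_ (Action MM (Perm ι)) ⟶ RM ι := Z.unt ι (Z.pd ι) MM

theorem nf0_RM : NF0 (RM ι).V 0 (Z.pd ι) := by
  have i := Classical.arbitrary ι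
  have h := nf0_J_pi ({i}ᶜ : Set ι)
  rw [Nat.card_coe_set_eq, Z.ncard_compl_singleton] at h
  exact h.of_iso ((J MM).mapIso (LC.ofHomeo (X := piLC fun _ : ({i}ᶜ : Set ι) => RR)
    (Y := LC.of (Z.Fl ι False (Z.pd ι))) (Z.chi i).symm))

theorem nf0_tpow_RM (i : ℕ) : NF0 (tpow (RM ι) i).V 0 (i * Z.pd ι) := by
  have h := (nf0_RM ι).tpow i
  rw [smul_zero] at h
  exact h.of_iso (tpowMap (Action.forget MM (Perm ι)) (RM ι) i).symm

variable {X : MM} {c : O} {g : Gam} {n : ℕ}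

theorem nf_W (hc : Nonempty c.El) (e : X ≅ rep (⟨c, g⟩ : JG) ⊗ tpow (S MM) n) (i : ℕ) :
    NF ((FrL (Perm ι) ι lam).obj X ⊗ tpow (RM ι) i).V (scD (Nat.card ι) lam g)
      (n - Nat.card ι * Fintype.card c.El + i * Z.pd ι) := by
  have h := (nf_FrL (Perm ι) ι lam hc e).tensor (nf0_tpow_RM ι i)
  rwa [add_zero] at h

/-- the power of a space -/
noncomputable def powFn (K : LC) : gsp (Perm ι) (Z.Fn ι K) ≅ (powG LC (Perm ι) ι).obj K :=
  Action.mkIso (piIso fun _ : ι => K) fun s => by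
    change _ = _ ≫ act ((powG LC (Perm ι) ι).obj K) s
    rw [act_powG]
    refine LC.hom_ext fun y => ?_
    refine (app_piIso (X := fun _ : ι => K) (s • y)).trans ?_
    refine Eq.trans ?_ (congrArg (LC.app (pwE K (MulAction.toPerm s : ι ≃ ι)))
      (app_piIso (X := fun _ : ι => K) y)).symm
    refine (app_bigEquiv_bsm (X := fun _ : ι => K) (MulAction.toPerm s : ι ≃ ι)
      fun k => ((s • y) k : OnePoint K)).symm.trans (congrArg _ (congrArg bsm (funext fun i => ?_)))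
    exact congrArg OnePoint.some (congrArg y (s.symm_apply_apply i))

theorem ldiagG_RR : ldiagG (Perm ι) ι RR =
    (λ_ _).inv ≫ Z.zro ι (Z.pd ι) ▷ _ ≫ (Z.spl ι).hom ≫ (powFn ι RR).hom :=
  Action.hom_ext _ _ (by
    rw [Action.comp_hom, Action.comp_hom, Action.whiskerRight_hom, Action.leftUnitor_inv_hom]
    refine LC.hom_ext fun t => ?_
    refine (app_ldiag (K := RR) _).trans ?_
    refine Eq.trans ?_ (app_piIso (X := fun _ : ι => RR)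
      (Z.splHomeo (Z.orig ι (Z.pd ι), t))).symm
    exact congrArg bsm (funext fun i => congrArg OnePoint.some (zero_add t).symm))

/-- the power of the circle -/
noncomputable def powS :
    (powG MM (Perm ι) ι).obj (S MM) ≅ (FrL (Perm ι) ι lam).obj (S MM) ⊗ RM ι :=
  asIso (powLax (Perm ι) ι (jC JG) RR) ≪≫
    (JA (Perm ι) MM).mapIso ((powFn ι RR).symm ≪≫ (Z.spl ι).symm) ≪≫ (Z.jt MM _ RR).symm ≪≫
      β_ _ _ ≪≫ whiskerRightIso (lanGJIso (frAct (Perm ι) ι lam) RR).symm _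

variable {ι lam} (hl : lam ≤ Nat.card ι)

theorem dgF_powS (hX : Le0 (S MM)) :
    dgF (Perm ι) hl hX ≫ (powS ι lam).hom = pm (aR ι) _ := by
  refine pm_aux_sph (lanGJIso (frAct (Perm ι) ι lam) RR) (dg_jC (eqvJ (Perm ι) hl) hX)
    (m := (JA (Perm ι) MM).map ((powFn ι RR).inv ≫ (Z.spl ι).inv)) (j := (Z.jt MM _ RR).inv) ?_
  refine (congrArg (fun x => _ ≫ x ≫ _) ((JA (Perm ι) MM).map_comp _ _).symm).trans ?_
  have k : ldiagG (Perm ι) ι RR ≫ (powFn ι RR).inv ≫ (Z.spl ι).inv =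
      (λ_ _).inv ≫ Z.zro ι (Z.pd ι) ▷ (triv (Perm ι)).obj RR := by
    rw [ldiagG_RR]
    simp only [Category.assoc, Iso.hom_inv_id_assoc, Iso.hom_inv_id, Category.comp_id]
  rw [k]
  refine Action.hom_ext _ _ ?_
  have k' : ((λ_ _).inv ≫ Z.zro ι (Z.pd ι) ▷ (triv (Perm ι)).obj RR).hom =
      (λ_ RR).inv ≫ (Z.zro ι (Z.pd ι)).hom ▷ RR := by
    rw [Action.comp_hom, Action.whiskerRight_hom, Action.leftUnitor_inv_hom]
  rw [Action.comp_hom, Action.comp_hom, Action.comp_hom, Action.whiskerRight_hom,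
    Action.leftUnitor_inv_hom]
  change 𝟙 _ ≫ (J MM).map ((λ_ _).inv ≫ Z.zro ι (Z.pd ι) ▷ (triv (Perm ι)).obj RR).hom ≫
    δ (J MM) _ RR =
    (λ_ ((J MM).obj RR)).inv ≫ (ε (J MM) ≫ (J MM).map (Z.zro ι (Z.pd ι)).hom) ▷ (J MM).obj RR
  rw [k', Category.id_comp, Functor.map_comp, Category.assoc, ← δ_natural_left,
    Functor.Monoidal.map_leftUnitor_inv, comp_whiskerRight]
  simp only [Category.assoc]
  exact congrArg (fun x => _ ≫ _ ≫ x) (Functor.Monoidal.μ_δ_assoc (J MM) _ _ _)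

/-- the diagonal is the multiplication by a point -/
def DgP (X : MM) {R : Action MM (Perm ι)} (u : 𝟙_ _ ⟶ R) : Prop :=
  ∃ (hX : Le0 X) (e : (powG MM (Perm ι) ι).obj X ≅ (FrL (Perm ι) ι lam).obj X ⊗ R),
    dgF (Perm ι) hl hX ≫ e.hom = pm u _

namespace DgP

variable {hl} {Y : MM} {R R' : Action MM (Perm ι)} {u : 𝟙_ _ ⟶ R} {v : 𝟙_ _ ⟶ R'}

theorem of_iso (h : DgP hl X u) (i : X ≅ Y) : DgP hl Y u := by
  obtain ⟨hX, e, he⟩ := h
  refine ⟨hX.of_iso i, (powG MM (Perm ι) ι).mapIso i.symm ≪≫ e ≪≫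
    whiskerRightIso ((FrL (Perm ι) ι lam).mapIso i) _, ?_⟩
  exact pm_aux_iso he (dg_nat _ (hX.of_iso i) hX i.inv)
    ((FrL (Perm ι) ι lam).mapIso i).inv_hom_id

theorem congr (h : DgP hl X u) (j : R ≅ R') (k : u ≫ j.hom = v) : DgP hl X v := by
  obtain ⟨hX, e, he⟩ := h
  refine ⟨hX, e ≪≫ whiskerLeftIso _ j, ?_⟩
  exact k ▸ pm_aux_congr he j.hom

theorem of_isIso (hX : Le0 X) [IsIso (dgF (Perm ι) hl hX)] : DgP hl X (𝟙 _) :=
  ⟨hX, (asIso (dgF (Perm ι) hl hX)).symm ≪≫ (ρ_ _).symm, pm_aux_isIso _⟩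

theorem rep {x : JG} (hx : x.deg.2 = 0) : DgP hl (rep x) (𝟙 _) :=
  have := isIso_dgF_rep (Perm ι) hl hx (Le0.rep hx.le)
  of_isIso (Le0.rep hx.le)

theorem unit : DgP hl (𝟙_ MM) (𝟙 _) := rep (x := 𝟙_ JG) rfl

theorem sph : DgP hl (S MM) (aR ι) := ⟨Le0.j _, powS ι lam, dgF_powS hl _⟩

theorem tensor (h : DgP hl X u) (k : DgP hl Y v) :
    DgP hl (X ⊗ Y) ((λ_ _).inv ≫ (u ⊗ₘ v)) := by
  obtain ⟨hX, e, he⟩ := h
  obtain ⟨hY, e', he'⟩ := k
  refine ⟨hX.tensor hY, (Functor.Monoidal.μIso (powG MM (Perm ι) ι) X Y).symm ≪≫ (e ⊗ᵢ e') ≪≫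
    tensorμIso _ _ _ _ ≪≫ whiskerRightIso (Functor.Monoidal.μIso (FrL (Perm ι) ι lam) X Y) _, ?_⟩
  exact pm_aux_tensor he he' (Functor.Monoidal.μIso (FrL (Perm ι) ι lam) X Y)
    (Functor.Monoidal.μIso (powG MM (Perm ι) ι) X Y) (μ_dg _ hX hY _)

theorem tpow (h : DgP hl X u) : ∀ n : ℕ, DgP hl (tpow X n) (ptPow u n)
  | 0 => unit
  | n + 1 => h.tensor (tpow h n)

end DgP

theorem dgP_nf {x : JG} (hx : x.deg.2 = 0) (i : X ≅ rep x ⊗ tpow (S MM) n) :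
    DgP hl X (ptPow (aR ι) n) :=
  (((DgP.rep hx).tensor (DgP.sph.tpow n)).congr (λ_ _) (by simp)).of_iso i.symm

/-- **The diagonal of a framed cell is the multiplication by `a ^ n`.** -/
theorem exists_powX {x : JG} (hx : x.deg.2 = 0) (i : X ≅ rep x ⊗ tpow (S MM) n) (hX : Le0 X) :
    ∃ e : (powG MM (Perm ι) ι).obj X ≅ (FrL (Perm ι) ι lam).obj X ⊗ tpow (RM ι) n,
      dgF (Perm ι) hl hX ≫ e.hom = pm (ptPow (aR ι) n) _ := by
  obtain ⟨_, e, he⟩ := dgP_nf hl hx i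
  exact ⟨e, he⟩

end rho

end Vale.Agent.P257.T
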