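import Vale.Agent.P257.T.Frx
import Vale.Agent.P257.F.Frs
import Vale.Agent.P257.W.Eu
import Vale.Agent.P257.N.Triv

/-!
# P257, block T: the Frobenius of the transition maps

* `powG_lamV`: the power of `lamV Φ a` is `lamQ Φ` of the power of `a`;
* `eu_dgF`, `frd`: the diagonal of a framed cell is a power of the Euler class;
* `fru`: the Frobenius of the transition map is the Euler class.
-/

open CategoryTheory MonoidalCategory Limits Functor.LaxMonoidal Functor.OplaxMonoidal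

namespace Vale.Agent.P257.T

open Vale.Agent.P257.D Vale.Agent.P257.D.EF Vale.Agent.P257.A Vale.Agent.P257.M
open Vale.Agent.P257.K Vale.Agent.P257.W
open Vale.Agent.P257.D.O (V)
open Vale.Agent.P257.E (act mkAct mkHom triv mapA JA VF lamV lamQ repA sphQ repMu repEps sphA n0
  Std isIso_map_iff)
open Vale.Agent.P251.G (LC)
open Vale.Agent.P251.G.LC (RR)
open Vale.Agent.P251.H (StabInput tpow)
open Vale.Agent.P251.H.StabInput (S L)
open Equiv (Perm)

set_option linter.unusedSectionVars false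

universe v u

section powLam

variable {J : Type} [Idx J] (Φ : O ⥤ J) [IdxFun Φ] [Φ.Braided] {ι : Type}

/-- tensor products of representables -/
noncomputable def rL (a : ι → O) :
    ∀ l : List ι, evL (fun i => rep (Φ.obj (a i))) l ≅ rep (Φ.obj (evL a l))
  | [] => repEps Φ
  | i :: l => whiskerLeftIso _ (rL a l) ≪≫ repMu Φ (a i) (evL a l)

theorem rL_repMap (a : ι → O) : ∀ l : List ι,
    (rL Φ a l).hom ≫ repMap (laxL Φ a l) = (repL (fun i => Φ.obj (a i)) l).hom
  | [] => (repEps Φ).hom_inv_id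
  | i :: l => by
    change (_ ◁ (rL Φ a l).hom ≫ (repMu Φ (a i) (evL a l)).hom) ≫
      repMap (Φ.obj (a i) ◁ laxL Φ a l ≫ μ Φ _ _) =
        _ ◁ (repL (fun i => Φ.obj (a i)) l).hom ≫ (repTensor _ _).hom
    rw [← rL_repMap a l, MonoidalCategory.whiskerLeft_comp, Category.assoc, Category.assoc]
    congr 1
    refine EF.tensor_ext fun c d x y => ?_
    obtain ⟨x, rfl⟩ := pr_surjective x
    obtain ⟨y, rfl⟩ := pr_surjective y
    rw [fn_comp, fn_comp, E.fn_repMu_hom, fn_repMap_pr, whiskerLeft_tm, fn_repMap_pr,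
      fn_repTensor_hom, Category.assoc, Functor.Monoidal.μ_δ_assoc, ← id_tensorHom,
      tensorHom_comp_tensorHom, Category.id_comp]

theorem lamL (a : ι → O) : ∀ l : List ι,
    (tenL (fun i => rep (Φ.obj (a i))) (fun i => (jC J).obj (V (a i))) l).hom ≫
      ((rL Φ a l).hom ⊗ₘ (laxL (jC J) (fun i => V (a i)) l ≫ (jC J).map (laxL VF a l))) ≫
        lamV Φ (evL a l) = mapL (fun i => lamV Φ (a i)) l ≫ (unL l).hom
  | [] => ((Iso.inv_comp_eq (λ_ _)).2 ((E.lamV_unit Φ).trans (Category.comp_id _).symm)).trans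
      (Category.comp_id _).symm
  | i :: l => by
    have h : laxL (jC J) (fun i => V (a i)) (i :: l) ≫ (jC J).map (laxL VF a (i :: l)) =
        (jC J).obj (V (a i)) ◁ (laxL (jC J) (fun i => V (a i)) l ≫ (jC J).map (laxL VF a l)) ≫
          μ (jC J) (V (a i)) (V (evL a l)) ≫ (jC J).map (μ VF (a i) (evL a l)) := by
      change (_ ◁ laxL (jC J) (fun i => V (a i)) l ≫ μ (jC J) _ _) ≫
        (jC J).map (V (a i) ◁ laxL VF a l ≫ μ VF _ _) = _
      rw [Functor.map_comp, Category.assoc, ← μ_natural_right_assoc,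
        MonoidalCategory.whiskerLeft_comp_assoc]
    rw [h, tenL_cons_hom, unL_cons_hom, mapL_cons]
    change (_ ◁ _ ≫ _) ≫ ((_ ◁ (rL Φ a l).hom ≫ (repMu Φ (a i) (evL a l)).hom) ⊗ₘ _) ≫
      lamV Φ (a i ⊗ evL a l) = _
    rw [← tensorHom_comp_tensorHom, Category.assoc, Category.assoc, ← tensorμ_natural_right_assoc,
      E.lamV_tensor, ← id_tensorHom, ← id_tensorHom, ← id_tensorHom,
      tensorHom_comp_tensorHom_assoc, tensorHom_comp_tensorHom_assoc, Category.assoc,
      Category.assoc, lamL a l, Category.id_comp, Category.id_comp]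
    exact ((tensorHom_comp_tensorHom_assoc _ _ _ _ _).trans
      (by rw [Category.comp_id])).symm

variable (G : Type) [Group G] (ι) [Finite ι] [MulAction G ι] [SphIdx J]

/-- the power of a representable -/
noncomputable def powRA (a : O) :
    (powG (EF J) G ι).obj (rep (Φ.obj a)) ≅ repA Φ ((powAct O G ι).at' a) :=
  Action.mkIso (rL Φ (fun _ : ι => a) (enum ι)) fun g => by
    have : IsIso (laxL Φ (fun _ : ι => a) (enum ι)) := isIso_laxBig Φ _
    refine (cancel_mono (repMap (laxL Φ (fun _ : ι => a) (enum ι)))).1 ?_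
    refine (Category.assoc _ _ _).trans ((congrArg (_ ≫ ·) (rL_repMap Φ _ _)).trans ?_)
    refine ((powRep G ι (Φ.obj a)).hom.comm g).trans ?_
    refine (congrArg (· ≫ _) (rL_repMap Φ (fun _ : ι => a) (enum ι)).symm).trans ?_
    refine (Category.assoc _ _ _).trans (Eq.trans (congrArg (_ ≫ ·) ?_) (Category.assoc _ _ _).symm)
    exact (repMap_comp _ _).symm.trans ((congrArg repMap (bigEquiv_laxBig Φ
      (MulAction.toPerm g⁻¹ : ι ≃ ι) fun _ => a)).trans (repMap_comp _ _))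

/-- the power of a sphere -/
noncomputable def powSQ (a : O) :
    (powG (EF J) G ι).obj ((jC J).obj (V a)) ⟶ sphQ J ((powAct O G ι).at' a) :=
  mkHom (laxBig (jC J) (fun _ : ι => V a) ≫ (jC J).map (laxBig VF fun _ : ι => a)) fun g => by
    rw [act_powG]
    refine (Category.assoc _ _ _).symm.trans ((congrArg (· ≫ _) (bigEquiv_laxBig (jC J)
      (MulAction.toPerm g : ι ≃ ι) fun _ => V a)).trans ?_)
    refine (Category.assoc _ _ _).trans (Eq.trans (congrArg (_ ≫ ·) ?_) (Category.assoc _ _ _).symm)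
    exact ((jC J).map_comp _ _).symm.trans ((congrArg (jC J).map (bigEquiv_laxBig VF
      (MulAction.toPerm g : ι ≃ ι) fun _ => a)).trans ((jC J).map_comp _ _))

instance (a : O) : IsIso (powSQ (J := J) ι G a) :=
  have := isIso_laxBig (jC J) fun _ : ι => V a
  have := isIso_laxBig VF fun _ : ι => a
  have : IsIso (powSQ (J := J) ι G a).hom := inferInstanceAs
    (IsIso (laxBig (jC J) (fun _ : ι => V a) ≫ (jC J).map (laxBig VF fun _ : ι => a)))
  Action.isIso_of_hom_isIso _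

/-- **The power of the structure map.** -/
theorem powG_lamV (a : O) : (powG (EF J) G ι).map (lamV Φ a) ≫ η (powG (EF J) G ι) =
    (δ (powG (EF J) G ι) _ _ ≫ ((powRA Φ ι G a).hom ⊗ₘ powSQ ι G a)) ≫
      lamQ Φ ((powAct O G ι).at' a) :=
  Action.hom_ext _ _ (by
    rw [Action.comp_hom, Action.comp_hom, Action.comp_hom, Action.tensorHom_hom, FAct.lift_η_hom,
      FAct.lift_δ_hom, Category.assoc]
    exact (lamL Φ (fun _ : ι => a) (enum ι)).symm)

variable {C : Type u} [Category.{v} C] (F : Action (EF J) G ⥤ C)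
  (h : ∀ Q : Action O G, IsIso (F.map (lamQ Φ Q)))
include h

theorem isIso_powG_lamV (a : O) : IsIso (F.map ((powG (EF J) G ι).map (lamV Φ a))) := by
  have := h ((powAct O G ι).at' a)
  have k : IsIso (F.map ((powG (EF J) G ι).map (lamV Φ a) ≫ η (powG (EF J) G ι))) := by
    rw [powG_lamV, F.map_comp]
    infer_instance
  rwa [F.map_comp, isIso_comp_right_iff] at k

theorem isIso_powG_lamC [Std Φ] : IsIso (F.map ((powG (EF J) G ι).map (lamC J))) := by
  obtain ⟨e, he⟩ := Std.ex (Φ := Φ)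
  exact (isIso_map_iff (powG (EF J) G ι ⋙ F) (E.lamC_eq Φ e.hom he)).2
    (isIso_powG_lamV Φ ι G F h O.pt)

end powLam

section eu

theorem ptPow_eq {N : Type u} [Category.{v} N] [MonoidalCategory N] {R : N} (u : 𝟙_ N ⟶ R) :
    ∀ n : ℕ, ptPow u n = apow u n
  | 0 => rfl
  | n + 1 => congrArg (fun x => (λ_ _).inv ≫ (u ⊗ₘ x)) (ptPow_eq u n)

variable {ι : Type} [Finite ι] [Nonempty ι] {lam : ℕ} (hl : lam ≤ Nat.card ι) {X : MM} {x : JG}
  {n : ℕ}

/-- **FRD**, strictly -/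
theorem eu_dgF (hx : x.deg.2 = 0) (i : X ≅ rep x ⊗ tpow (S MM) n) (hX : Le0 X) :
    Eu (aR ι) n (dgF (Perm ι) hl hX) := by
  obtain ⟨e, he⟩ := exists_powX hl hx i hX
  rw [(Iso.eq_comp_inv e).2 he, ptPow_eq]
  exact (Eu.of_tpow (aR ι) _ n).comp_iso _

theorem eu_st {k : ℕ} {A B : Action MM (Perm ι)} {f : A ⟶ B} (h : Eu (aR ι) k f)
    (D : Stab (Action MM (Perm ι))) : Eu (N.aH ι D) k ((st D).map f) := by
  have k := h.map (st D)
  rwa [show ε (st D) ≫ (st D).map (aR ι) = N.aH ι D from Category.id_comp _] at k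

/-- **FRD** -/
theorem frd (hx : x.deg.2 = 0) (i : X ≅ rep x ⊗ tpow (S MM) n) (hX : Le0 X)
    (D : Stab (Action MM (Perm ι))) : Eu (N.aH ι D) n ((st D).map (dgF (Perm ι) hl hX)) :=
  eu_st (eu_dgF hl hx i hX) D

variable {D : Stab (Action MM (Perm ι))}

include hl in
theorem fru_lamC (h : F.LamInv D) :
    Eu (N.aH ι D) 1 ((st D).map ((FrL (Perm ι) ι lam).map (lamC JG))) := by
  have h1 : Le0 (𝟙_ MM) := Le0.rep (x := 𝟙_ JG) le_rfl
  have h2 : Le0 (rep (SphIdx.gen : JG) ⊗ (jC JG).obj RR) := (Le0.rep le_rfl).tensor (Le0.j _)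
  have := isIso_dgF_rep (Perm ι) hl (x := 𝟙_ JG) rfl h1
  have := isIso_powG_lamC (Gr.inc O (0 : Gam)) ι (Perm ι) (st D) h
  have e : (FrL (Perm ι) ι lam).map (lamC JG) =
      (dgF (Perm ι) hl h2 ≫ (powG MM (Perm ι) ι).map (lamC JG)) ≫ inv (dgF (Perm ι) hl h1) :=
    (IsIso.eq_comp_inv _).2 (dg_nat _ h2 h1 _)
  rw [e, Functor.map_comp, Functor.map_comp]
  exact ((frd hl (x := SphIdx.gen) (n := 1) rfl (whiskerLeftIso _ (ρ_ _).symm) h2 D).comp_iso
    _).comp_iso _

theorem isIso_FrL_mfold {m : ℕ} (hm : IsIso (m • 𝟙 (𝟙_ (SC D)))) (X : MM) :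
    IsIso ((st D).map ((FrL (Perm ι) ι lam).map (X ◁ (jC JG).map (LC.mfold m)))) := by
  have h : IsIso ((st D).map ((FrL (Perm ι) ι lam).obj X ◁
      (StabInput.J (Action MM (Perm ι))).map (LC.mfold m))) := by
    rw [E.st_whiskerLeft_mfold]
    exact E.isIso_nsmul_of_unit hm _
  have e : (FrL (Perm ι) ι lam).map (X ◁ (jC JG).map (LC.mfold m)) ≫ δ (FrL (Perm ι) ι lam) _ _ ≫
      _ ◁ (lanGJIso (frAct (Perm ι) ι lam) RR).hom = (δ (FrL (Perm ι) ι lam) _ _ ≫
      _ ◁ (lanGJIso (frAct (Perm ι) ι lam) RR).hom) ≫ (FrL (Perm ι) ι lam).obj X ◁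
        (StabInput.J (Action MM (Perm ι))).map (LC.mfold m) := by
    rw [← δ_natural_right_assoc, Category.assoc, ← MonoidalCategory.whiskerLeft_comp,
      ← MonoidalCategory.whiskerLeft_comp]
    exact congrArg (fun x => _ ≫ _ ◁ x) ((lanGJ (frAct (Perm ι) ι lam)).hom.naturality _)
  have k := (isIso_map_iff (st D) ((Category.id_comp _).trans e)).2 h
  rwa [Functor.map_comp, isIso_comp_right_iff] at k

include hl in
theorem fru_DE (h : F.LamInv D) {m : ℕ} (hm : IsIso (m • 𝟙 (𝟙_ (SC D)))) (X : MM) :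
    Eu (N.aH ι D) 1 ((st D).map ((FrL (Perm ι) ι lam).map ((E.DE MM m).t X))) := by
  have h1 : Eu (N.aH ι D) 1 ((FrL (Perm ι) ι lam ⋙ st D).map (E.DE MM m).lam) := by
    have := isIso_FrL_mfold (lam := lam) hm (L : MM)
    have k := Eu.iso_comp ((st D).map ((FrL (Perm ι) ι lam).map
      ((L : MM) ◁ (jC JG).map (LC.mfold m)))) (fru_lamC hl h)
    rwa [← Functor.map_comp, ← Functor.map_comp] at k
  change Eu _ 1 ((FrL (Perm ι) ι lam ⋙ st D).map ((E.DE MM m).lam ▷ X ≫ (λ_ X).hom))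
  rw [Functor.map_comp, Functor.Monoidal.map_whiskerRight]
  exact (Eu.iso_comp _ ((h1.whiskerRight _).comp_iso _)).comp_iso _

variable (ι) in
theorem isIso_n0_DH (p : ℕ) : IsIso (n0 p • 𝟙 (𝟙_ (SC (F.DH ι p)))) := by
  have h := E.isIso_nsmul_of_DE (n := n0 p) _ (h := (SC.lamIso (De p)).isIso_hom) (𝟙_ (EE p))
  have k : IsIso ((E.τh (Gr.inc O (0 : Gam)) p ι).map (n0 p • 𝟙 (𝟙_ (EE p)))) := inferInstance
  rwa [Functor.map_nsmul, CategoryTheory.Functor.map_id] at k

include hl in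
/-- **FRU** -/
theorem fru (p : ℕ) (X : MM) : Eu (N.aH ι (F.DH ι p)) 1
    ((F.sH ι p).map ((FrL (Perm ι) ι lam).map ((De p).t X))) :=
  fru_DE hl (F.lamInv_DH ι p) (isIso_n0_DH ι p) X

include hl in
theorem fru_tk (p : ℕ) (X : MM) : ∀ k : ℕ, Eu (N.aH ι (F.DH ι p)) k
    ((F.sH ι p).map ((FrL (Perm ι) ι lam).map ((De p).tk k X)))
  | 0 => by
    rw [Stab.tk_zero, CategoryTheory.Functor.map_id, CategoryTheory.Functor.map_id]
    exact .iso _
  | k + 1 => by
    rw [Stab.tk_succ, Functor.map_comp, Functor.map_comp]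
    exact ((fru hl p _).comp (fru_tk p X k)).cast (Nat.add_comm 1 k)

end eu

end Vale.Agent.P257.T
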