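import Vale.Agent.P257.T.Fru

/-!
# P257, block T: algebra maps extending the Frobenius

* `FrobOn hl hA i γ F`: `F : R ⟶ FrR Z` restricts along `i : A ⟶ R` to the Frobenius of `A`;
* `FrobOn.bc`, `FrobOn.att`: base change and extension over a cell;
* `FrobOn.map_tr`, `FrobOn.map_tX`, `frob_tk`: formulas.
-/

open CategoryTheory MonoidalCategory Limits Functor.LaxMonoidal Functor.OplaxMonoidal

namespace Vale.Agent.P257.T

open Vale.Agent.P257.D Vale.Agent.P257.D.EF Vale.Agent.P257.A Vale.Agent.P257.M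
open Vale.Agent.P257.K Vale.Agent.P257.W
open Vale.Agent.P257.E (triv)
open Vale.Agent.P251.H (StabInput)
open Vale.Agent.P251.H.StabInput (CI coneBase MHtpy)
open Equiv (Perm)

set_option linter.unusedSectionVars false

section frob

variable {G : Type} [Group G] {ι : Type} [Finite ι] [Nonempty ι] [MulAction G ι] {lam : ℕ}
  {A A' R R' : CommMon MM} {Z Z' : CommMon (Action MM G)} {X : MM}

variable (ι lam) in
/-- the target of the Frobenius -/
noncomputable abbrev FrC (Z : CommMon (Action MM G)) : CommMon MM :=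
  (FrR G ι lam).mapCommMon.obj Z

variable (ι lam) in
/-- functoriality of `FrC` -/
noncomputable abbrev frM (z : Z ⟶ Z') : FrC ι lam Z ⟶ FrC ι lam Z' :=
  (FrR G ι lam).mapCommMon.map z

theorem frM_comp {Z'' : CommMon (Action MM G)} (z : Z ⟶ Z') (z' : Z' ⟶ Z'') :
    frM ι lam (z ≫ z') = frM ι lam z ≫ frM ι lam z' := Functor.map_comp _ _ _

/-- the adjoint map -/
noncomputable abbrev frT' (F : R ⟶ FrC ι lam Z) : (FrL G ι lam).obj R.X ⟶ Z.X :=
  tr (frAdj G ι lam) F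

/-- the value of `F` on a class -/
noncomputable def frV (F : R ⟶ FrC ι lam Z) (x : X ⟶ R.X) : (FrL G ι lam).obj X ⟶ Z.X :=
  (FrL G ι lam).map x ≫ frT' F

theorem frV_def (F : R ⟶ FrC ι lam Z) (x : X ⟶ R.X) :
    frV F x = (FrL G ι lam).map x ≫ tr (frAdj G ι lam) F := rfl

@[reassoc]
theorem map_frV (F : R ⟶ FrC ι lam Z) {X' : MM} (u : X' ⟶ X) (x : X ⟶ R.X) :
    (FrL G ι lam).map u ≫ frV F x = frV F (u ≫ x) := by
  rw [frV, frV, Functor.map_comp, Category.assoc]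

theorem frV_ah (F : R ⟶ FrC ι lam Z) (x : X ⟶ R.X) (z : Z ⟶ Z') :
    frV F x ≫ ah z = frV (F ≫ frM ι lam z) x := by
  rw [frV, frV, frT', frT', tr_comp_right, Category.assoc]

theorem frV_comp (g : R ⟶ R') (F : R' ⟶ FrC ι lam Z) (x : X ⟶ R.X) :
    frV (g ≫ F) x = frV F (x ≫ ah g) := by
  rw [frV, frV, frT', frT', tr_comp_left, Functor.map_comp, Category.assoc]

theorem frV_nat {g : R ⟶ R'} {F : R ⟶ FrC ι lam Z} {F' : R' ⟶ FrC ι lam Z'} {z : Z ⟶ Z'}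
    (h : g ≫ F' = F ≫ frM ι lam z) (x : X ⟶ R.X) : frV F' (x ≫ ah g) = frV F x ≫ ah z := by
  rw [← frV_comp, h, frV_ah]

theorem mHtpy_frV (F : R ⟶ FrC ι lam Z) {x y : X ⟶ R.X} (h : MHtpy x y) :
    MHtpy (frV F x) (frV F y) := (mHtpy_map (FrL G ι lam) h).comp_right _

/-- Extension over a cell. -/
theorem exists_frob_att (F : R ⟶ FrC ι lam Z) {j : R ⟶ R'} {v : X ⟶ R.X}
    {χ : X ⊗ CI MM ⟶ R'.X} (att : IsAttach j v χ) (z : Z ⟶ Z')
    (κ : (FrL G ι lam).obj X ⊗ CI (Action MM G) ⟶ Z'.X)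
    (hκ : coneBase _ ≫ κ = frV F v ≫ ah z) : ∃ F' : R' ⟶ FrC ι lam Z',
      j ≫ F' = F ≫ frM ι lam z ∧ tenCone (FrL G ι lam) χ ≫ frT' F' = κ :=
  att.exists_adj (frAdj G ι lam) (F ≫ frM ι lam z) κ (hκ.trans (frV_ah F v z))

/-- A class which is null in `R` has a null Frobenius. -/
theorem coneBase_frV (F : R ⟶ FrC ι lam Z) {x : X ⟶ R.X} {χ : X ⊗ CI MM ⟶ R.X}
    (h : coneBase X ≫ χ = x) :
    coneBase _ ≫ tenCone (FrL G ι lam) χ ≫ frT' F = frV F x := by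
  rw [coneBase_tenCone_assoc, h, frV]

variable (hl : lam ≤ Nat.card ι)

/-- `F` extends the Frobenius of `A`. -/
def FrobOn (hA : Le0 A.X) (i : A ⟶ R) (γ : trivC G A ⟶ Z) (F : R ⟶ FrC ι lam Z) : Prop :=
  i ≫ F = frobF G hl hA ≫ frM ι lam γ

namespace FrobOn

variable {hl} {hA : Le0 A.X} {i : A ⟶ R} {γ : trivC G A ⟶ Z} {F : R ⟶ FrC ι lam Z}

variable (hl hA) in
theorem self (γ : trivC G A ⟶ Z) : FrobOn hl hA (𝟙 A) γ (frobF G hl hA ≫ frM ι lam γ) :=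
  Category.id_comp _

theorem of_comm (h : FrobOn hl hA i γ F) {j : R ⟶ R'} {z : Z ⟶ Z'} {F' : R' ⟶ FrC ι lam Z'}
    (k : j ≫ F' = F ≫ frM ι lam z) : FrobOn hl hA (i ≫ j) (γ ≫ z) F' := by
  rw [FrobOn, Category.assoc, k, ← Category.assoc, h, Category.assoc, ← Functor.map_comp]

theorem comp_z (h : FrobOn hl hA i γ F) (z : Z ⟶ Z') :
    FrobOn hl hA i (γ ≫ z) (F ≫ frM ι lam z) := by
  rw [FrobOn, ← Category.assoc, h, Category.assoc, ← Functor.map_comp]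

theorem restrict {i' : A' ⟶ R} {γ' : trivC G A' ⟶ Z} {hA' : Le0 A'.X}
    (h : FrobOn hl hA' i' γ' F) (hA : Le0 A.X) (f : A ⟶ A') :
    FrobOn hl hA (f ≫ i') (trivMap G f ≫ γ') F := by
  rw [FrobOn, Category.assoc, h, frM_comp]
  exact frobA_nat_assoc _ hA hA' f _

/-- **Base change.** -/
theorem bc (h : FrobOn hl hA i γ F) (hA' : Le0 A'.X) {f : A ⟶ A'} {g : R ⟶ R'} {i' : A' ⟶ R'}
    (po : IsPushout i f g i') {z : Z ⟶ Z'} {γ' : trivC G A' ⟶ Z'}
    (k : γ ≫ z = trivMap G f ≫ γ') :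
    ∃ F' : R' ⟶ FrC ι lam Z', FrobOn hl hA' i' γ' F' ∧ g ≫ F' = F ≫ frM ι lam z := by
  have w : i ≫ F ≫ frM ι lam z = f ≫ frobF G hl hA' ≫ frM ι lam γ' := by
    refine (h.comp_z z).trans ?_
    rw [k, frM_comp]
    exact (frobA_nat_assoc _ hA hA' f _).symm
  exact ⟨po.desc _ _ w, po.inr_desc _ _ w, po.inl_desc _ _ w⟩

/-- **Extension over a cell.** -/
theorem att (h : FrobOn hl hA i γ F) {j : R ⟶ R'} {v : X ⟶ R.X} {χ : X ⊗ CI MM ⟶ R'.X}
    (att : IsAttach j v χ) (z : Z ⟶ Z') (κ : (FrL G ι lam).obj X ⊗ CI (Action MM G) ⟶ Z'.X)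
    (hκ : coneBase _ ≫ κ = frV F v ≫ ah z) : ∃ F' : R' ⟶ FrC ι lam Z',
      FrobOn hl hA (i ≫ j) (γ ≫ z) F' ∧ j ≫ F' = F ≫ frM ι lam z := by
  obtain ⟨F', h1, -⟩ := exists_frob_att F att z κ hκ
  exact ⟨F', h.of_comm h1, h1⟩

/-- the value on a class of `A` -/
theorem map_tr (h : FrobOn hl hA i γ F) (hX : Le0 X) (ξ : X ⟶ A.X) : frV F (ξ ≫ ah i) =
    dgF G hl hX ≫ ((powG MM G ι).map ξ ≫ mulG G ι A.X) ≫ ahL γ := by
  rw [← frV_comp, h, ← frV_ah]
  exact (congrArg (· ≫ _) (map_tr_frobA _ hA hX ξ)).trans (Category.assoc _ _ _)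

/-- the value on a shifted class of `A` -/
theorem map_tX (h : FrobOn hl hA i γ F) (hX : Le0 X) (ξ : X ⟶ A.X) (w : ℕ) :
    frV F (tX X w ≫ ξ ≫ ah i) = (frTX G ι lam X w).hom ≫
      (FrL G ι lam).obj X ◁ ((triv G).map (t1 (lam * w)) ≫ η (triv G)) ≫ (ρ_ _).hom ≫
        dgF G hl hX ≫ ((powG MM G ι).map ξ ≫ mulG G ι A.X) ≫ ahL γ := by
  rw [← map_frV, h.map_tr hX, T.map_tX]
  simp only [Category.assoc]

end FrobOn

end frob

variable {ι : Type} [Finite ι] [Nonempty ι] {lam p : ℕ} {R : CommMon MM}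
  {Z : CommMon (Action MM (Perm ι))} {X : MM}

/-- Stably equal classes have the same Frobenius after a power of the Euler class. -/
theorem frob_tk (F : R ⟶ FrC ι lam Z) {x y : X ⟶ R.X} (h : (sE p).map x = (sE p).map y) :
    ∃ k : ℕ, ∀ D : Stab (Action MM (Perm ι)),
      (st D).map ((FrL (Perm ι) ι lam).map ((De p).tk k X)) ≫ (st D).map (frV F x) =
        (st D).map ((FrL (Perm ι) ι lam).map ((De p).tk k X)) ≫ (st D).map (frV F y) := by
  obtain ⟨k, hk⟩ := (SC.st_eq_iff x y).1 h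
  refine ⟨k, fun D => ?_⟩
  rw [← Functor.map_comp, ← Functor.map_comp, map_frV, map_frV]
  exact SC.st_htpy (mHtpy_frV F hk)

/-- A stably null class has a null Frobenius after a power of the Euler class. -/
theorem frob_tk_zero (F : R ⟶ FrC ι lam Z) {x : X ⟶ R.X} (h : (sE p).map x = 0) :
    ∃ k : ℕ, ∀ D : Stab (Action MM (Perm ι)),
      (st D).map ((FrL (Perm ι) ι lam).map ((De p).tk k X)) ≫ (st D).map (frV F x) = 0 := by
  obtain ⟨k, hk⟩ := frob_tk F (y := 0) (h.trans ((sE p).map_zero _ _).symm)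
  refine ⟨k, fun D => (hk D).trans ?_⟩
  rw [frV, ten_map_zero, zero_comp, Functor.map_zero, comp_zero]

end Vale.Agent.P257.T
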