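import Vale.Agent.P257.T.Act
import Vale.Agent.P257.D.BigPt
import Vale.Agent.P257.D.GrMon
import Vale.Agent.P257.E.JA

/-!
# P257, block T: equivariant Kan extensions, the diagonal and the Frobenius

For `Φ : J ⥤ J'` with an action `θ` of `G`:
* `lanG θ : EF J ⥤ Action (EF J') G`, strong braided, left adjoint (`adjG θ`) to the lax braided
  functor `resG θ : Z ↦ (a ↦ Z (Φ a) ^ G)`;
* `lanGRep`, `lanGJ`: the values on representables and on spaces;
* `powAct M G ι`: the action on `pow ι` of a group acting on `ι`, `powG M G ι`;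
* `diag τ : res ρ ⋙ lan Φ ⟶ pow ι`, `x ↦ τ (x ⊗ ⋯ ⊗ x)`, for `τ : ρ ⋙ pow ι ⟶ Φ`, and its
  equivariant form `diagG`;
* `frobL`, `frob`: the Frobenius of a commutative monoid.
-/

open CategoryTheory MonoidalCategory Limits Functor.LaxMonoidal Functor.OplaxMonoidal OnePoint

namespace Vale.Agent.P257.T

open Vale.Agent.P257.D Vale.Agent.P257.D.EF Vale.Agent.P257.A
open Vale.Agent.P257.E (act mkAct mkHom triv act_one act_mul act_comm mapA)
open Vale.Agent.P251.G (LC)

set_option linter.unusedSectionVars false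

universe v u

section powAct

variable (M : Type u) [Category.{v} M] [MonoidalCategory M] [SymmetricCategory M]
  (G : Type) [Group G] (ι : Type) [Finite ι] [MulAction G ι]

/-- the action on the power functor -/
noncomputable def powAct : FAct G (pow ι : M ⥤ M) where
  a g := (powEquiv M (MulAction.toPerm g : ι ≃ ι)).hom
  one := by
    rw [← powEquiv_refl]
    exact congrArg (fun e => (powEquiv M e).hom) (Equiv.ext fun i => one_smul G i)
  mul g h := by
    rw [← powEquiv_trans]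
    exact congrArg (fun e => (powEquiv M e).hom) (Equiv.ext fun i => mul_smul g h i)

theorem powAct_a_app (g : G) (X : M) :
    ((powAct M G ι).a g).app X = pwE X (MulAction.toPerm g : ι ≃ ι) := rfl

instance : (powAct M G ι).IsMon := ⟨fun _ => inferInstanceAs (powEquiv M _).hom.IsMonoidal⟩

/-- the power functor with values in objects with an action -/
noncomputable abbrev powG : M ⥤ Action M G := (powAct M G ι).lift

variable {M}

theorem act_powG (X : M) (g : G) :
    act ((powG M G ι).obj X) g = pwE X (MulAction.toPerm g : ι ≃ ι) := FAct.act_lift _ _ _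

/-- the iterated multiplication as an equivariant map -/
noncomputable def mulG (B : M) [MonObj B] [IsCommMonObj B] :
    (powG M G ι).obj B ⟶ (triv G).obj B :=
  mkHom (bigMul ι B) fun g => by
    rw [act_powG]
    exact (bigEquiv_bigMul B _).trans (Category.comp_id _).symm

@[simp] theorem mulG_hom (B : M) [MonObj B] [IsCommMonObj B] :
    (mulG G ι B).hom = bigMul ι B := rfl

@[reassoc]
theorem powG_map_mulG {B B' : M} [MonObj B] [IsCommMonObj B] [MonObj B'] [IsCommMonObj B']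
    (f : B ⟶ B') [IsMonHom f] :
    (powG M G ι).map f ≫ mulG G ι B' = mulG G ι B ≫ (triv G).map f :=
  Action.hom_ext _ _ (bigMap_bigMul B f)

/-- the iterated multiplication as a morphism of commutative monoids -/
noncomputable def mulAlg (B : CommMon M) :
    (powG M G ι).mapCommMon.obj B ⟶ (triv G).mapCommMon.obj B :=
  @mkAh _ _ _ _ ((powG M G ι).mapCommMon.obj B) ((triv G).mapCommMon.obj B) (mulG G ι B.X)
    { one_hom := Action.hom_ext _ _ (by
        change ((ε (powG M G ι)).hom ≫ bigMap (fun _ : ι => MonObj.one)) ≫ bigMul ι B.X =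
          𝟙 _ ≫ MonObj.one
        rw [FAct.lift_ε_hom]
        change ((bigUnit ι M).inv ≫ bigMap (fun _ : ι => MonObj.one)) ≫ bigMul ι B.X =
          𝟙 _ ≫ MonObj.one
        rw [Category.assoc, bigMap_one_bigMul, Iso.inv_hom_id_assoc, Category.id_comp])
      mul_hom := Action.hom_ext _ _ (by
        change ((μ (powG M G ι) B.X B.X).hom ≫ bigMap (fun _ : ι => MonObj.mul)) ≫ bigMul ι B.X =
          (bigMul ι B.X ⊗ₘ bigMul ι B.X) ≫ 𝟙 _ ≫ MonObj.mul
        rw [FAct.lift_μ_hom]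
        change ((bigTensor (fun _ : ι => B.X) (fun _ => B.X)).inv ≫
          bigMap (fun _ : ι => MonObj.mul)) ≫ bigMul ι B.X =
          (bigMul ι B.X ⊗ₘ bigMul ι B.X) ≫ 𝟙 _ ≫ MonObj.mul
        rw [Category.assoc, ← bigTensor_bigMul, Iso.inv_hom_id_assoc, Category.id_comp]) }

@[simp] theorem ah_mulAlg (B : CommMon M) : ah (mulAlg G ι B) = mulG G ι B.X := rfl

@[reassoc]
theorem mulAlg_nat {B B' : CommMon M} (f : B ⟶ B') :
    (powG M G ι).mapCommMon.map f ≫ mulAlg G ι B' = mulAlg G ι B ≫ (triv G).mapCommMon.map f :=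
  ah_ext (powG_map_mulG G ι (ah f))

end powAct

variable {J J' : Type} [Idx J] [Idx J'] {G : Type} [Group G]

noncomputable instance : HasFix (EF J) where
  ob ρ := (fixSub ρ).ef
  inc ρ := (fixSub ρ).inc
  w ρ i := EF.hom_ext fun _ x => Sub.inc_mem (S := fixSub ρ) x i
  lift ρ _ f h := (fixSub ρ).lift f fun _ y i => congrArg (fun t => fn t y) (h i)
  fac ρ _ _ _ := (fixSub ρ).lift_inc _ _
  mono _ := inferInstance

instance (ι : Type) [Finite ι] [Nonempty ι] : IdxFun (pow ι : J ⥤ J) where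
  map_zero _ _ := bigMap_zero _ (i := Classical.arbitrary ι) rfl
  map_plot h := plot_bigMap fun _ => h

/-- the representable object of an object of the index category with an action -/
@[reducible] noncomputable def repG (Q : Action J G) : Action (EF J) G :=
  mkAct (rep Q.V) (fun g => repMap (act Q g⁻¹))
    (by rw [inv_one, act_one, repMap_id])
    (fun g h => by rw [mul_inv_rev, ← act_mul, repMap_comp])

theorem act_repG (Q : Action J G) (g : G) : act (repG Q) g = repMap (act Q g⁻¹) := rfl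

/-- contravariant functoriality of `repG` -/
noncomputable def repGMap {P Q : Action J G} (f : P ⟶ Q) : repG Q ⟶ repG P :=
  mkHom (repMap f.hom) fun g => by
    rw [act_repG, act_repG, ← repMap_comp, ← repMap_comp, act_comm]

@[simp] theorem repGMap_hom {P Q : Action J G} (f : P ⟶ Q) : (repGMap f).hom = repMap f.hom := rfl

/-- `repG` of an isomorphism -/
noncomputable def repGIso {P Q : Action J G} (e : P ≅ Q) : repG P ≅ repG Q where
  hom := repGMap e.inv
  inv := repGMap e.hom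
  hom_inv_id := Action.hom_ext _ _ (by
    rw [Action.comp_hom, repGMap_hom, repGMap_hom, ← repMap_comp, ← Action.comp_hom,
      e.hom_inv_id, Action.id_hom, repMap_id, Action.id_hom])
  inv_hom_id := Action.hom_ext _ _ (by
    rw [Action.comp_hom, repGMap_hom, repGMap_hom, ← repMap_comp, ← Action.comp_hom,
      e.inv_hom_id, Action.id_hom, repMap_id, Action.id_hom])

/-- `repG` of a tensor product -/
noncomputable def repGTensor (P Q : Action J G) : repG P ⊗ repG Q ≅ repG (P ⊗ Q) :=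
  Action.mkIso (repTensor P.V Q.V) fun g => tensor_ext fun a b x y => by
    obtain ⟨x, rfl⟩ := pr_surjective x
    obtain ⟨y, rfl⟩ := pr_surjective y
    change fn (repTensor P.V Q.V).hom (fn (repMap (act P g⁻¹) ⊗ₘ repMap (act Q g⁻¹))
      (tm (pr x) (pr y))) = fn (repMap (act P g⁻¹ ⊗ₘ act Q g⁻¹))
        (fn (repTensor P.V Q.V).hom (tm (pr x) (pr y)))
    rw [tensorHom_tm, fn_repMap_pr, fn_repMap_pr, fn_repTensor_hom, fn_repTensor_hom,
      fn_repMap_pr, tensorHom_comp_tensorHom]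

/-- `repG` of a trivial action -/
noncomputable def repGTriv (c : J) : repG ((triv G).obj c) ≅ (triv G).obj (rep c) :=
  Action.mkIso (Iso.refl _) fun _ => by
    change repMap (𝟙 c) ≫ 𝟙 _ = 𝟙 _ ≫ 𝟙 _
    rw [repMap_id]

section lanG

variable {Φ : J ⥤ J'} [IdxFun Φ] (θ : FAct G Φ)

/-- the action on the Kan extension -/
@[simps] noncomputable def lanAct : FAct G (lan Φ) where
  a g := lanMap (θ.a g⁻¹)
  one := by rw [inv_one, θ.one, lanMap_id]
  mul g h := by rw [mul_inv_rev, θ.mul, lanMap_comp]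

/-- the action on the restriction -/
@[simps] def resAct : FAct G (res Φ) where
  a g := resMap (θ.a g)
  one := by rw [θ.one, resMap_id]
  mul g h := by rw [θ.mul, resMap_comp]

instance [Φ.Monoidal] [θ.IsMon] : (lanAct θ).IsMon :=
  ⟨fun g => inferInstanceAs (lanMap (θ.a g⁻¹)).IsMonoidal⟩

instance [Φ.LaxMonoidal] [θ.IsMon] : (resAct θ).IsMon :=
  ⟨fun g => inferInstanceAs (resMap (θ.a g)).IsMonoidal⟩

theorem mate_lan : Mate (lanAdj Φ) (lanAct θ) (resAct θ) := fun g X => EF.hom_ext fun a x => by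
  change ri Φ (((lan Φ).obj X).act ((θ.a g).app a)
    (fn ((lanMap (θ.a g⁻¹)).app X) (li Φ x))) = ri Φ (li Φ x)
  rw [fn_lanMap, ← act_comp, FAct.inv_app, act_id]

/-- the equivariant Kan extension -/
noncomputable abbrev lanG : EF J ⥤ Action (EF J') G := (lanAct θ).lift

/-- restriction followed by fixed points -/
noncomputable abbrev resG : Action (EF J') G ⥤ EF J := (resAct θ).twist ⋙ fix G

/-- the adjunction between `lanG` and `resG` -/
noncomputable def adjG : lanG θ ⊣ resG θ := (fixAdj (EF J) G).comp (twistAdj (mate_lan θ))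

instance [Φ.Monoidal] [θ.IsMon] : (adjG θ).IsMonoidal :=
  inferInstanceAs ((fixAdj (EF J) G).comp (twistAdj (mate_lan θ))).IsMonoidal

instance : (lanG θ).IsLeftAdjoint := (adjG θ).isLeftAdjoint

instance : PreservesColimitsOfSize.{0, 0} (lanG θ) := (adjG θ).leftAdjoint_preservesColimits

theorem act_lanG (X : EF J) (g : G) : act ((lanG θ).obj X) g = (lanMap (θ.a g⁻¹)).app X :=
  FAct.act_lift _ _ _

theorem fn_act_lanG {X : EF J} (g : G) {a : J} (x : OnePoint (X.obj a)) :
    fn (act ((lanG θ).obj X) g) (li Φ x) = ((lan Φ).obj X).act ((θ.a g⁻¹).app a) (li Φ x) := by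
  rw [act_lanG]
  exact fn_lanMap _ x

/-- the inclusion `resG θ Z ⟶ res Φ Z` -/
noncomputable def resGInc (Z : Action (EF J') G) : (resG θ).obj Z ⟶ (res Φ).obj Z.V :=
  fixInc ((resAct θ).twist.obj Z)

instance (Z : Action (EF J') G) : Mono (resGInc θ Z) :=
  inferInstanceAs (Mono (fixInc ((resAct θ).twist.obj Z)))

theorem adjG_homEquiv_symm_hom {X : EF J} {Z : Action (EF J') G} (f : X ⟶ (resG θ).obj Z) :
    (((adjG θ).homEquiv X Z).symm f).hom = lanDesc (f ≫ resGInc θ Z) := by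
  rw [← lanAdj_homEquiv_symm, Adjunction.homEquiv_counit, Adjunction.homEquiv_counit]
  change (lan Φ).map f ≫ (lan Φ).map (resGInc θ Z) ≫ (lanAdj Φ).counit.app Z.V = _
  rw [Functor.map_comp, Category.assoc]

theorem adjG_homEquiv_inc {X : EF J} {Z : Action (EF J') G} (f : (lanG θ).obj X ⟶ Z) :
    (adjG θ).homEquiv X Z f ≫ resGInc θ Z = (lanAdj Φ).homEquiv X Z.V f.hom := by
  apply ((lanAdj Φ).homEquiv X Z.V).symm.injective
  rw [Equiv.symm_apply_apply, lanAdj_homEquiv_symm, ← adjG_homEquiv_symm_hom,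
    Equiv.symm_apply_apply]

/-- the equivariant Kan extension of a representable -/
noncomputable def lanGRep (c : J) : (lanG θ).obj (rep c) ≅ repG (θ.at' c) :=
  Action.mkIso (lanRep Φ c) fun g => by
    change act ((lanG θ).obj (rep c)) g ≫ _ = _
    rw [act_lanG]
    exact lanMap_lanRep (θ.a g⁻¹) c

@[simp] theorem lanGRep_hom_hom (c : J) : (lanGRep θ c).hom.hom = (lanRep Φ c).hom := rfl

@[simp] theorem lanGRep_inv_hom (c : J) : (lanGRep θ c).inv.hom = (lanRep Φ c).inv := rfl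

variable [Φ.Monoidal] [θ.IsMon]

/-- the equivariant Kan extension of a space -/
noncomputable def lanGJIso (K : LC) :
    (lanG θ).obj ((jC J).obj K) ≅ (jC J' ⋙ triv G).obj K :=
  Action.mkIso (lanJIso Φ K) fun g => by
    change act ((lanG θ).obj ((jC J).obj K)) g ≫ _ = _
    rw [act_lanG]
    exact (lanMap_lanJIso (θ.a g⁻¹) K).trans (Category.comp_id _).symm

@[simp] theorem lanGJIso_hom_hom (K : LC) : (lanGJIso θ K).hom.hom = (lanJIso Φ K).hom := rfl

@[simp] theorem lanGJIso_inv_hom (K : LC) : (lanGJIso θ K).inv.hom = (lanJIso Φ K).inv := rfl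

/-- the equivariant Kan extension commutes with the functors from spaces -/
noncomputable def lanGJ : jC J ⋙ lanG θ ≅ jC J' ⋙ triv G :=
  NatIso.ofComponents (lanGJIso θ) fun f => Action.hom_ext _ _ (lan_map_lanJIso Φ f)

@[simp] theorem lanGJ_hom_app (K : LC) : (lanGJ θ).hom.app K = (lanGJIso θ K).hom := rfl

@[simp] theorem lanGJ_inv_app (K : LC) : (lanGJ θ).inv.app K = (lanGJIso θ K).inv := rfl

instance : (lanGJ θ).hom.IsMonoidal where
  unit := Action.hom_ext _ _ (by
    change ((ε (lanG θ)).hom ≫ (lan Φ).map (ε (jC J))) ≫ (lanJIso Φ _).hom = 𝟙 _ ≫ ε (jC J')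
    rw [FAct.lift_ε_hom, Category.assoc, Category.id_comp]
    exact lanEps_lanJIso Φ)
  tensor K L := Action.hom_ext _ _ (by
    change ((μ (lanG θ) _ _).hom ≫ (lan Φ).map (μ (jC J) K L)) ≫ (lanJIso Φ _).hom =
      ((lanJIso Φ K).hom ⊗ₘ (lanJIso Φ L).hom) ≫ 𝟙 _ ≫ μ (jC J') K L
    rw [FAct.lift_μ_hom, Category.assoc, Category.id_comp]
    exact lanMu_lanJIso Φ K L)

end lanG

section diag

variable {ρ Φ : J ⥤ J'} [IdxFun ρ] [IdxFun Φ] {ι : Type} [Finite ι] [Nonempty ι]
  (τ : ρ ⋙ pow ι ⟶ Φ)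

/-- the components of `τ : ρ ⋙ pow ι ⟶ Φ`, with their source written as a power -/
noncomputable def tap (a : J) : pw ι (ρ.obj a) ⟶ Φ.obj a := τ.app a

theorem tap_eq (a : J) : tap τ a = τ.app a := rfl

@[reassoc]
theorem tap_nat {a b : J} (w : a ⟶ b) : pwM ι (ρ.map w) ≫ tap τ b = tap τ a ≫ Φ.map w :=
  τ.naturality w

@[reassoc]
theorem tap_unit [ρ.LaxMonoidal] [Φ.LaxMonoidal] [τ.IsMonoidal] :
    pwM ι (ε ρ) ≫ tap τ (𝟙_ J) = (bigUnit ι J').hom ≫ ε Φ := by
  rw [← Iso.inv_comp_eq, ← Category.assoc]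
  exact NatTrans.IsMonoidal.unit (τ := τ)

@[reassoc]
theorem tap_tensor [ρ.LaxMonoidal] [Φ.LaxMonoidal] [τ.IsMonoidal] (a b : J) :
    pwM ι (μ ρ a b) ≫ tap τ (a ⊗ b) =
      (bigTensor (fun _ : ι => ρ.obj a) (fun _ => ρ.obj b)).hom ≫ (tap τ a ⊗ₘ tap τ b) ≫
        μ Φ a b := by
  rw [← Iso.inv_comp_eq, ← Category.assoc]
  exact NatTrans.IsMonoidal.tensor (τ := τ) a b

/-- the components of the diagonal -/
noncomputable def diagApp (X : EF J') : (lan Φ).obj ((res ρ).obj X) ⟶ pw ι X :=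
  lanMk (fun a x => (pw ι X).act (tap τ a) (btm (a := fun _ => ρ.obj a) fun _ => unri x))
    (fun a => by
      rw [btm_infty (i := Classical.arbitrary ι) rfl, act_infty])
    (fun a K x hx => act_plot' _ _ (btm_plot fun _ => unri_plot hx))
    (fun {a b} w x => by
      rw [← act_comp, ← tap_nat, act_comp]
      congr 1
      exact (act_bigMap_btm (X := fun _ : ι => X) (fun _ => ρ.map w) fun _ => unri x).symm)

theorem fn_diagApp {X : EF J'} {a : J} (x : OnePoint (X.obj (ρ.obj a))) :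
    fn (diagApp τ X) (li Φ (ri ρ x)) =
      (pw ι X).act (tap τ a) (btm (a := fun _ => ρ.obj a) fun _ => x) :=
  fn_lanDesc _ (ri ρ x)

@[reassoc]
theorem diagApp_nat {X Y : EF J'} (f : X ⟶ Y) :
    (lan Φ).map ((res ρ).map f) ≫ diagApp τ Y = diagApp τ X ≫ pwM ι f :=
  lan_ext fun a x => by
    obtain ⟨x, rfl⟩ := ri_surjective x
    rw [fn_comp, fn_comp, fn_lan_map, fn_res_map, fn_diagApp, fn_diagApp, fn_act, fn_bigMap_btm]

/-- the diagonal -/
@[simps] noncomputable def diag : res ρ ⋙ lan Φ ⟶ pow ι where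
  app := diagApp τ
  naturality _ _ f := diagApp_nat τ f

instance [ρ.LaxMonoidal] [Φ.Monoidal] [τ.IsMonoidal] : (diag τ).IsMonoidal where
  unit := rep_hom_ext (by
    change fn (diagApp τ (𝟙_ _)) (fn ((lan Φ).map (resEps ρ)) (fn (lanEps Φ) (pr (𝟙 _)))) =
      fn (bigUnit ι (EF J')).inv onePt
    rw [fn_lanEps, fn_act, fn_act, fn_lan_map]
    erw [fn_resEps, fn_diagApp]
    rw [Cmp.fn_eq (u := (bigUnit ι J').symm) (cmp_bigUnit (ι := ι) (J := J')).symm, ← act_comp]
    have h := act_bigMap_btm (X := fun _ : ι => 𝟙_ (EF J')) (fun _ => ε ρ ≫ ρ.map (𝟙 _))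
      fun _ => onePt
    have h2 : (fun _ : ι => (𝟙_ (EF J')).act (ε ρ ≫ ρ.map (𝟙 _)) onePt) =
        fun _ : ι => pr (ε ρ ≫ ρ.map (𝟙 _)) :=
      funext fun _ => (rep_act _ _).trans (by rw [Category.id_comp])
    rw [h2] at h
    erw [← h, ← act_comp]
    congr 1
    rw [ρ.map_id, Category.comp_id, Category.comp_id, tap_unit_assoc, Functor.Monoidal.ε_η,
      Category.comp_id]
    rfl)
  tensor X Y := lan_tensor_ext fun a b x y => by
    obtain ⟨x, rfl⟩ := ri_surjective x
    obtain ⟨y, rfl⟩ := ri_surjective y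
    change fn (diagApp τ (X ⊗ Y)) (fn ((lan Φ).map (resMu ρ X Y))
      (fn (lanMu Φ _ _) (tm (li Φ (ri ρ x)) (li Φ (ri ρ y))))) =
      fn (bigTensor (fun _ : ι => X) (fun _ => Y)).inv
        (fn (diagApp τ X ⊗ₘ diagApp τ Y) (tm (li Φ (ri ρ x)) (li Φ (ri ρ y))))
    rw [fn_lanMu, fn_act, fn_act, fn_lan_map, fn_resMu, fn_diagApp, tensorHom_tm, fn_diagApp,
      fn_diagApp, ← act_tm, fn_act,
      Cmp.fn_eq (u := (bigTensor (fun _ : ι => ρ.obj a) (fun _ => ρ.obj b)).symm)
        (cmp_bigTensor (X := fun _ : ι => X) (Y := fun _ => Y) (fun _ => x) fun _ => y).symm,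
      ← act_bigMap_btm (X := fun _ : ι => X ⊗ Y) (fun _ => μ ρ a b) fun _ => tm x y,
      ← act_comp, ← act_comp, ← act_comp]
    congr 1
    rw [tap_tensor_assoc, Functor.Monoidal.μ_δ, Category.comp_id]
    rfl

theorem diagApp_rep {a : J} {c : J'} (e : c ⟶ ρ.obj a) :
    (lan Φ).map (yo (X := (res ρ).obj (rep c)) (ri ρ (pr e))) ≫ diagApp τ (rep c) ≫
        (repBig fun _ : ι => c).hom =
      (lanRep Φ a).hom ≫ repMap (pwM ι e ≫ tap τ a) := by
  rw [← cancel_epi (lanRep Φ a).inv, Iso.inv_hom_id_assoc]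
  apply rep_hom_ext
  simp only [fn_comp]
  rw [fn_lanRep_inv, act_id, fn_lan_map, fn_yo_pr, act_id, fn_diagApp, fn_act,
    fn_repBig_hom (a := fun _ : ι => c) (fun _ => e), rep_act, fn_repMap_pr, Category.comp_id]

variable [MulAction G ι] (θ : FAct G Φ)

/-- equivariance of `τ : ρ ⋙ pow ι ⟶ Φ` -/
def Eqv : Prop := ∀ (g : G) (a : J),
  pwE (ρ.obj a) (MulAction.toPerm g : ι ≃ ι) ≫ tap τ a = tap τ a ≫ (θ.a g).app a

variable {τ θ}

theorem Eqv.diagApp (h : Eqv τ θ) (g : G) (X : EF J') :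
    (lanMap (θ.a g⁻¹)).app _ ≫ diagApp τ X =
      diagApp τ X ≫ pwE X (MulAction.toPerm g : ι ≃ ι) :=
  lan_ext fun a x => by
    obtain ⟨x, rfl⟩ := ri_surjective x
    rw [fn_comp, fn_comp, fn_lanMap, fn_act, fn_diagApp, fn_act, ← act_comp, ← h]
    have := (cmp_bigEquiv (X := fun _ : ι => X) (a := fun _ => ρ.obj a)
      (MulAction.toPerm g : ι ≃ ι) fun _ => x).fn_eq
    erw [this]
    rw [← act_comp]
    congr 2
    rw [← cancel_mono (pwE (ρ.obj a) (MulAction.toPerm g : ι ≃ ι))]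
    exact ((powAct J' G ι).inv_app g _).trans (Iso.inv_hom_id _).symm

/-- the equivariant diagonal -/
noncomputable def diagGApp (h : Eqv τ θ) (X : EF J') :
    (lanG θ).obj ((res ρ).obj X) ⟶ (powG (EF J') G ι).obj X :=
  mkHom (diagApp τ X) fun g => by
    rw [act_lanG, act_powG]
    exact h.diagApp g X

@[simp] theorem diagGApp_hom (h : Eqv τ θ) (X : EF J') : (diagGApp h X).hom = diagApp τ X := rfl

/-- the equivariant diagonal -/
@[simps] noncomputable def diagG (h : Eqv τ θ) : res ρ ⋙ lanG θ ⟶ powG (EF J') G ι where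
  app := diagGApp h
  naturality _ _ f := Action.hom_ext _ _ (diagApp_nat τ f)

instance [ρ.LaxMonoidal] [Φ.Monoidal] [τ.IsMonoidal] [θ.IsMon] (h : Eqv τ θ) :
    (diagG h).IsMonoidal where
  unit := Action.hom_ext _ _ (by
    change ((ε (lanG θ)).hom ≫ (lan Φ).map (ε (res ρ))) ≫ diagApp τ _ = (ε (powG _ G ι)).hom
    rw [FAct.lift_ε_hom, FAct.lift_ε_hom]
    exact NatTrans.IsMonoidal.unit (τ := diag τ))
  tensor X Y := Action.hom_ext _ _ (by
    change ((μ (lanG θ) _ _).hom ≫ (lan Φ).map (μ (res ρ) X Y)) ≫ diagApp τ _ =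
      (diagApp τ X ⊗ₘ diagApp τ Y) ≫ (μ (powG _ G ι) X Y).hom
    rw [FAct.lift_μ_hom, FAct.lift_μ_hom]
    exact NatTrans.IsMonoidal.tensor (τ := diag τ) X Y)

variable [ρ.LaxBraided] [Φ.Braided] [τ.IsMonoidal] [θ.IsMon] (h : Eqv τ θ)

/-- the Frobenius, as a morphism out of the Kan extension -/
noncomputable def frobL (B : CommMon (EF J')) :
    (lanG θ).mapCommMon.obj ((res ρ).mapCommMon.obj B) ⟶ (triv G).mapCommMon.obj B :=
  (Functor.mapCommMonCompIso (F := res ρ) (G := lanG θ)).inv.app B ≫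
    (Functor.mapCommMonNatTrans (diagG h)).app B ≫ mulAlg G ι B

theorem ah_frobL (B : CommMon (EF J')) : ah (frobL h B) = diagGApp h B.X ≫ mulG G ι B.X :=
  Category.id_comp _

@[reassoc]
theorem frobL_nat {B B' : CommMon (EF J')} (f : B ⟶ B') :
    (lanG θ).mapCommMon.map ((res ρ).mapCommMon.map f) ≫ frobL h B' =
      frobL h B ≫ (triv G).mapCommMon.map f := ah_ext (by
  rw [ah_comp, ah_comp, ah_frobL, ah_frobL]
  change (lanG θ).map ((res ρ).map (ah f)) ≫ diagGApp h B'.X ≫ mulG G ι B'.X =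
    (diagGApp h B.X ≫ mulG G ι B.X) ≫ (triv G).map (ah f)
  rw [Category.assoc, ← powG_map_mulG G ι (ah f)]
  exact (diagG h).naturality_assoc (ah f) _)

/-- the Frobenius -/
noncomputable def frob (B : CommMon (EF J')) :
    (res ρ).mapCommMon.obj B ⟶ (resG θ).mapCommMon.obj ((triv G).mapCommMon.obj B) :=
  (adjG θ).mapCommMon.homEquiv _ _ (frobL h B)

theorem tr_frob (B : CommMon (EF J')) :
    tr (adjG θ) (frob h B) = diagGApp h B.X ≫ mulG G ι B.X := by
  refine (Equiv.symm_apply_eq _).2 ?_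
  rw [← ah_frobL]
  change (𝟙 _ ≫ (adjG θ).unit.app _ ≫ 𝟙 _) ≫ (resG θ).map (ah (frobL h B)) =
    (adjG θ).unit.app _ ≫ (resG θ).map (ah (frobL h B))
  rw [Category.id_comp, Category.comp_id]

@[reassoc]
theorem frob_nat {B B' : CommMon (EF J')} (f : B ⟶ B') :
    (res ρ).mapCommMon.map f ≫ frob h B' =
      frob h B ≫ (resG θ).mapCommMon.map ((triv G).mapCommMon.map f) := by
  rw [frob, frob, ← Adjunction.homEquiv_naturality_left, ← Adjunction.homEquiv_naturality_right,
    frobL_nat]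

/-- the Frobenius on a class `x : X ⟶ B` is the `ι`-th power of `x` after the diagonal -/
theorem map_tr_frob {B : CommMon (EF J')} {X : EF J'} (x : X ⟶ B.X) :
    (lanG θ).map ((res ρ).map x) ≫ tr (adjG θ) (frob h B) =
      diagGApp h X ≫ (powG _ G ι).map x ≫ mulG G ι B.X := by
  rw [tr_frob]
  exact (diagG h).naturality_assoc x _

end diag

end Vale.Agent.P257.T
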