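import Vale.Agent.P257.T.Dg
import Vale.Agent.P257.T.U
import Vale.Agent.P257.M.Defs

/-!
# P257, block T: the Frobenius of graded filtered orthogonal spectra

* generalities on `Gr J Λ`: `grAct`, `pb`, the truncation `Gr.mapO (𝟭 J) ρ` with `eO`, `tauO`;
* `Le0 X` (`X : MM` is generated in filtration degrees `≤ 0`), closed under tensor products,
  colimits, cells;
* `FrL G ι lam : MM ⥤ Action MM G` (strong braided), `FrR`, `frAdj`;
* `dgF hl hX : FrL X ⟶ powG X` and `frobF hl hB : B ⟶ FrR (triv B)` for `lam ≤ card ι`.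
-/

open CategoryTheory MonoidalCategory Limits Functor.LaxMonoidal Functor.OplaxMonoidal OnePoint

namespace Vale.Agent.P257.T

open Vale.Agent.P257.D Vale.Agent.P257.D.EF Vale.Agent.P257.A Vale.Agent.P257.M
open Vale.Agent.P257.E (act mkAct mkHom triv act_one act_mul act_comm mapA JA)
open Vale.Agent.P251.G (LC)
open Vale.Agent.P251.H (StabInput tpow)
open Vale.Agent.P251.H.StabInput (S CI)

set_option linter.unusedSectionVars false

section gr

variable {J J' : Type} [Idx J] [Idx J'] {Λ Λ' : Type} [AddCommMonoid Λ] [Preorder Λ]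
  [IsOrderedAddMonoid Λ] [AddCommMonoid Λ'] [Preorder Λ'] [IsOrderedAddMonoid Λ']
  {G : Type} [Group G]

/-- the action on `Gr.map Φ φ` -/
@[simps] def grAct {Φ : J ⥤ J'} [IdxFun Φ] (θ : FAct G Φ) (φ : Λ →+o Λ') :
    FAct G (Gr.map Φ φ) where
  a g := Gr.mapNat (θ.a g) fun _ => le_rfl
  one := NatTrans.ext (funext fun x => Gr.hom_ext (θ.one_app x.ob))
  mul g h := NatTrans.ext (funext fun x => Gr.hom_ext (θ.mul_app g h x.ob).symm)

theorem grAct_a_app_hom {Φ : J ⥤ J'} [IdxFun Φ] (θ : FAct G Φ) (φ : Λ →+o Λ') (g : G)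
    (x : Gr J Λ) : (((grAct θ φ).a g).app x).hom = (θ.a g).app x.ob := rfl

instance {Φ : J ⥤ J'} [IdxFun Φ] [Φ.LaxMonoidal] (θ : FAct G Φ) [θ.IsMon] (φ : Λ →+o Λ') :
    (grAct θ φ).IsMon := ⟨fun g => inferInstanceAs (Gr.mapNat (θ.a g) fun _ => le_rfl).IsMonoidal⟩

variable {ι κ : Type} [Finite ι] [Finite κ]

/-- the level of an unordered tensor product -/
noncomputable def pb (x : ι → Gr J Λ) : (big x).ob ≅ big fun i => (x i).ob :=
  (asIso (laxBig (Gr.proj J Λ) x)).symm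

theorem pb_inv (x : ι → Gr J Λ) : (pb x).inv = laxBig (Gr.proj J Λ) x := rfl

@[reassoc]
theorem bigMap_pb {x y : ι → Gr J Λ} (f : ∀ i, x i ⟶ y i) :
    (bigMap f).hom ≫ (pb y).hom = (pb x).hom ≫ bigMap fun i => (f i).hom := by
  rw [← Iso.inv_comp_eq, ← Category.assoc, ← Iso.eq_comp_inv]
  exact (bigMap_laxBig (Gr.proj J Λ) f).symm

@[reassoc]
theorem bigEquiv_pb (e : ι ≃ κ) (x : κ → Gr J Λ) :
    (bigEquiv e x).hom.hom ≫ (pb x).hom =
      (pb fun i => x (e i)).hom ≫ (bigEquiv e fun k => (x k).ob).hom := by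
  rw [← Iso.inv_comp_eq, ← Category.assoc, ← Iso.eq_comp_inv]
  exact (bigEquiv_laxBig (Gr.proj J Λ) e x).symm

@[reassoc]
theorem pb_bigUnit : (pb fun _ : ι => 𝟙_ (Gr J Λ)).hom ≫ (bigUnit ι J).hom =
    (bigUnit ι (Gr J Λ)).hom.hom := by
  rw [← Iso.eq_inv_comp]
  have h := bigUnit_laxBig (ι := ι) (Gr.proj J Λ)
  have h1 : bigMap (fun _ : ι => ε (Gr.proj J Λ)) = 𝟙 _ := bigMap_id _
  rw [h1] at h
  exact ((Category.comp_id _).symm.trans h.symm).trans (Category.id_comp _)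

@[reassoc]
theorem pb_bigTensor (x y : ι → Gr J Λ) :
    (pb fun i => x i ⊗ y i).hom ≫ (bigTensor (fun i => (x i).ob) fun i => (y i).ob).hom =
      (bigTensor x y).hom.hom ≫ ((pb x).hom ⊗ₘ (pb y).hom) := by
  have h := bigTensor_laxBig (Gr.proj J Λ) x y
  have h1 : bigMap (fun i : ι => μ (Gr.proj J Λ) (x i) (y i)) = 𝟙 _ := bigMap_id _
  rw [h1] at h
  have h2 : (bigTensor (fun i => (x i).ob) fun i => (y i).ob).hom ≫ ((pb x).inv ⊗ₘ (pb y).inv) =
      (pb fun i => x i ⊗ y i).inv ≫ (bigTensor x y).hom.hom :=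
    ((congrArg (_ ≫ ·) (Category.comp_id _)).symm.trans h).trans (Category.id_comp _)
  rw [← Iso.eq_inv_comp, ← reassoc_of% h2, tensorHom_comp_tensorHom, Iso.inv_hom_id,
    Iso.inv_hom_id, id_tensorHom_id, Category.comp_id]

theorem pw_deg (x : Gr J Λ) : (pw ι x).deg = Nat.card ι • x.deg := by
  have := Fintype.ofFinite ι
  rw [Gr.big_deg, Finset.sum_const, Finset.card_univ, Nat.card_eq_fintype_card]

/-- the counit of a truncation -/
@[simps] def eO {ρ : Λ →o Λ} (h : ∀ g, ρ g ≤ g) : Gr.mapO (𝟭 J) ρ ⟶ 𝟭 (Gr J Λ) where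
  app x := Gr.homMk (𝟙 x.ob) (h x.deg)
  naturality _ _ _ := Gr.hom_ext ((Category.comp_id _).trans (Category.id_comp _).symm)

theorem eap_eO_hom {ρ : Λ →o Λ} (h : ∀ g, ρ g ≤ g) (x : Gr J Λ) :
    (eap (eO h) x).hom = 𝟙 x.ob := rfl

instance {ρ : Λ →o Λ} [Gr.SupAdd ρ] (h : ∀ g, ρ g ≤ g) : (eO (J := J) h).IsMonoidal where
  unit := Gr.hom_ext (Category.id_comp _)
  tensor x y := Gr.hom_ext (by
    change 𝟙 (x.ob ⊗ y.ob) ≫ 𝟙 _ = (𝟙 x.ob ⊗ₘ 𝟙 y.ob) ≫ 𝟙 _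
    rw [id_tensorHom_id])

theorem idem_eO {ρ : Λ →o Λ} (h : ∀ g, ρ g ≤ g) : Idem (eO (J := J) h) :=
  fun _ => Gr.hom_ext rfl

theorem co_eO {ρ : Λ →o Λ} (h : ∀ g, ρ g ≤ g) {x : Gr J Λ} (hx : x.deg ≤ ρ x.deg) :
    Co (eO h) x :=
  have : IsIso (eap (eO h) x).hom := inferInstanceAs (IsIso (𝟙 x.ob))
  Gr.isIso_of_hom _ hx

theorem sec_eO_hom {ρ : Λ →o Λ} {h : ∀ g, ρ g ≤ g} {x : Gr J Λ} (hx : Co (eO h) x) :
    hx.sec.hom = 𝟙 x.ob :=
  (Category.comp_id _).symm.trans (congrArg Gr.Hom.hom hx.sec_eap)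

variable [Nonempty ι] {ρ : Λ →o Λ} {φ : Λ →+o Λ} (h : ∀ g, Nat.card ι • ρ g ≤ φ g)

variable (J) in
/-- the comparison of the power of the truncation with `Gr.map (pow ι) φ` -/
noncomputable def tauO : Gr.mapO (𝟭 J) ρ ⋙ pow ι ⟶ Gr.map (pow ι) φ where
  app x := Gr.homMk (pb fun _ : ι => (Gr.mapO (𝟭 J) ρ).obj x).hom
    ((pw_deg ((Gr.mapO (𝟭 J) ρ).obj x)).le.trans (h x.deg))
  naturality _ _ f := Gr.hom_ext (bigMap_pb fun _ : ι => (Gr.mapO (𝟭 J) ρ).map f)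

theorem tap_tauO_hom (x : Gr J Λ) :
    (tap (tauO J h) x).hom = (pb fun _ : ι => (Gr.mapO (𝟭 J) ρ).obj x).hom := rfl

instance [Gr.SupAdd ρ] : (tauO J h).IsMonoidal where
  unit := Gr.hom_ext (by
    change ((bigUnit ι (Gr J Λ)).inv.hom ≫ (bigMap fun _ : ι => ε (Gr.mapO (𝟭 J) ρ)).hom) ≫
      (pb fun _ : ι => (Gr.mapO (𝟭 J) ρ).obj (𝟙_ _)).hom = (bigUnit ι J).inv
    have h1 : bigMap (fun _ : ι => (ε (Gr.mapO (𝟭 J) ρ)).hom) = 𝟙 _ := bigMap_id _
    rw [Category.assoc, bigMap_pb, h1]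
    refine (congrArg (_ ≫ ·) (Category.comp_id _)).trans ?_
    refine (cancel_mono (bigUnit ι J).hom).1 (Eq.trans ?_ (Iso.inv_hom_id _).symm)
    exact (Category.assoc _ _ _).trans ((congrArg (_ ≫ ·) pb_bigUnit).trans
      (congrArg Gr.Hom.hom (bigUnit ι (Gr J Λ)).inv_hom_id)))
  tensor x y := Gr.hom_ext (by
    change ((bigTensor (fun _ : ι => (Gr.mapO (𝟭 J) ρ).obj x)
        fun _ => (Gr.mapO (𝟭 J) ρ).obj y).inv.hom ≫
        (bigMap fun _ : ι => μ (Gr.mapO (𝟭 J) ρ) x y).hom) ≫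
      (pb fun _ : ι => (Gr.mapO (𝟭 J) ρ).obj (x ⊗ y)).hom =
      ((pb fun _ : ι => (Gr.mapO (𝟭 J) ρ).obj x).hom ⊗ₘ
        (pb fun _ : ι => (Gr.mapO (𝟭 J) ρ).obj y).hom) ≫
        (bigTensor (fun _ : ι => x.ob) fun _ => y.ob).inv
    have h1 : bigMap (fun _ : ι => (μ (Gr.mapO (𝟭 J) ρ) x y).hom) = 𝟙 _ := bigMap_id _
    rw [Category.assoc, bigMap_pb, h1]
    refine (congrArg (_ ≫ ·) (Category.comp_id _)).trans ?_
    refine (Iso.eq_comp_inv _).2 ((Category.assoc _ _ _).trans ?_)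
    refine (congrArg (_ ≫ ·) (pb_bigTensor _ _)).trans ((Category.assoc _ _ _).symm.trans ?_)
    rw [← Gr.comp_hom, Iso.inv_hom_id]
    exact Category.id_comp _)

theorem eqv_tauO [MulAction G ι] : Eqv (tauO J h) (grAct (powAct J G ι) φ) := fun g x =>
  Gr.hom_ext (bigEquiv_pb (MulAction.toPerm g : ι ≃ ι) fun _ => (Gr.mapO (𝟭 J) ρ).obj x)

theorem isIso_tap_tauO {x : Gr J Λ} (hx : φ x.deg ≤ Nat.card ι • ρ x.deg) :
    IsIso (tap (tauO J h) x) :=
  have : IsIso (tap (tauO J h) x).hom :=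
    (pb fun _ : ι => (Gr.mapO (𝟭 J) ρ).obj x).isIso_hom
  Gr.isIso_of_hom _ (hx.trans (pw_deg ((Gr.mapO (𝟭 J) ρ).obj x)).ge)

end gr

section le0

/-- the truncation of the filtration degree -/
def trO : Gam →o Gam where
  toFun g := (g.1, min g.2 0)
  monotone' _ _ h := ⟨h.1, min_le_min_right _ h.2⟩

@[simp] theorem trO_apply (g : Gam) : trO g = (g.1, min g.2 0) := rfl

instance : Gr.SupAdd trO where
  zero_le := ⟨le_rfl, by simp⟩
  add_le a b := ⟨le_rfl, by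
    change min a.2 0 + min b.2 0 ≤ min (a.2 + b.2) 0
    omega⟩

theorem trO_le (g : Gam) : trO g ≤ g := ⟨le_rfl, min_le_left _ _⟩

/-- the truncation of the index category -/
noncomputable abbrev trJ : JG ⥤ JG := Gr.mapO (𝟭 O) trO

/-- the counit of the truncation of the index category -/
noncomputable abbrev eJ : trJ ⟶ 𝟭 JG := eO trO_le

/-- the counit `B^{≤ 0} ⟶ B` -/
noncomputable abbrev eM : res trJ ⟶ 𝟭 MM := resE eJ

theorem idem_eJ : Idem eJ := idem_eO trO_le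

theorem idem_eM : Idem eM := idem_eJ.resE

theorem co_eJ {x : JG} (hx : x.deg.2 ≤ 0) : Co eJ x :=
  co_eO trO_le ⟨le_rfl, le_min le_rfl hx⟩

/-- objects generated in filtration degrees `≤ 0` -/
abbrev Le0 (X : MM) : Prop := Co eM X

theorem degIso_eM (X : MM) : C.DegIso O {g : Gam | g.2 ≤ 0} (eap eM X) := fun x hx => by
  have : IsIso (eap eJ x) := co_eJ hx
  exact ⟨X.map (inv (eap eJ x)), by
    change X.map (eap eJ x) ≫ _ = 𝟙 (X.obj (trJ.obj x))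
    rw [← X.map_comp, IsIso.hom_inv_id, X.map_id], by
    change _ ≫ X.map (eap eJ x) = 𝟙 (X.obj x)
    rw [← X.map_comp, IsIso.inv_hom_id, X.map_id]⟩

namespace Le0

variable {X Y : MM}

theorem of_deg {P : Set Gam} (h : C.Deg X P) (hP : ∀ g ∈ P, g.2 ≤ 0) : Le0 X := by
  obtain ⟨s, hs⟩ := (h.coloc _ ((degIso_eM X).mono hP)).2 (𝟙 X)
  exact idem_eM.co s hs

theorem of_iso (h : Le0 X) (e : X ≅ Y) : Le0 Y := Co.of_iso h e

theorem unit : Le0 (𝟙_ MM) := Co.unit idem_eM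

theorem tensor (h : Le0 X) (k : Le0 Y) : Le0 (X ⊗ Y) := Co.tensor idem_eM h k

theorem rep {x : JG} (hx : x.deg.2 ≤ 0) : Le0 (rep x) := co_rep idem_eJ (co_eJ hx)

theorem rp {g : Gam} (hg : g.2 ≤ 0) : Le0 (rp g) := rep hg

theorem j (K : LC) : Le0 ((StabInput.J MM).obj K) := co_jC idem_eJ K

theorem tpow (h : Le0 X) : ∀ n, Le0 (tpow X n)
  | 0 => unit
  | n + 1 => h.tensor (tpow h n)

theorem big {ι : Type} [Finite ι] {X : ι → MM} (h : ∀ i, Le0 (X i)) : Le0 (big X) :=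
  Co.big idem_eM h

theorem of_isColimit {K : Type} [SmallCategory K] {F : K ⥤ MM} {c : Cocone F}
    (hc : IsColimit c) (hF : ∀ j, Le0 (F.obj j)) : Le0 c.pt := Co.of_isColimit idem_eM hc hF

theorem of_isPushout {A B C D : MM} {f : A ⟶ B} {g : A ⟶ C} {i : B ⟶ D} {j : C ⟶ D}
    (k : IsPushout f g i j) (hA : Le0 A) (hB : Le0 B) (hC : Le0 C) : Le0 D :=
  Co.of_isPushout idem_eM k hA hB hC

theorem cone {f : X ⟶ Y} (hX : Le0 X) (hY : Le0 Y) : Le0 (cone f) :=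
  of_isPushout (isPushout_cone f) hX (hX.tensor (j _)) hY

theorem of_isAtt {c : X ⟶ Y} {B B' : CommMon MM} {x : X ⟶ B.X} {i : B ⟶ B'}
    {χ : Y ⟶ B'.X} (H : IsAtt c x i χ) (hX : Le0 X) (hY : Le0 Y) (hB : Le0 B.X) : Le0 B'.X :=
  Co.of_isAtt idem_eM H hX hY hB

theorem of_isAttach {B B' : CommMon MM} {x : X ⟶ B.X} {i : B ⟶ B'}
    {χ : X ⊗ CI MM ⟶ B'.X} (H : IsAttach i x χ) (hX : Le0 X) (hB : Le0 B.X) : Le0 B'.X :=
  of_isAtt H hX (hX.tensor (j _)) hB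

theorem of_nf {g : Gam} {k : ℤ} (h : NF X g k) (hg : g.2 ≤ 0) : Le0 X := by
  obtain ⟨c, n, -, -, ⟨e⟩⟩ := h
  exact ((rep (x := ⟨c, g⟩) hg).tensor ((j _).tpow n)).of_iso e.symm

end Le0

end le0

section fr

/-- the scaling of degrees -/
noncomputable def scD (p lam : ℕ) : Gam →+o Gam where
  toFun g := (p • g.1, lam * g.2)
  map_zero' := by simp
  map_add' a b := by simp [mul_add]
  monotone' a b h := ⟨congrArg (p • ·) h.1, mul_le_mul_of_nonneg_left h.2 (Int.natCast_nonneg _)⟩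

@[simp] theorem scD_apply (p lam : ℕ) (g : Gam) : scD p lam g = (p • g.1, lam * g.2) := rfl

theorem trO_scD {p lam : ℕ} (h : lam ≤ p) (g : Gam) : p • trO g ≤ scD p lam g := by
  refine ⟨le_rfl, ?_⟩
  change p • min g.2 0 ≤ lam * g.2
  have : (lam : ℤ) ≤ p := by exact_mod_cast h
  rw [nsmul_eq_mul]
  rcases le_total g.2 0 with k | k
  · rw [min_eq_left k]
    nlinarith
  · rw [min_eq_right k, mul_zero]
    positivity

variable (G : Type) [Group G] (ι : Type) [Finite ι] [Nonempty ι] [MulAction G ι] (lam : ℕ)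

/-- the Frobenius of the index category -/
noncomputable abbrev FrJ : JG ⥤ JG := Gr.map (pow ι) (scD (Nat.card ι) lam)

/-- the action on the Frobenius of the index category -/
noncomputable abbrev frAct : FAct G (FrJ ι lam) := grAct (powAct O G ι) (scD (Nat.card ι) lam)

/-- the left adjoint `Fr_!` -/
noncomputable abbrev FrL : MM ⥤ Action MM G := lanG (frAct G ι lam)

/-- the right adjoint `Fr^*` -/
noncomputable abbrev FrR : Action MM G ⥤ MM := resG (frAct G ι lam)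

/-- the adjunction -/
noncomputable abbrev frAdj : FrL G ι lam ⊣ FrR G ι lam := adjG (frAct G ι lam)

variable {ι lam} (hl : lam ≤ Nat.card ι)

/-- the comparison map -/
noncomputable abbrev tauJ : trJ ⋙ pow ι ⟶ FrJ ι lam := tauO O (trO_scD hl)

theorem eqvJ : Eqv (tauJ hl) (frAct G ι lam) := eqv_tauO _

theorem isIso_tap_tauJ {x : JG} (hx : x.deg.2 = 0) : IsIso (tap (tauJ hl) x) :=
  isIso_tap_tauO _ ⟨le_rfl, by
    change lam * x.deg.2 ≤ Nat.card ι • min x.deg.2 0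
    simp [hx]⟩

/-- the diagonal -/
noncomputable abbrev dgF {X : MM} (hX : Le0 X) : (FrL G ι lam).obj X ⟶ (powG MM G ι).obj X :=
  dg (eqvJ G hl) hX

theorem isIso_dgF_rep {x : JG} (hx : x.deg.2 = 0) (hX : Le0 (rep x)) : IsIso (dgF G hl hX) :=
  have := isIso_tap_tauJ hl hx
  isIso_dg_rep _ (co_eJ hx.le) hX

/-- the Frobenius -/
noncomputable abbrev frobF {B : CommMon MM} (hB : Le0 B.X) :
    B ⟶ (FrR G ι lam).mapCommMon.obj (trivC G B) := frobA (eqvJ G hl) hB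

end fr

end Vale.Agent.P257.T
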